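import Claimed.Agent.R292.Spec.Mix222
import Claimed.Agent.R291.Wick.Green2

/-!
# Row 292 (S0540), Spec/Close179 : CLOSING THE GAP BETWEEN CELL WEIGHTS AND RIEMANN WEIGHTS, MODEL FREE      (owner helper179; prefix `ask_`, defs `ask*`)

The exits of unit SPEC speak of the cell arrays `aspW δ f`; the frozen pairing uses the Riemann weights `δ² f(δ v)`.
1. `ask_cs` Cauchy-Schwarz for `aspGam a` on zero-total arrays; the seminorm `askN a b = √(aspGam a b b)`: `ask_abs_le`, `ask_N_add`, `ask_N_sub_le`, `ask_N_smul`, `ask_N_sum`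
2. `ask_perturb` (abstract, any filter), `ask_perturb_row`; `ask_W_perturb`, `ask_rn_perturb` : the limits of `AspPCF`, `AspPC`, `AspGreenF`, `AspRN` hold for every pair of zero-total families close to the cell arrays
3. `ask_log` : `a u ≤ C (1 + log (1 + |u.1| + |u.2|))²` from `AspIn.sm` by dyadic telescoping of box averages; `ask_N_pair_log`
4. (all along ANY family of meshes `δ i ↓ 0`, filter `l` on `ι`; full limit = `l = 𝓝[>] 0`, `δ = id`, `tendsto_id`)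
   `ask_N_small`, `ask_small_bound`, `ask_small_tendsto` : zero total + support in a box `A/δ` + entries `≤ B δ³` off one site ⟹ variance `→ 0`;
   cells: `ask_cell_*`, `ask_W_apply`, `ask_W_supp`, `ask_W_tot` (`aspTot (aspW δ f) = ∫ f`), `ask_W_bdd` (bounded variance), `ask_lap_test`, `ask_lap_int`;
   `askRie δ f` (= `δ² f(δ v)`, `ask_rie_apply`), `askRieN δ f v0` (mass removed at `v0`), `ask_rie_mass` (`|mass| ≤ C δ`), **`ask_rie_close`**;
   **`ask_W_rie`, `ask_pcf_rie`, `ask_pc_rie`, `ask_green_rie`, `ask_rn_rie`**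
-/

set_option autoImplicit false

namespace Claimed.Agent.R292

open Claims Claims.C0468 MeasureTheory Filter Topology Set

/-! ## 1. algebra of the form, Cauchy-Schwarz, the seminorm -/

theorem ask_gam_add_left (a : AspG → ℝ) (b c d : AspG →₀ ℝ) :
    aspGam a (b + c) d = aspGam a b d + aspGam a c d := by
  simp only [asp222_gam_eq, map_add, LinearMap.add_apply]

theorem ask_gam_add_right (a : AspG → ℝ) (b c d : AspG →₀ ℝ) :
    aspGam a b (c + d) = aspGam a b c + aspGam a b d := by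
  simp only [asp222_gam_eq, map_add]

theorem ask_gam_sub_left (a : AspG → ℝ) (b c d : AspG →₀ ℝ) :
    aspGam a (b - c) d = aspGam a b d - aspGam a c d := by
  simp only [asp222_gam_eq, map_sub, LinearMap.sub_apply]

theorem ask_gam_sub_right (a : AspG → ℝ) (b c d : AspG →₀ ℝ) :
    aspGam a b (c - d) = aspGam a b c - aspGam a b d := by
  simp only [asp222_gam_eq, map_sub]

theorem ask_gam_smul_left (a : AspG → ℝ) (x : ℝ) (b d : AspG →₀ ℝ) :
    aspGam a (x • b) d = x * aspGam a b d := by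
  simp only [asp222_gam_eq, map_smul, LinearMap.smul_apply, smul_eq_mul]

theorem ask_gam_smul_right (a : AspG → ℝ) (x : ℝ) (b d : AspG →₀ ℝ) :
    aspGam a b (x • d) = x * aspGam a b d := by
  simp only [asp222_gam_eq, map_smul, smul_eq_mul]

theorem ask_gam_zero_left (a : AspG → ℝ) (d : AspG →₀ ℝ) : aspGam a 0 d = 0 := by
  simp only [asp222_gam_eq, map_zero, LinearMap.zero_apply]

theorem ask_gam_zero_right (a : AspG → ℝ) (d : AspG →₀ ℝ) : aspGam a d 0 = 0 := by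
  simp only [asp222_gam_eq, map_zero]

theorem ask_gam_comm {a : AspG → ℝ} (h : AspIn a) (b b' : AspG →₀ ℝ) :
    aspGam a b b' = aspGam a b' b :=
  asp222_gam_symm a (asp222_even h) b b'

theorem ask_tot_zero : aspTot (0 : AspG →₀ ℝ) = 0 := by simp [aspTot]

theorem ask_tot_neg (b : AspG →₀ ℝ) : aspTot (-b) = -aspTot b := by
  have := asp222_tot_smul (-1) b
  simpa using this

theorem ask_tot_sub (b b' : AspG →₀ ℝ) : aspTot (b - b') = aspTot b - aspTot b' := by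
  rw [sub_eq_add_neg, asp222_tot_add, ask_tot_neg, sub_eq_add_neg]

/-- **Cauchy-Schwarz** on zero-total arrays. -/
theorem ask_cs {a : AspG → ℝ} (h : AspIn a) {b b' : AspG →₀ ℝ} (hb : aspTot b = 0)
    (hb' : aspTot b' = 0) : aspGam a b b' ^ 2 ≤ aspGam a b b * aspGam a b' b' := by
  have key : ∀ x : ℝ, 0 ≤ aspGam a b' b' * (x * x) + 2 * aspGam a b b' * x + aspGam a b b := by
    intro x
    have h0 : aspTot (b + x • b') = 0 := by
      rw [asp222_tot_add, asp222_tot_smul, hb, hb']; ring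
    have h1 := h.psd _ h0
    rw [ask_gam_add_left, ask_gam_add_right, ask_gam_add_right, ask_gam_smul_left,
      ask_gam_smul_left, ask_gam_smul_right, ask_gam_smul_right, ask_gam_comm h b' b] at h1
    nlinarith
  have h2 := discrim_le_zero key
  unfold discrim at h2
  nlinarith

/-- the seminorm of the covariance form. -/
noncomputable def askN (a : AspG → ℝ) (b : AspG →₀ ℝ) : ℝ := Real.sqrt (aspGam a b b)

theorem ask_N_nonneg (a : AspG → ℝ) (b : AspG →₀ ℝ) : 0 ≤ askN a b := Real.sqrt_nonneg _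

theorem ask_N_sq {a : AspG → ℝ} (h : AspIn a) {b : AspG →₀ ℝ} (hb : aspTot b = 0) :
    askN a b ^ 2 = aspGam a b b := Real.sq_sqrt (h.psd b hb)

theorem ask_N_zero (a : AspG → ℝ) : askN a 0 = 0 := by
  unfold askN; rw [ask_gam_zero_left, Real.sqrt_zero]

theorem ask_abs_le {a : AspG → ℝ} (h : AspIn a) {b b' : AspG →₀ ℝ} (hb : aspTot b = 0)
    (hb' : aspTot b' = 0) : |aspGam a b b'| ≤ askN a b * askN a b' := by
  unfold askN
  rw [← Real.sqrt_mul (h.psd b hb)]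
  apply Real.abs_le_sqrt
  exact ask_cs h hb hb'

theorem ask_N_add {a : AspG → ℝ} (h : AspIn a) {b b' : AspG →₀ ℝ} (hb : aspTot b = 0)
    (hb' : aspTot b' = 0) : askN a (b + b') ≤ askN a b + askN a b' := by
  have h0 : aspTot (b + b') = 0 := by rw [asp222_tot_add, hb, hb']; ring
  apply abs_le_of_sq_le_sq' _ (add_nonneg (ask_N_nonneg a b) (ask_N_nonneg a b')) |>.2
  rw [ask_N_sq h h0, add_sq, ask_N_sq h hb, ask_N_sq h hb', ask_gam_add_left, ask_gam_add_right,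
    ask_gam_add_right, ask_gam_comm h b' b]
  have := (le_abs_self _).trans (ask_abs_le h hb hb')
  nlinarith

theorem ask_N_smul (a : AspG → ℝ) (x : ℝ) (b : AspG →₀ ℝ) : askN a (x • b) = |x| * askN a b := by
  unfold askN
  rw [ask_gam_smul_left, ask_gam_smul_right, ← mul_assoc, Real.sqrt_mul (mul_self_nonneg x),
    Real.sqrt_mul_self_eq_abs]

theorem ask_N_neg (a : AspG → ℝ) (b : AspG →₀ ℝ) : askN a (-b) = askN a b := by
  have := ask_N_smul a (-1) b
  simpa using this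

theorem ask_N_sub_le {a : AspG → ℝ} (h : AspIn a) {b b' : AspG →₀ ℝ} (hb : aspTot b = 0)
    (hb' : aspTot b' = 0) : askN a (b - b') ≤ askN a b + askN a b' := by
  rw [sub_eq_add_neg, ← ask_N_neg a b']
  exact ask_N_add h hb (by rw [ask_tot_neg, hb', neg_zero])

theorem ask_N_sum {a : AspG → ℝ} (h : AspIn a) {ι : Type*} (s : Finset ι) (f : ι → AspG →₀ ℝ)
    (hf : ∀ i ∈ s, aspTot (f i) = 0) : askN a (∑ i ∈ s, f i) ≤ ∑ i ∈ s, askN a (f i) := by
  classical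
  induction s using Finset.induction_on with
  | empty => simp [ask_N_zero]
  | insert i s hi ih =>
    rw [Finset.sum_insert hi, Finset.sum_insert hi]
    have h1 : aspTot (∑ j ∈ s, f j) = 0 := by
      rw [asp222_tot_sum]
      exact Finset.sum_eq_zero fun j hj => hf j (Finset.mem_insert_of_mem hj)
    refine (ask_N_add h (hf i (Finset.mem_insert_self i s)) h1).trans ?_
    have := ih fun j hj => hf j (Finset.mem_insert_of_mem hj)
    linarith

theorem ask_N_le_of_gam_le {a : AspG → ℝ} {b : AspG →₀ ℝ} {K : ℝ} (hK : aspGam a b b ≤ K) :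
    askN a b ≤ Real.sqrt K := Real.sqrt_le_sqrt hK

/-! ## 2. perturbation -/

/-- **Abstract perturbation lemma.**  Zero-total families `b, b'` close in the seminorm to bounded
families `w, w'` have the same limit of the covariance. -/
theorem ask_perturb {a : AspG → ℝ} (h : AspIn a) {ι : Type*} {l : Filter ι}
    {b b' w w' : ι → AspG →₀ ℝ}
    (hb : ∀ᶠ i in l, aspTot (b i) = 0) (hb' : ∀ᶠ i in l, aspTot (b' i) = 0)
    (hw : ∀ᶠ i in l, aspTot (w i) = 0) (hw' : ∀ᶠ i in l, aspTot (w' i) = 0)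
    (h1 : Tendsto (fun i => aspGam a (b i - w i) (b i - w i)) l (𝓝 0))
    (h2 : Tendsto (fun i => aspGam a (b' i - w' i) (b' i - w' i)) l (𝓝 0))
    {K K' : ℝ} (hK : ∀ᶠ i in l, aspGam a (w i) (w i) ≤ K)
    (hK' : ∀ᶠ i in l, aspGam a (w' i) (w' i) ≤ K')
    {L : ℝ} (hL : Tendsto (fun i => aspGam a (w i) (w' i)) l (𝓝 L)) :
    Tendsto (fun i => aspGam a (b i) (b' i)) l (𝓝 L) := by
  have e1 : Tendsto (fun i => askN a (b i - w i)) l (𝓝 0) := by
    have := (Real.continuous_sqrt.tendsto 0).comp h1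
    simpa [askN, Function.comp_def] using this
  have e2 : Tendsto (fun i => askN a (b' i - w' i)) l (𝓝 0) := by
    have := (Real.continuous_sqrt.tendsto 0).comp h2
    simpa [askN, Function.comp_def] using this
  have hbound : Tendsto (fun i => askN a (b i - w i) * (Real.sqrt K' + askN a (b' i - w' i))
      + Real.sqrt K * askN a (b' i - w' i)) l (𝓝 0) := by
    have := (e1.mul (e2.const_add (Real.sqrt K'))).add (e2.const_mul (Real.sqrt K))
    simpa using this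
  have hdiff : Tendsto (fun i => aspGam a (b i) (b' i) - aspGam a (w i) (w' i)) l (𝓝 0) := by
    apply squeeze_zero_norm' _ hbound
    filter_upwards [hb, hb', hw, hw', hK, hK'] with i t1 t2 t3 t4 k1 k2
    have z1 : aspTot (b i - w i) = 0 := by rw [ask_tot_sub, t1, t3]; ring
    have z2 : aspTot (b' i - w' i) = 0 := by rw [ask_tot_sub, t2, t4]; ring
    have split : aspGam a (b i) (b' i) - aspGam a (w i) (w' i)
        = aspGam a (b i - w i) (b' i) + aspGam a (w i) (b' i - w' i) := by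
      rw [ask_gam_sub_left, ask_gam_sub_right]; ring
    have n1 : askN a (b' i) ≤ Real.sqrt K' + askN a (b' i - w' i) := by
      have e : b' i = w' i + (b' i - w' i) := by abel
      calc askN a (b' i) = askN a (w' i + (b' i - w' i)) := by rw [← e]
        _ ≤ askN a (w' i) + askN a (b' i - w' i) := ask_N_add h t4 z2
        _ ≤ Real.sqrt K' + askN a (b' i - w' i) := by
            have := ask_N_le_of_gam_le k2
            linarith
    rw [Real.norm_eq_abs, split]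
    calc |aspGam a (b i - w i) (b' i) + aspGam a (w i) (b' i - w' i)|
        ≤ |aspGam a (b i - w i) (b' i)| + |aspGam a (w i) (b' i - w' i)| := abs_add_le _ _
      _ ≤ askN a (b i - w i) * askN a (b' i) + askN a (w i) * askN a (b' i - w' i) :=
          add_le_add (ask_abs_le h z1 t2) (ask_abs_le h t3 z2)
      _ ≤ askN a (b i - w i) * (Real.sqrt K' + askN a (b' i - w' i))
          + Real.sqrt K * askN a (b' i - w' i) := by
          apply add_le_add
          · exact mul_le_mul_of_nonneg_left n1 (ask_N_nonneg _ _)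
          · exact mul_le_mul_of_nonneg_right (ask_N_le_of_gam_le k1) (ask_N_nonneg _ _)
  have := hdiff.add hL
  simpa using this

/-- the form is invariant under the row reflections. -/
theorem ask_row_inv {a : AspG → ℝ} (h : AspIn a) (i : Fin 4) (j : ℤ) (u v : AspG) :
    a (aspRow i j u - aspRow i j v) = a (u - v) := by
  fin_cases i
  · have e : aspRow 0 j u - aspRow 0 j v = ((u - v).1, -(u - v).2) := by
      simp only [aspRow]; ext <;> simp
    show a (aspRow 0 j u - aspRow 0 j v) = _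
    rw [e, asp222_symY h]
  · have e : aspRow 1 j u - aspRow 1 j v = ((u - v).2, (u - v).1) := by
      simp only [aspRow]; ext <;> simp
    show a (aspRow 1 j u - aspRow 1 j v) = _
    rw [e, h.symS]
  · have e : aspRow 2 j u - aspRow 2 j v = (-(u - v).1, (u - v).2) := by
      simp only [aspRow]; ext <;> simp
    show a (aspRow 2 j u - aspRow 2 j v) = _
    rw [e, h.symX]
  · have e : aspRow 3 j u - aspRow 3 j v = -((u - v).2, (u - v).1) := by
      simp only [aspRow]; ext <;> simp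
    show a (aspRow 3 j u - aspRow 3 j v) = _
    rw [e, asp222_even h, h.symS]

theorem ask_gam_row {a : AspG → ℝ} (h : AspIn a) (i : Fin 4) (j : ℤ) (b b' : AspG →₀ ℝ) :
    aspGam a (aspMap (aspRow i j) b) (aspMap (aspRow i j) b') = aspGam a b b' :=
  asp222_gam_map a _ (ask_row_inv h i j) b b'

theorem ask_gam_tr (a : AspG → ℝ) (w : AspG) (b b' : AspG →₀ ℝ) :
    aspGam a (aspTr w b) (aspTr w b') = aspGam a b b' :=
  asp222_gam_map a (· + w) (fun u v => by simp) b b'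

theorem ask_tot_map (σ : AspG → AspG) (b : AspG →₀ ℝ) : aspTot (aspMap σ b) = aspTot b := by
  unfold aspTot aspMap
  exact Finsupp.sum_mapDomain_index (fun _ => rfl) (fun _ _ _ => rfl)

theorem ask_tot_tr (w : AspG) (b : AspG →₀ ℝ) : aspTot (aspTr w b) = aspTot b :=
  ask_tot_map (· + w) b

theorem ask_map_sub (σ : AspG → AspG) (b b' : AspG →₀ ℝ) :
    aspMap σ (b - b') = aspMap σ b - aspMap σ b' := by
  unfold aspMap
  exact map_sub (Finsupp.lmapDomain ℝ ℝ σ) b b'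

/-- perturbation of a reflected covariance (shape of `AspRN`). -/
theorem ask_perturb_row {a : AspG → ℝ} (h : AspIn a) {ι : Type*} {l : Filter ι}
    {b w : ι → AspG →₀ ℝ} (i : Fin 4) (j : ι → ℤ)
    (hb : ∀ᶠ x in l, aspTot (b x) = 0) (hw : ∀ᶠ x in l, aspTot (w x) = 0)
    (h1 : Tendsto (fun x => aspGam a (b x - w x) (b x - w x)) l (𝓝 0))
    {K : ℝ} (hK : ∀ᶠ x in l, aspGam a (w x) (w x) ≤ K)
    {L : ℝ} (hL : Tendsto (fun x => aspGam a (aspMap (aspRow i (j x)) (w x)) (w x)) l (𝓝 L)) :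
    Tendsto (fun x => aspGam a (aspMap (aspRow i (j x)) (b x)) (b x)) l (𝓝 L) := by
  refine ask_perturb h (b := fun x => aspMap (aspRow i (j x)) (b x)) (b' := b)
    (w := fun x => aspMap (aspRow i (j x)) (w x)) (w' := w) ?_ hb ?_ hw ?_ h1 (K := K) (K' := K)
    ?_ hK hL
  · filter_upwards [hb] with x hx; rw [ask_tot_map, hx]
  · filter_upwards [hw] with x hx; rw [ask_tot_map, hx]
  · refine h1.congr fun x => ?_
    rw [← ask_map_sub, ask_gam_row h]
  · filter_upwards [hK] with x hx; rw [ask_gam_row h]; exact hx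

/-! ## 3. the logarithmic bound of the variogram -/

/-- scaled form of `AspIn.sm`. -/
theorem ask_sm_scaled {a : AspG → ℝ} (h : AspIn a) : ∃ K : ℝ, 0 ≤ K ∧ ∀ N : ℕ, 1 ≤ N → ∀ c : ℝ, 0 ≤ c →
    ∀ b : AspG →₀ ℝ, aspTot b = 0 → (∀ u ∈ b.support, |u.1| ≤ (N : ℤ) ∧ |u.2| ≤ (N : ℤ)) →
    (∀ u, |b u| ≤ c / (N : ℝ) ^ 2) → aspGam a b b ≤ c ^ 2 * K := by
  obtain ⟨K, hK⟩ := h.sm
  have hK0 : 0 ≤ K := by
    have := hK 1 le_rfl 0 ask_tot_zero (by simp) (by intro u; simp)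
    rwa [ask_gam_zero_left] at this
  refine ⟨K, hK0, fun N hN c hc b hb hs hsup => ?_⟩
  rcases hc.eq_or_lt with rfl | hc
  · have : b = 0 := by
      ext u
      have := hsup u
      rw [zero_div] at this
      simpa using abs_nonpos_iff.1 this
    rw [this, ask_gam_zero_left]; simp
  · have h1 := hK N hN (c⁻¹ • b) (by rw [asp222_tot_smul, hb, mul_zero])
      (fun u hu => hs u (Finsupp.support_smul hu))
      (fun u => by
        rw [Finsupp.smul_apply, smul_eq_mul, abs_mul, abs_of_pos (inv_pos.2 hc)]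
        have := hsup u
        rw [inv_mul_le_iff₀ hc]
        calc |b u| ≤ c / (N : ℝ) ^ 2 := this
          _ = c * (1 / (N : ℝ) ^ 2) := by ring)
    rw [ask_gam_smul_left, ask_gam_smul_right] at h1
    have h2 : aspGam a b b = c ^ 2 * (c⁻¹ * (c⁻¹ * aspGam a b b)) := by
      field_simp
    rw [h2]
    exact mul_le_mul_of_nonneg_left h1 (by positivity)

theorem ask_tr_apply (w : AspG) (b : AspG →₀ ℝ) (y : AspG) : aspTr w b y = b (y - w) := by
  unfold aspTr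
  have h := Finsupp.mapDomain_apply (add_left_injective w) b (y - w)
  simpa using h

/-- the dyadic box `[0, 2^j)²`. -/
noncomputable def askBox (j : ℕ) : Finset AspG := Finset.Ico (0 : ℤ) (2 ^ j) ×ˢ Finset.Ico (0 : ℤ) (2 ^ j)

theorem ask_mem_box {j : ℕ} {y : AspG} :
    y ∈ askBox j ↔ (0 ≤ y.1 ∧ y.1 < 2 ^ j) ∧ (0 ≤ y.2 ∧ y.2 < 2 ^ j) := by
  simp [askBox, Finset.mem_product]

theorem ask_box_card (j : ℕ) : ((askBox j).card : ℝ) = 4 ^ j := by
  unfold askBox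
  rw [Finset.card_product, Int.card_Ico]
  have : ((2 : ℤ) ^ j - 0).toNat = 2 ^ j := by
    rw [sub_zero]
    have : ((2 : ℤ) ^ j) = ((2 ^ j : ℕ) : ℤ) := by push_cast; rfl
    rw [this, Int.toNat_natCast]
  rw [this]
  push_cast
  rw [← mul_pow]; norm_num

theorem ask_box_mono (j : ℕ) : askBox j ⊆ askBox (j + 1) := by
  intro y hy
  rw [ask_mem_box] at hy ⊢
  have : (2 : ℤ) ^ j ≤ 2 ^ (j + 1) := by
    rw [pow_succ]; have : (0 : ℤ) < 2 ^ j := by positivity
    linarith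
  exact ⟨⟨hy.1.1, hy.1.2.trans_le this⟩, ⟨hy.2.1, hy.2.2.trans_le this⟩⟩

open Classical in
/-- the uniform average over the dyadic box. -/
noncomputable def askAvg (j : ℕ) : AspG →₀ ℝ :=
  Finsupp.onFinset (askBox j) (fun y => if y ∈ askBox j then ((4 : ℝ) ^ j)⁻¹ else 0)
    (by intro y hy; by_contra hc; simp [hc] at hy)

open Classical in
theorem ask_avg_apply (j : ℕ) (y : AspG) :
    askAvg j y = if y ∈ askBox j then ((4 : ℝ) ^ j)⁻¹ else 0 := rfl

theorem ask_avg_of_not_mem {j : ℕ} {y : AspG} (h : y ∉ askBox j) : askAvg j y = 0 := by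
  rw [ask_avg_apply, if_neg h]

theorem ask_avg_nonneg (j : ℕ) (y : AspG) : 0 ≤ askAvg j y := by
  rw [ask_avg_apply]; split_ifs <;> positivity

theorem ask_avg_le (j : ℕ) (y : AspG) : askAvg j y ≤ ((4 : ℝ) ^ j)⁻¹ := by
  rw [ask_avg_apply]; split_ifs
  · exact le_rfl
  · positivity

theorem ask_avg_tot (j : ℕ) : aspTot (askAvg j) = 1 := by
  classical
  unfold aspTot askAvg
  rw [Finsupp.onFinset_sum _ (fun _ => rfl)]
  rw [Finset.sum_congr rfl (fun y hy => if_pos hy), Finset.sum_const, nsmul_eq_mul, ask_box_card]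
  exact mul_inv_cancel₀ (by positivity)

theorem ask_avg_zero : askAvg 0 = Finsupp.single 0 1 := by
  classical
  ext y
  rw [ask_avg_apply, Finsupp.single_apply]
  have : y ∈ askBox 0 ↔ (0 : AspG) = y := by
    rw [ask_mem_box]
    constructor
    · rintro ⟨⟨h1, h2⟩, ⟨h3, h4⟩⟩
      ext
      · simp only [Prod.fst_zero]; simp only [pow_zero] at h2; omega
      · simp only [Prod.snd_zero]; simp only [pow_zero] at h4; omega
    · rintro rfl; simp
  by_cases hy : (0 : AspG) = y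
  · rw [if_pos (this.2 hy), if_pos hy]; simp
  · rw [if_neg (fun hc => hy (this.1 hc)), if_neg hy]

theorem ask_four_pow (j : ℕ) : ((4 : ℝ) ^ j)⁻¹ = 4 / (((2 ^ (j + 1) : ℕ) : ℝ)) ^ 2 := by
  push_cast
  rw [← pow_mul, pow_mul', pow_succ]
  have : ((2 : ℝ) ^ 2) = 4 := by norm_num
  rw [this]
  field_simp

/-- difference of two arrays with values in `[0, M]`. -/
theorem ask_abs_sub_le {x y M : ℝ} (hx0 : 0 ≤ x) (hx : x ≤ M) (hy0 : 0 ≤ y) (hy : y ≤ M) :
    |x - y| ≤ M := by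
  rw [abs_le]; constructor <;> linarith

theorem ask_step {a : AspG → ℝ} {K : ℝ}
    (hK : ∀ N : ℕ, 1 ≤ N → ∀ c : ℝ, 0 ≤ c →
      ∀ b : AspG →₀ ℝ, aspTot b = 0 → (∀ u ∈ b.support, |u.1| ≤ (N : ℤ) ∧ |u.2| ≤ (N : ℤ)) →
      (∀ u, |b u| ≤ c / (N : ℝ) ^ 2) → aspGam a b b ≤ c ^ 2 * K) (j : ℕ) :
    aspGam a (askAvg j - askAvg (j + 1)) (askAvg j - askAvg (j + 1)) ≤ 4 ^ 2 * K := by
  refine hK (2 ^ (j + 1)) Nat.one_le_two_pow 4 (by norm_num) _
    (by rw [ask_tot_sub, ask_avg_tot, ask_avg_tot]; ring) ?_ ?_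
  · intro u hu
    have hu' : u ∈ askBox (j + 1) := by
      by_contra hc
      rw [Finsupp.mem_support_iff, Finsupp.sub_apply, ask_avg_of_not_mem hc,
        ask_avg_of_not_mem (fun h => hc (ask_box_mono j h))] at hu
      simp at hu
    rw [ask_mem_box] at hu'
    push_cast
    constructor <;> rw [abs_le] <;> constructor <;> linarith [hu'.1.1, hu'.1.2, hu'.2.1, hu'.2.2]
  · intro u
    rw [Finsupp.sub_apply, ← ask_four_pow]
    refine ask_abs_sub_le (ask_avg_nonneg _ _) (ask_avg_le _ _) (ask_avg_nonneg _ _)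
      ((ask_avg_le _ _).trans ?_)
    apply inv_anti₀ (by positivity)
    exact pow_le_pow_right₀ (by norm_num) (Nat.le_succ j)

theorem ask_mid {a : AspG → ℝ} {K : ℝ}
    (hK : ∀ N : ℕ, 1 ≤ N → ∀ c : ℝ, 0 ≤ c →
      ∀ b : AspG →₀ ℝ, aspTot b = 0 → (∀ u ∈ b.support, |u.1| ≤ (N : ℤ) ∧ |u.2| ≤ (N : ℤ)) →
      (∀ u, |b u| ≤ c / (N : ℝ) ^ 2) → aspGam a b b ≤ c ^ 2 * K) (J : ℕ) (u : AspG)
    (hu1 : |u.1| ≤ 2 ^ J) (hu2 : |u.2| ≤ 2 ^ J) :
    aspGam a (aspTr u (askAvg J) - askAvg J) (aspTr u (askAvg J) - askAvg J) ≤ 4 ^ 2 * K := by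
  refine hK (2 ^ (J + 1)) Nat.one_le_two_pow 4 (by norm_num) _
    (by rw [ask_tot_sub, ask_tot_tr, ask_avg_tot]; ring) ?_ ?_
  · intro y hy
    have hy' : y - u ∈ askBox J ∨ y ∈ askBox J := by
      by_contra hc
      push Not at hc
      rw [Finsupp.mem_support_iff, Finsupp.sub_apply, ask_tr_apply, ask_avg_of_not_mem hc.1,
        ask_avg_of_not_mem hc.2] at hy
      simp at hy
    rw [abs_le] at hu1 hu2
    have e : ((2 ^ (J + 1) : ℕ) : ℤ) = 2 ^ J + 2 ^ J := by push_cast; ring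
    rw [e]
    have hp : (0 : ℤ) < 2 ^ J := by positivity
    rcases hy' with h | h <;> rw [ask_mem_box] at h
    · simp only [Prod.fst_sub, Prod.snd_sub] at h
      constructor <;> rw [abs_le] <;> constructor <;>
        linarith [h.1.1, h.1.2, h.2.1, h.2.2, hu1.1, hu1.2, hu2.1, hu2.2]
    · constructor <;> rw [abs_le] <;> constructor <;> linarith [h.1.1, h.1.2, h.2.1, h.2.2]
  · intro y
    rw [Finsupp.sub_apply, ask_tr_apply, ← ask_four_pow]
    exact ask_abs_sub_le (ask_avg_nonneg _ _) (ask_avg_le _ _) (ask_avg_nonneg _ _) (ask_avg_le _ _)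

/-- the seminorm of `δ_u - δ_0` at dyadic scale `J`. -/
theorem ask_N_grad_le {a : AspG → ℝ} (h : AspIn a) : ∃ K : ℝ, 0 ≤ K ∧ ∀ (J : ℕ) (u : AspG),
    |u.1| ≤ 2 ^ J → |u.2| ≤ 2 ^ J → askN a (asp222G u) ≤ (2 * J + 1) * (4 * Real.sqrt K) := by
  obtain ⟨K, hK0, hK⟩ := ask_sm_scaled h
  refine ⟨K, hK0, fun J u hu1 hu2 => ?_⟩
  have hs : ∀ x : ℝ, x ≤ 4 ^ 2 * K → Real.sqrt x ≤ 4 * Real.sqrt K := by
    intro x hx
    calc Real.sqrt x ≤ Real.sqrt (4 ^ 2 * K) := Real.sqrt_le_sqrt hx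
      _ = 4 * Real.sqrt K := by
          rw [Real.sqrt_mul (by norm_num), Real.sqrt_sq (by norm_num)]
  have tele : ∀ J : ℕ, askN a (askAvg 0 - askAvg J) ≤ J * (4 * Real.sqrt K) := by
    intro J
    induction J with
    | zero => simp [ask_N_zero]
    | succ J ih =>
      have e : askAvg 0 - askAvg (J + 1) = (askAvg 0 - askAvg J) + (askAvg J - askAvg (J + 1)) := by
        abel
      rw [e]
      refine (ask_N_add h (by rw [ask_tot_sub, ask_avg_tot, ask_avg_tot]; ring)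
        (by rw [ask_tot_sub, ask_avg_tot, ask_avg_tot]; ring)).trans ?_
      have := hs _ (ask_step hK J)
      unfold askN at this ih ⊢
      push_cast
      linarith
  have e : asp222G u = aspTr u (askAvg 0 - askAvg J) + (aspTr u (askAvg J) - askAvg J)
      + -(askAvg 0 - askAvg J) := by
    have e1 : aspTr u (askAvg 0 - askAvg J) = aspTr u (askAvg 0) - aspTr u (askAvg J) :=
      ask_map_sub _ _ _
    have e2 : aspTr u (askAvg 0) = Finsupp.single u 1 := by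
      rw [ask_avg_zero, asp222_tr_single, zero_add]
    rw [e1, e2, ask_avg_zero]
    unfold asp222G
    abel
  have t0 : aspTot (askAvg 0 - askAvg J) = 0 := by rw [ask_tot_sub, ask_avg_tot, ask_avg_tot]; ring
  have t1 : aspTot (aspTr u (askAvg 0 - askAvg J)) = 0 := by rw [ask_tot_tr, t0]
  have t2 : aspTot (aspTr u (askAvg J) - askAvg J) = 0 := by
    rw [ask_tot_sub, ask_tot_tr, ask_avg_tot]; ring
  rw [e]
  refine (ask_N_add h (by rw [asp222_tot_add, t1, t2]; ring) (by rw [ask_tot_neg, t0]; ring)).trans ?_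
  have n1 := ask_N_add h t1 t2
  have n2 : askN a (aspTr u (askAvg 0 - askAvg J)) = askN a (askAvg 0 - askAvg J) := by
    unfold askN; rw [ask_gam_tr]
  have n3 : askN a (aspTr u (askAvg J) - askAvg J) ≤ 4 * Real.sqrt K := hs _ (ask_mid hK J u hu1 hu2)
  rw [ask_N_neg]
  have n4 := tele J
  rw [n2] at n1
  linarith

theorem ask_a_eq {a : AspG → ℝ} (h : AspIn a) (u : AspG) :
    aspGam a (asp222G u) (asp222G u) = a u := by
  unfold asp222G
  rw [ask_gam_sub_left, ask_gam_sub_right, ask_gam_sub_right]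
  simp only [asp222_gam_eq, asp222_gamL_single, sub_self, sub_zero, zero_sub, h.zero,
    asp222_even h u]
  ring

/-- the logarithmic size of a site. -/
noncomputable def askLg (u : AspG) : ℝ := 1 + Real.log (1 + |(u.1 : ℝ)| + |(u.2 : ℝ)|)

theorem ask_lg_one_le (u : AspG) : 1 ≤ askLg u := by
  unfold askLg
  have : 0 ≤ Real.log (1 + |(u.1 : ℝ)| + |(u.2 : ℝ)|) :=
    Real.log_nonneg (by have := abs_nonneg (u.1 : ℝ); have := abs_nonneg (u.2 : ℝ); linarith)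
  linarith

/-- **seminorm form of the log bound.** -/
theorem ask_N_grad_log {a : AspG → ℝ} (h : AspIn a) : ∃ C : ℝ, 0 ≤ C ∧ ∀ u : AspG,
    askN a (asp222G u) ≤ C * askLg u := by
  obtain ⟨K, hK0, hK⟩ := ask_N_grad_le h
  refine ⟨12 * Real.sqrt K, by positivity, fun u => ?_⟩
  set n : ℕ := u.1.natAbs + u.2.natAbs + 1 with hn
  have hn0 : n ≠ 0 := by omega
  set L : ℕ := Nat.log 2 n with hL
  have h1 : n < 2 ^ (L + 1) := Nat.lt_pow_succ_log_self (by norm_num) n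
  have h2 : 2 ^ L ≤ n := Nat.pow_log_le_self 2 hn0
  have hcast : (n : ℝ) = 1 + |(u.1 : ℝ)| + |(u.2 : ℝ)| := by
    rw [hn]; push_cast
    rw [Nat.cast_natAbs, Nat.cast_natAbs]; push_cast; ring
  have b1 : |u.1| ≤ 2 ^ (L + 1) := by
    have : (u.1.natAbs : ℤ) ≤ ((2 ^ (L + 1) : ℕ) : ℤ) := by exact_mod_cast (by omega : u.1.natAbs ≤ 2 ^ (L + 1))
    rw [Int.natCast_natAbs] at this; exact_mod_cast this
  have b2 : |u.2| ≤ 2 ^ (L + 1) := by
    have : (u.2.natAbs : ℤ) ≤ ((2 ^ (L + 1) : ℕ) : ℤ) := by exact_mod_cast (by omega : u.2.natAbs ≤ 2 ^ (L + 1))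
    rw [Int.natCast_natAbs] at this; exact_mod_cast this
  have h3 := hK (L + 1) u b1 b2
  have h4 : (L : ℝ) * Real.log 2 ≤ Real.log n := by
    rw [← Real.log_pow]
    apply Real.log_le_log (by positivity)
    exact_mod_cast h2
  have h5 : (2 : ℝ) / 3 ≤ Real.log 2 := by
    have := Real.log_two_gt_d9; linarith
  have hlog : 0 ≤ Real.log n := Real.log_natCast_nonneg n
  have h6 : (L : ℝ) ≤ 3 / 2 * Real.log n := by
    have : (L : ℝ) * (2 / 3) ≤ (L : ℝ) * Real.log 2 :=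
      mul_le_mul_of_nonneg_left h5 (Nat.cast_nonneg L)
    linarith
  have hsK := Real.sqrt_nonneg K
  unfold askLg
  rw [← hcast]
  push_cast at h3
  calc askN a (asp222G u) ≤ (2 * ((L : ℝ) + 1) + 1) * (4 * Real.sqrt K) := h3
    _ ≤ (3 * (1 + Real.log n)) * (4 * Real.sqrt K) := by
        apply mul_le_mul_of_nonneg_right _ (by positivity)
        linarith
    _ = 12 * Real.sqrt K * (1 + Real.log n) := by ring

/-- **(3) the logarithmic bound of the variogram.** -/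
theorem ask_log {a : AspG → ℝ} (h : AspIn a) : ∃ C : ℝ, 0 ≤ C ∧ ∀ u : AspG,
    a u ≤ C * (1 + Real.log (1 + |(u.1 : ℝ)| + |(u.2 : ℝ)|)) ^ 2 := by
  obtain ⟨C, hC, H⟩ := ask_N_grad_log h
  refine ⟨C ^ 2, by positivity, fun u => ?_⟩
  have h1 := H u
  have h2 := ask_N_sq h (asp222_tot_G u)
  rw [ask_a_eq h] at h2
  rw [← h2, ← mul_pow]
  exact pow_le_pow_left₀ (ask_N_nonneg _ _) h1 2

/-- the seminorm of `δ_u - δ_v`. -/
theorem ask_N_pair_log {a : AspG → ℝ} (h : AspIn a) : ∃ C : ℝ, 0 ≤ C ∧ ∀ u v : AspG,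
    askN a (Finsupp.single u 1 - Finsupp.single v 1) ≤ C * askLg (u - v) := by
  obtain ⟨C, hC, H⟩ := ask_N_grad_log h
  refine ⟨C, hC, fun u v => ?_⟩
  have e : Finsupp.single u 1 - Finsupp.single v 1 = aspTr v (asp222G (u - v)) := by
    rw [asp222_tr_G, sub_add_cancel]
  rw [e]
  have : askN a (aspTr v (asp222G (u - v))) = askN a (asp222G (u - v)) := by
    unfold askN; rw [ask_gam_tr]
  rw [this]
  exact H (u - v)


/-! ## 4. Riemann arrays versus cell weights -/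

/-! ### 4a. arrays given by a function, small arrays -/

open Classical in
/-- the array of a function of finite support (zero otherwise); `aspW δ f = askArr (aspWt δ f)`. -/
noncomputable def askArr (w : AspG → ℝ) : AspG →₀ ℝ :=
  if h : (Function.support w).Finite then Finsupp.ofSupportFinite w h else 0

theorem ask_W_eq (δ : ℝ) (f : ℝ × ℝ → ℝ) : aspW δ f = askArr (aspWt δ f) := rfl

theorem ask_arr_apply {w : AspG → ℝ} {S : Finset AspG} (hS : ∀ u, u ∉ S → w u = 0) (u : AspG) :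
    askArr w u = w u := by
  have hf : (Function.support w).Finite :=
    S.finite_toSet.subset (fun u hu => by
      by_contra h
      exact hu (hS u h))
  unfold askArr
  rw [dif_pos hf]
  rfl

theorem ask_arr_supp {w : AspG → ℝ} {S : Finset AspG} (hS : ∀ u, u ∉ S → w u = 0) :
    (askArr w).support ⊆ S := by
  intro u hu
  by_contra h
  rw [Finsupp.mem_support_iff, ask_arr_apply hS, hS u h] at hu
  exact hu rfl

theorem ask_tot_eq_sum {b : AspG →₀ ℝ} {S : Finset AspG} (hS : b.support ⊆ S) :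
    aspTot b = ∑ u ∈ S, b u := by
  unfold aspTot
  exact Finsupp.sum_of_support_subset b hS _ (fun _ _ => rfl)

/-- the centred box of sites of radius `N`. -/
noncomputable def askSq (N : ℕ) : Finset AspG := Finset.Icc (-(N : ℤ)) N ×ˢ Finset.Icc (-(N : ℤ)) N

theorem ask_mem_sq {N : ℕ} {u : AspG} : u ∈ askSq N ↔ |u.1| ≤ (N : ℤ) ∧ |u.2| ≤ (N : ℤ) := by
  simp only [askSq, Finset.mem_product, Finset.mem_Icc, abs_le]

theorem ask_sq_card (N : ℕ) : ((askSq N).card : ℝ) = (2 * (N : ℝ) + 1) ^ 2 := by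
  unfold askSq
  rw [Finset.card_product, Int.card_Icc]
  have : ((N : ℤ) + 1 - -(N : ℤ)).toNat = 2 * N + 1 := by omega
  rw [this]; push_cast; ring

/-- a zero-total array is a combination of dipoles with a common foot. -/
theorem ask_decomp {e : AspG →₀ ℝ} (he : aspTot e = 0) {S : Finset AspG} (hS : e.support ⊆ S)
    (v0 : AspG) : e = ∑ u ∈ S, e u • (Finsupp.single u (1 : ℝ) - Finsupp.single v0 1) := by
  have h1 : ∑ u ∈ S, e u • (Finsupp.single u (1 : ℝ) - Finsupp.single v0 1)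
      = (∑ u ∈ S, Finsupp.single u (e u)) - (∑ u ∈ S, e u) • Finsupp.single v0 (1 : ℝ) := by
    rw [Finset.sum_smul, ← Finset.sum_sub_distrib]
    refine Finset.sum_congr rfl fun u _ => ?_
    rw [smul_sub, Finsupp.smul_single, smul_eq_mul, mul_one]
  rw [h1, ← ask_tot_eq_sum hS, he, zero_smul, sub_zero]
  have h2 := Finsupp.sum_of_support_subset e hS (fun u x => Finsupp.single u x)
    (fun _ _ => Finsupp.single_zero _)
  rw [← h2, Finsupp.sum_single]

theorem ask_tot_pair (u v : AspG) :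
    aspTot (Finsupp.single u (1 : ℝ) - Finsupp.single v 1) = 0 := by
  rw [ask_tot_sub, asp222_tot_single, asp222_tot_single, sub_self]

/-- **small arrays are small in the seminorm**: support in the box of radius `N`, entries `≤ ε`
off one site `v0` of the box. -/
theorem ask_N_small {a : AspG → ℝ} (h : AspIn a) : ∃ C : ℝ, 0 ≤ C ∧
    ∀ (N : ℕ) (ε : ℝ) (v0 : AspG) (e : AspG →₀ ℝ), aspTot e = 0 → (∀ u ∈ e.support, u ∈ askSq N) →
      v0 ∈ askSq N → (∀ u, u ≠ v0 → |e u| ≤ ε) →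
      askN a e ≤ (2 * (N : ℝ) + 1) ^ 2 * (ε * (C * (1 + Real.log (1 + 4 * (N : ℝ))))) := by
  obtain ⟨C, hC, H⟩ := ask_N_pair_log h
  refine ⟨C, hC, fun N ε v0 e he hs hv0 hε => ?_⟩
  have hd := ask_decomp he (S := askSq N) hs v0
  have h1 : askN a e ≤ ∑ u ∈ askSq N, askN a (e u • (Finsupp.single u (1 : ℝ) - Finsupp.single v0 1)) := by
    conv_lhs => rw [hd]
    exact ask_N_sum h _ _ fun u _ => by rw [asp222_tot_smul, ask_tot_pair, mul_zero]
  have h2 : ∀ u ∈ askSq N, askN a (e u • (Finsupp.single u (1 : ℝ) - Finsupp.single v0 1))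
      ≤ ε * (C * (1 + Real.log (1 + 4 * (N : ℝ)))) := by
    intro u hu
    have hlog0 : 0 ≤ Real.log (1 + 4 * (N : ℝ)) :=
      Real.log_nonneg (by have := Nat.cast_nonneg (α := ℝ) N; linarith)
    by_cases huv : u = v0
    · subst huv
      rw [sub_self, smul_zero, ask_N_zero]
      by_cases hex : ∃ y : AspG, y ≠ u
      · obtain ⟨y, hy⟩ := hex
        have : 0 ≤ ε := (abs_nonneg _).trans (hε y hy)
        positivity
      · exact absurd ⟨u + (1, 0), by intro hh; have := congrArg Prod.fst hh; simp at this⟩ hex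
    · rw [ask_N_smul]
      have hε0 : 0 ≤ ε := (abs_nonneg _).trans (hε u huv)
      have hlg : askLg (u - v0) ≤ 1 + Real.log (1 + 4 * (N : ℝ)) := by
        unfold askLg
        have hu' := ask_mem_sq.1 hu
        have hv' := ask_mem_sq.1 hv0
        have c1 : |((u - v0).1 : ℝ)| ≤ 2 * (N : ℝ) := by
          have : |(u - v0).1| ≤ 2 * (N : ℤ) := by
            rw [Prod.fst_sub]
            have := abs_sub u.1 v0.1
            omega
          exact_mod_cast this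
        have c2 : |((u - v0).2 : ℝ)| ≤ 2 * (N : ℝ) := by
          have : |(u - v0).2| ≤ 2 * (N : ℤ) := by
            rw [Prod.snd_sub]
            have := abs_sub u.2 v0.2
            omega
          exact_mod_cast this
        have := Real.log_le_log (x := 1 + |((u - v0).1 : ℝ)| + |((u - v0).2 : ℝ)|)
          (y := 1 + 4 * (N : ℝ)) (by positivity) (by linarith)
        linarith
      calc |e u| * askN a (Finsupp.single u (1 : ℝ) - Finsupp.single v0 1)
          ≤ ε * (C * askLg (u - v0)) :=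
            mul_le_mul (hε u huv) (H u v0) (ask_N_nonneg _ _) hε0
        _ ≤ ε * (C * (1 + Real.log (1 + 4 * (N : ℝ)))) := by
            apply mul_le_mul_of_nonneg_left _ hε0
            exact mul_le_mul_of_nonneg_left hlg hC
  calc askN a e ≤ ∑ u ∈ askSq N, askN a (e u • (Finsupp.single u (1 : ℝ) - Finsupp.single v0 1)) := h1
    _ ≤ ∑ _u ∈ askSq N, ε * (C * (1 + Real.log (1 + 4 * (N : ℝ)))) := Finset.sum_le_sum h2
    _ = (2 * (N : ℝ) + 1) ^ 2 * (ε * (C * (1 + Real.log (1 + 4 * (N : ℝ))))) := by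
        rw [Finset.sum_const, nsmul_eq_mul, ask_sq_card]

/-! ### 4b. families of small arrays -/

theorem ask_mul_log_tendsto (c : ℝ) :
    Tendsto (fun δ : ℝ => δ * (c - Real.log δ)) (𝓝[>] 0) (𝓝 0) := by
  have h1 : Tendsto (fun δ : ℝ => δ * Real.log δ) (𝓝 0) (𝓝 0) := by
    have := Real.continuous_mul_log.tendsto 0
    simpa using this
  have h2 : Tendsto (fun δ : ℝ => δ * c) (𝓝 0) (𝓝 0) := by
    have := (tendsto_id (α := ℝ) (x := 𝓝 0)).mul_const c
    simpa using this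
  have h3 := (h2.sub h1).mono_left (nhdsWithin_le_nhds (s := Ioi (0 : ℝ)))
  simp only [sub_zero] at h3
  refine h3.congr fun δ => ?_
  ring

/-- **small arrays, quantitative form**: zero total, support in the box of radius `A / δ`, entries
`≤ B δ³` off one site `v0` of the box. -/
theorem ask_small_bound {a : AspG → ℝ} (h : AspIn a) : ∃ C : ℝ, 0 ≤ C ∧
    ∀ (A B δ : ℝ), 0 < δ → δ < 1 → ∀ (e : AspG →₀ ℝ) (v0 : AspG), aspTot e = 0 →
      (∀ u, e u ≠ 0 → |(u.1 : ℝ)| ≤ A / δ ∧ |(u.2 : ℝ)| ≤ A / δ) →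
      (|(v0.1 : ℝ)| ≤ A / δ ∧ |(v0.2 : ℝ)| ≤ A / δ) →
      (∀ u, u ≠ v0 → |e u| ≤ B * δ ^ 3) →
      askN a e ≤ (2 * |A| + 3) ^ 2 * |B| * C * (δ * ((1 + Real.log (4 * |A| + 5)) - Real.log δ)) := by
  obtain ⟨C, hC, H⟩ := ask_N_small h
  refine ⟨C, hC, fun A B δ dpos dle e v0 t0 ts tv tε => ?_⟩
  set N : ℕ := ⌈|A| / δ⌉₊ with hNdef
  have hA0 : 0 ≤ |A| / δ := by positivity
  have hN1 : |A| / δ ≤ (N : ℝ) := Nat.le_ceil _
  have hN2 : (N : ℝ) < |A| / δ + 1 := Nat.ceil_lt_add_one hA0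
  have hAle : A / δ ≤ (N : ℝ) := (div_le_div_of_nonneg_right (le_abs_self A) dpos.le).trans hN1
  have hone : 1 < 1 / δ := by rw [lt_div_iff₀ dpos]; linarith
  have hN3 : (N : ℝ) ≤ (|A| + 1) / δ := by
    rw [add_div]; linarith
  have box : ∀ u : AspG, |(u.1 : ℝ)| ≤ A / δ ∧ |(u.2 : ℝ)| ≤ A / δ → u ∈ askSq N := by
    intro u hu
    rw [ask_mem_sq]
    constructor
    · have : |(u.1 : ℝ)| ≤ (N : ℝ) := hu.1.trans hAle
      exact_mod_cast this
    · have : |(u.2 : ℝ)| ≤ (N : ℝ) := hu.2.trans hAle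
      exact_mod_cast this
  have key := H N (|B| * δ ^ 3) v0 e t0
    (fun u hu => box u (ts u (Finsupp.mem_support_iff.1 hu))) (box _ tv)
    (fun u hu => (tε u hu).trans (mul_le_mul_of_nonneg_right (le_abs_self B) (by positivity)))
  refine key.trans ?_
  have q1 : 2 * (N : ℝ) + 1 ≤ (2 * |A| + 3) / δ := by
    have : (2 * |A| + 3) / δ = 2 * ((|A| + 1) / δ) + 1 / δ := by ring
    rw [this]; linarith
  have q2 : (2 * (N : ℝ) + 1) ^ 2 ≤ ((2 * |A| + 3) / δ) ^ 2 :=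
    pow_le_pow_left₀ (by positivity) q1 2
  have q3 : 1 + 4 * (N : ℝ) ≤ (4 * |A| + 5) / δ := by
    have : (4 * |A| + 5) / δ = 4 * ((|A| + 1) / δ) + 1 / δ := by ring
    rw [this]; linarith
  have q4 : Real.log (1 + 4 * (N : ℝ)) ≤ Real.log (4 * |A| + 5) - Real.log δ := by
    rw [← Real.log_div (by positivity) dpos.ne']
    exact Real.log_le_log (by positivity) q3
  have q5 : 0 ≤ Real.log (1 + 4 * (N : ℝ)) :=
    Real.log_nonneg (by have := Nat.cast_nonneg (α := ℝ) N; linarith)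
  calc (2 * (N : ℝ) + 1) ^ 2 * (|B| * δ ^ 3 * (C * (1 + Real.log (1 + 4 * (N : ℝ)))))
      ≤ ((2 * |A| + 3) / δ) ^ 2
          * (|B| * δ ^ 3 * (C * (1 + (Real.log (4 * |A| + 5) - Real.log δ)))) := by
        apply mul_le_mul q2 _ (by positivity) (by positivity)
        apply mul_le_mul_of_nonneg_left _ (by positivity)
        apply mul_le_mul_of_nonneg_left _ hC
        linarith
    _ = (2 * |A| + 3) ^ 2 * |B| * C * (δ * ((1 + Real.log (4 * |A| + 5)) - Real.log δ)) := by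
        field_simp
        ring

theorem ask_ev_pos {ι : Type*} {l : Filter ι} {δ : ι → ℝ} (hδ : Tendsto δ l (𝓝[>] 0)) :
    ∀ᶠ i in l, 0 < δ i := hδ.eventually self_mem_nhdsWithin

theorem ask_ev_lt_one {ι : Type*} {l : Filter ι} {δ : ι → ℝ} (hδ : Tendsto δ l (𝓝[>] 0)) :
    ∀ᶠ i in l, δ i < 1 := hδ.eventually (mem_nhdsWithin_of_mem_nhds (Iio_mem_nhds one_pos))

/-- **families of small arrays** along any family of meshes `δ i ↓ 0` (for the full limit take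
`l = 𝓝[>] 0`, `δ = id`, `hδ = tendsto_id`): the variance tends to `0`. -/
theorem ask_small_tendsto {a : AspG → ℝ} (h : AspIn a) {ι : Type*} {l : Filter ι} {δ : ι → ℝ}
    (hδ : Tendsto δ l (𝓝[>] 0)) {e : ι → AspG →₀ ℝ} {v0 : ι → AspG} {A B : ℝ}
    (h0 : ∀ᶠ i in l, aspTot (e i) = 0)
    (hs : ∀ᶠ i in l, ∀ u, e i u ≠ 0 → |(u.1 : ℝ)| ≤ A / δ i ∧ |(u.2 : ℝ)| ≤ A / δ i)
    (hv : ∀ᶠ i in l, |((v0 i).1 : ℝ)| ≤ A / δ i ∧ |((v0 i).2 : ℝ)| ≤ A / δ i)
    (hε : ∀ᶠ i in l, ∀ u, u ≠ v0 i → |e i u| ≤ B * δ i ^ 3) :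
    Tendsto (fun i => aspGam a (e i) (e i)) l (𝓝 0) := by
  obtain ⟨C, hC, H⟩ := ask_small_bound h
  have hg : Tendsto (fun i => (2 * |A| + 3) ^ 2 * |B| * C
      * (δ i * ((1 + Real.log (4 * |A| + 5)) - Real.log (δ i)))) l (𝓝 0) := by
    have := ((ask_mul_log_tendsto (1 + Real.log (4 * |A| + 5))).comp hδ).const_mul
      ((2 * |A| + 3) ^ 2 * |B| * C)
    simpa [Function.comp_def] using this
  have hN : Tendsto (fun i => askN a (e i)) l (𝓝 0) := by
    apply squeeze_zero' (Eventually.of_forall fun i => ask_N_nonneg a (e i)) _ hg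
    filter_upwards [h0, hs, hv, hε, ask_ev_pos hδ, ask_ev_lt_one hδ] with i t0 ts tv tε dpos dle
    exact H A B (δ i) dpos dle (e i) (v0 i) t0 ts tv tε
  have hsq : Tendsto (fun i => askN a (e i) ^ 2) l (𝓝 0) := by
    have := hN.pow 2
    simpa using this
  refine hsq.congr' ?_
  filter_upwards [h0] with i t0
  exact ask_N_sq h t0

/-! ### 4c. the cells -/

theorem ask_mem_cell {δ : ℝ} {u : AspG} {z : ℝ × ℝ} : z ∈ aspCell δ u ↔
    (δ * ((u.1 : ℝ) - 1 / 2) < z.1 ∧ z.1 ≤ δ * ((u.1 : ℝ) + 1 / 2)) ∧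
    (δ * ((u.2 : ℝ) - 1 / 2) < z.2 ∧ z.2 ≤ δ * ((u.2 : ℝ) + 1 / 2)) := Iff.rfl

theorem ask_cell_meas (δ : ℝ) (u : AspG) : MeasurableSet (aspCell δ u) :=
  measurableSet_Ioc.prod measurableSet_Ioc

theorem ask_cell_vol {δ : ℝ} (hδ : 0 < δ) (u : AspG) :
    (volume : Measure (ℝ × ℝ)) (aspCell δ u) = ENNReal.ofReal (δ ^ 2) := by
  unfold aspCell
  rw [Measure.volume_eq_prod, Measure.prod_prod, Real.volume_Ioc, Real.volume_Ioc,
    ← ENNReal.ofReal_mul (by nlinarith)]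
  congr 1
  ring

theorem ask_cell_real {δ : ℝ} (hδ : 0 < δ) (u : AspG) :
    (volume : Measure (ℝ × ℝ)).real (aspCell δ u) = δ ^ 2 := by
  rw [Measure.real, ask_cell_vol hδ, ENNReal.toReal_ofReal (by positivity)]

theorem ask_cell_lt_top {δ : ℝ} (hδ : 0 < δ) (u : AspG) :
    (volume : Measure (ℝ × ℝ)) (aspCell δ u) < ⊤ := by
  rw [ask_cell_vol hδ]; exact ENNReal.ofReal_lt_top

theorem ask_coord_unique {δ : ℝ} (hδ : 0 < δ) {m n : ℤ} {x : ℝ}
    (h1 : δ * ((m : ℝ) - 1 / 2) < x) (h2 : x ≤ δ * ((n : ℝ) + 1 / 2)) : m ≤ n := by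
  have h3 : δ * ((m : ℝ) - 1 / 2) < δ * ((n : ℝ) + 1 / 2) := h1.trans_le h2
  have h4 : (m : ℝ) - 1 / 2 < (n : ℝ) + 1 / 2 := lt_of_mul_lt_mul_left h3 hδ.le
  have h5 : (m : ℝ) < (n : ℝ) + 1 := by linarith
  have h6 : m < n + 1 := by exact_mod_cast h5
  omega

theorem ask_cell_unique {δ : ℝ} (hδ : 0 < δ) {u v : AspG} {z : ℝ × ℝ} (hu : z ∈ aspCell δ u)
    (hv : z ∈ aspCell δ v) : u = v := by
  rw [ask_mem_cell] at hu hv
  ext
  · exact le_antisymm (ask_coord_unique hδ hu.1.1 hv.1.2) (ask_coord_unique hδ hv.1.1 hu.1.2)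
  · exact le_antisymm (ask_coord_unique hδ hu.2.1 hv.2.2) (ask_coord_unique hδ hv.2.1 hu.2.2)

theorem ask_cell_disj {δ : ℝ} (hδ : 0 < δ) {u v : AspG} (huv : u ≠ v) :
    Disjoint (aspCell δ u) (aspCell δ v) :=
  Set.disjoint_left.2 fun _ hu hv => huv (ask_cell_unique hδ hu hv)

theorem ask_coord_cover {δ : ℝ} (hδ : 0 < δ) (x : ℝ) :
    δ * (((⌈x / δ - 1 / 2⌉ : ℤ) : ℝ) - 1 / 2) < x ∧ x ≤ δ * (((⌈x / δ - 1 / 2⌉ : ℤ) : ℝ) + 1 / 2) := by
  have h1 := Int.le_ceil (x / δ - 1 / 2)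
  have h2 := Int.ceil_lt_add_one (x / δ - 1 / 2)
  have hx : x = δ * (x / δ) := by field_simp
  constructor
  · calc δ * (((⌈x / δ - 1 / 2⌉ : ℤ) : ℝ) - 1 / 2) < δ * (x / δ) :=
        mul_lt_mul_of_pos_left (by linarith) hδ
      _ = x := hx.symm
  · calc x = δ * (x / δ) := hx
      _ ≤ δ * (((⌈x / δ - 1 / 2⌉ : ℤ) : ℝ) + 1 / 2) :=
        mul_le_mul_of_nonneg_left (by linarith) hδ.le

theorem ask_cell_cover {δ : ℝ} (hδ : 0 < δ) (z : ℝ × ℝ) : ∃ u : AspG, z ∈ aspCell δ u :=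
  ⟨(⌈z.1 / δ - 1 / 2⌉, ⌈z.2 / δ - 1 / 2⌉), ask_mem_cell.2 ⟨ask_coord_cover hδ z.1, ask_coord_cover hδ z.2⟩⟩

theorem ask_cell_near {δ : ℝ} {u : AspG} {z : ℝ × ℝ} (hz : z ∈ aspCell δ u) :
    |z.1 - δ * (u.1 : ℝ)| ≤ δ / 2 ∧ |z.2 - δ * (u.2 : ℝ)| ≤ δ / 2 := by
  rw [ask_mem_cell] at hz
  obtain ⟨⟨a1, a2⟩, b1, b2⟩ := hz
  constructor <;> rw [abs_le] <;> constructor <;> linarith

/-- the support of `f` lies in the centred square of half side `R`. -/
def AskSupp (f : ℝ × ℝ → ℝ) (R : ℝ) : Prop := ∀ z, f z ≠ 0 → |z.1| ≤ R ∧ |z.2| ≤ R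

theorem ask_supp_exists {f : ℝ × ℝ → ℝ} (hf : HasCompactSupport f) : ∃ R : ℝ, 0 ≤ R ∧ AskSupp f R := by
  obtain ⟨R, hR⟩ := hf.isCompact.isBounded.subset_closedBall (0 : ℝ × ℝ)
  refine ⟨|R|, abs_nonneg R, fun z hz => ?_⟩
  have h1 : z ∈ Metric.closedBall (0 : ℝ × ℝ) R := hR (subset_tsupport f hz)
  rw [mem_closedBall_zero_iff, Prod.norm_def] at h1
  have h2 := le_abs_self R
  exact ⟨by
    have := (le_max_left ‖z.1‖ ‖z.2‖).trans h1
    rw [Real.norm_eq_abs] at this; linarith, by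
    have := (le_max_right ‖z.1‖ ‖z.2‖).trans h1
    rw [Real.norm_eq_abs] at this; linarith⟩

/-- the radius (in sites) of the box that carries the arrays of `f` at mesh `δ`. -/
noncomputable def askNum (R δ : ℝ) : ℕ := ⌈R / δ⌉₊ + 1

theorem ask_num_ge {R δ : ℝ} (hδ : 0 < δ) : R + δ ≤ δ * (askNum R δ : ℝ) := by
  unfold askNum
  have h1 : R / δ ≤ (⌈R / δ⌉₊ : ℝ) := Nat.le_ceil _
  have h2 : R = δ * (R / δ) := by field_simp
  push_cast
  calc R + δ = δ * (R / δ + 1) := by rw [mul_add, ← h2, mul_one]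
    _ ≤ δ * ((⌈R / δ⌉₊ : ℝ) + 1) := mul_le_mul_of_nonneg_left (by linarith) hδ.le

theorem ask_num_le {R δ : ℝ} (hR : 0 ≤ R) (hδ : 0 < δ) : δ * (askNum R δ : ℝ) ≤ R + 2 * δ := by
  unfold askNum
  have h1 : (⌈R / δ⌉₊ : ℝ) < R / δ + 1 := Nat.ceil_lt_add_one (by positivity)
  have h2 : R = δ * (R / δ) := by field_simp
  push_cast
  calc δ * ((⌈R / δ⌉₊ : ℝ) + 1) ≤ δ * (R / δ + 1 + 1) :=
        mul_le_mul_of_nonneg_left (by linarith) hδ.le
    _ = R + 2 * δ := by rw [mul_add, mul_add, ← h2]; ring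

theorem ask_num_pos (R δ : ℝ) : 1 ≤ askNum R δ := by unfold askNum; omega

theorem ask_not_mem_sq {N : ℕ} {u : AspG} (hu : u ∉ askSq N) :
    (N : ℝ) + 1 ≤ |(u.1 : ℝ)| ∨ (N : ℝ) + 1 ≤ |(u.2 : ℝ)| := by
  rw [ask_mem_sq, not_and_or, not_le, not_le] at hu
  rcases hu with hu | hu
  · left
    have : (N : ℤ) + 1 ≤ |u.1| := hu
    exact_mod_cast this
  · right
    have : (N : ℤ) + 1 ≤ |u.2| := hu
    exact_mod_cast this

/-- off the box the cells do not meet the support. -/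
theorem ask_cell_off {f : ℝ × ℝ → ℝ} {R δ : ℝ} (hf : AskSupp f R) (hδ : 0 < δ) {u : AspG}
    (hu : u ∉ askSq (askNum R δ)) {z : ℝ × ℝ} (hz : z ∈ aspCell δ u) : f z = 0 := by
  by_contra hne
  obtain ⟨h1, h2⟩ := hf z hne
  obtain ⟨n1, n2⟩ := ask_cell_near hz
  have hN := ask_num_ge (R := R) hδ
  rcases ask_not_mem_sq hu with hu | hu
  · have e1 : δ * ((askNum R δ : ℝ) + 1) ≤ δ * |(u.1 : ℝ)| := mul_le_mul_of_nonneg_left hu hδ.le
    have e2 : δ * |(u.1 : ℝ)| = |δ * (u.1 : ℝ)| := by rw [abs_mul, abs_of_pos hδ]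
    have e3 : |δ * (u.1 : ℝ)| ≤ |z.1| + |z.1 - δ * (u.1 : ℝ)| := by
      have := abs_sub_abs_le_abs_sub (δ * (u.1 : ℝ)) z.1
      rw [abs_sub_comm] at this
      linarith
    nlinarith
  · have e1 : δ * ((askNum R δ : ℝ) + 1) ≤ δ * |(u.2 : ℝ)| := mul_le_mul_of_nonneg_left hu hδ.le
    have e2 : δ * |(u.2 : ℝ)| = |δ * (u.2 : ℝ)| := by rw [abs_mul, abs_of_pos hδ]
    have e3 : |δ * (u.2 : ℝ)| ≤ |z.2| + |z.2 - δ * (u.2 : ℝ)| := by
      have := abs_sub_abs_le_abs_sub (δ * (u.2 : ℝ)) z.2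
      rw [abs_sub_comm] at this
      linarith
    nlinarith

theorem ask_site_mem_cell {δ : ℝ} (hδ : 0 < δ) (u : AspG) :
    (δ * (u.1 : ℝ), δ * (u.2 : ℝ)) ∈ aspCell δ u := by
  rw [ask_mem_cell]
  refine ⟨⟨?_, ?_⟩, ?_, ?_⟩ <;> nlinarith

theorem ask_wt_off {f : ℝ × ℝ → ℝ} {R δ : ℝ} (hf : AskSupp f R) (hδ : 0 < δ) (u : AspG)
    (hu : u ∉ askSq (askNum R δ)) : aspWt δ f u = 0 :=
  setIntegral_eq_zero_of_forall_eq_zero fun _ hz => ask_cell_off hf hδ hu hz

theorem ask_W_apply {f : ℝ × ℝ → ℝ} {R δ : ℝ} (hf : AskSupp f R) (hδ : 0 < δ) (u : AspG) :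
    aspW δ f u = aspWt δ f u := by
  rw [ask_W_eq]; exact ask_arr_apply (ask_wt_off hf hδ) u

theorem ask_W_supp {f : ℝ × ℝ → ℝ} {R δ : ℝ} (hf : AskSupp f R) (hδ : 0 < δ) :
    (aspW δ f).support ⊆ askSq (askNum R δ) := by
  rw [ask_W_eq]; exact ask_arr_supp (ask_wt_off hf hδ)

/-- **the cell weights have the total mass of `f`.** -/
theorem ask_W_tot {f : ℝ × ℝ → ℝ} (hf : AspTest f) {δ : ℝ} (hδ : 0 < δ) :
    aspTot (aspW δ f) = ∫ z, f z := by
  obtain ⟨R, _, hR⟩ := ask_supp_exists hf.2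
  have hint : Integrable f := hf.1.continuous.integrable_of_hasCompactSupport hf.2
  rw [ask_tot_eq_sum (ask_W_supp hR hδ)]
  have h1 : ∑ u ∈ askSq (askNum R δ), aspW δ f u
      = ∑ u ∈ askSq (askNum R δ), ∫ z in aspCell δ u, f z :=
    Finset.sum_congr rfl fun u _ => ask_W_apply hR hδ u
  rw [h1, ← integral_biUnion_finset _ (fun u _ => ask_cell_meas δ u)
    (fun u _ v _ huv => ask_cell_disj hδ huv) (fun u _ => hint.integrableOn)]
  apply setIntegral_eq_integral_of_forall_compl_eq_zero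
  intro z hz
  obtain ⟨u, hu⟩ := ask_cell_cover hδ z
  by_cases hmem : u ∈ askSq (askNum R δ)
  · exact absurd (Set.mem_biUnion (Finset.mem_coe.2 hmem) hu) hz
  · exact ask_cell_off hR hδ hmem hu

theorem ask_wt_le {f : ℝ × ℝ → ℝ} {M δ : ℝ} (hM : ∀ z, |f z| ≤ M) (hδ : 0 < δ) (u : AspG) :
    |aspWt δ f u| ≤ M * δ ^ 2 := by
  have := norm_setIntegral_le_of_norm_le_const (μ := (volume : Measure (ℝ × ℝ))) (f := f)
    (ask_cell_lt_top hδ u) (C := M) (fun z _ => by rw [Real.norm_eq_abs]; exact hM z)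
  rw [ask_cell_real hδ, Real.norm_eq_abs] at this
  exact this

theorem ask_bdd {f : ℝ × ℝ → ℝ} (hf : AspTest f) : ∃ M : ℝ, 0 ≤ M ∧ ∀ z, |f z| ≤ M := by
  obtain ⟨M, hM⟩ := hf.2.exists_bound_of_continuous hf.1.continuous
  exact ⟨M, (norm_nonneg _).trans (hM 0), fun z => by rw [← Real.norm_eq_abs]; exact hM z⟩

/-- **the cell weights of a neutral test function have bounded variance.** -/
theorem ask_W_bdd {a : AspG → ℝ} (h : AspIn a) {f : ℝ × ℝ → ℝ} (hf : AspTest f)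
    (h0 : ∫ z, f z = 0) : ∃ K : ℝ, ∀ᶠ δ in 𝓝[>] (0 : ℝ), aspGam a (aspW δ f) (aspW δ f) ≤ K := by
  obtain ⟨K, hK0, hK⟩ := ask_sm_scaled h
  obtain ⟨R, hR0, hR⟩ := ask_supp_exists hf.2
  obtain ⟨M, hM0, hM⟩ := ask_bdd hf
  refine ⟨(M * (R + 2) ^ 2) ^ 2 * K, ?_⟩
  have hpos : ∀ᶠ δ in 𝓝[>] (0 : ℝ), 0 < δ := self_mem_nhdsWithin
  have hle1 : ∀ᶠ δ in 𝓝[>] (0 : ℝ), δ < 1 :=
    mem_nhdsWithin_of_mem_nhds (Iio_mem_nhds one_pos)
  filter_upwards [hpos, hle1] with δ dpos dle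
  refine hK (askNum R δ) (ask_num_pos R δ) (M * (R + 2) ^ 2) (by positivity) _
    (by rw [ask_W_tot hf dpos, h0]) (fun u hu => ask_mem_sq.1 (ask_W_supp hR dpos hu)) fun u => ?_
  rw [ask_W_apply hR dpos]
  refine (ask_wt_le hM dpos u).trans ?_
  have hNpos : (0 : ℝ) < (askNum R δ : ℝ) := by exact_mod_cast ask_num_pos R δ
  rw [le_div_iff₀ (by positivity), mul_assoc]
  apply mul_le_mul_of_nonneg_left _ hM0
  rw [← mul_pow]
  apply pow_le_pow_left₀ (by positivity)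
  have := ask_num_le hR0 dpos
  linarith

/-! ### 4d. the Riemann array -/

/-- Riemann weights `δ² f(δ v)` (the weights of the frozen pairing). -/
noncomputable def askRw (δ : ℝ) (f : ℝ × ℝ → ℝ) (v : AspG) : ℝ := δ ^ 2 * f (δ * (v.1 : ℝ), δ * (v.2 : ℝ))

/-- the array of Riemann weights. -/
noncomputable def askRie (δ : ℝ) (f : ℝ × ℝ → ℝ) : AspG →₀ ℝ := askArr (askRw δ f)

/-- the neutralised Riemann array: the total mass is removed at the site `v0`. -/
noncomputable def askRieN (δ : ℝ) (f : ℝ × ℝ → ℝ) (v0 : AspG) : AspG →₀ ℝ :=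
  askRie δ f - Finsupp.single v0 (aspTot (askRie δ f))

theorem ask_rieN_tot (δ : ℝ) (f : ℝ × ℝ → ℝ) (v0 : AspG) : aspTot (askRieN δ f v0) = 0 := by
  unfold askRieN
  rw [ask_tot_sub, asp222_tot_single, sub_self]

theorem ask_rw_off {f : ℝ × ℝ → ℝ} {R δ : ℝ} (hf : AskSupp f R) (hδ : 0 < δ) (u : AspG)
    (hu : u ∉ askSq (askNum R δ)) : askRw δ f u = 0 := by
  unfold askRw
  rw [ask_cell_off hf hδ hu (ask_site_mem_cell hδ u), mul_zero]

theorem ask_rie_apply {f : ℝ × ℝ → ℝ} {R δ : ℝ} (hf : AskSupp f R) (hδ : 0 < δ) (u : AspG) :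
    askRie δ f u = δ ^ 2 * f (δ * (u.1 : ℝ), δ * (u.2 : ℝ)) :=
  ask_arr_apply (ask_rw_off hf hδ) u

theorem ask_rie_supp {f : ℝ × ℝ → ℝ} {R δ : ℝ} (hf : AskSupp f R) (hδ : 0 < δ) :
    (askRie δ f).support ⊆ askSq (askNum R δ) :=
  ask_arr_supp (ask_rw_off hf hδ)

theorem ask_rie_tot {f : ℝ × ℝ → ℝ} {R δ : ℝ} (hf : AskSupp f R) (hδ : 0 < δ) :
    aspTot (askRie δ f)
      = ∑ u ∈ askSq (askNum R δ), δ ^ 2 * f (δ * (u.1 : ℝ), δ * (u.2 : ℝ)) := by
  rw [ask_tot_eq_sum (ask_rie_supp hf hδ)]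
  exact Finset.sum_congr rfl fun u _ => ask_rie_apply hf hδ u

/-- one cell: Riemann weight against cell weight. -/
theorem ask_rw_sub_wt {f : ℝ × ℝ → ℝ} (hf : AspTest f) : ∃ L : ℝ, 0 ≤ L ∧ ∀ (δ : ℝ), 0 < δ →
    ∀ u : AspG, |askRw δ f u - aspWt δ f u| ≤ L * δ ^ 3 := by
  obtain ⟨L, hL⟩ := hf.1.lipschitzWith_of_hasCompactSupport hf.2 (by simp)
  have hint : Integrable f := hf.1.continuous.integrable_of_hasCompactSupport hf.2
  refine ⟨L, L.2, fun δ hδ u => ?_⟩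
  set p : ℝ × ℝ := (δ * (u.1 : ℝ), δ * (u.2 : ℝ)) with hp
  have e1 : askRw δ f u - aspWt δ f u = ∫ z in aspCell δ u, (f p - f z) := by
    have hc : IntegrableOn (fun _ : ℝ × ℝ => f p) (aspCell δ u) :=
      integrableOn_const (ask_cell_lt_top hδ u).ne
    rw [integral_sub hc hint.integrableOn, setIntegral_const, ask_cell_real hδ, smul_eq_mul]
    rfl
  rw [e1]
  have e2 := norm_setIntegral_le_of_norm_le_const (μ := (volume : Measure (ℝ × ℝ)))
    (f := fun z => f p - f z) (ask_cell_lt_top hδ u) (C := L * δ) (fun z hz => by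
      have h1 := hL.dist_le_mul p z
      rw [Real.dist_eq] at h1
      rw [Real.norm_eq_abs]
      refine h1.trans (mul_le_mul_of_nonneg_left ?_ L.2)
      obtain ⟨n1, n2⟩ := ask_cell_near hz
      rw [dist_comm, Prod.dist_eq, Real.dist_eq, Real.dist_eq]
      apply max_le <;> simp only [hp] <;> linarith)
  rw [ask_cell_real hδ, Real.norm_eq_abs] at e2
  calc |∫ z in aspCell δ u, (f p - f z)| ≤ L * δ * δ ^ 2 := e2
    _ = L * δ ^ 3 := by ring

/-- **(4) the neutralised Riemann array is close to the array of cell weights**, along any family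
of meshes `δ i ↓ 0` (full limit: `l = 𝓝[>] 0`, `δ = id`, `hδ = tendsto_id`); the site `v0 i` that
carries the defect of mass may move inside a macroscopic box. -/
theorem ask_rie_close {a : AspG → ℝ} (h : AspIn a) {ι : Type*} {l : Filter ι} {δ : ι → ℝ}
    (hδ : Tendsto δ l (𝓝[>] 0)) {f : ℝ × ℝ → ℝ} (hf : AspTest f)
    (h0 : ∫ z, f z = 0) {v0 : ι → AspG} {A : ℝ}
    (hv : ∀ᶠ i in l, |((v0 i).1 : ℝ)| ≤ A / δ i ∧ |((v0 i).2 : ℝ)| ≤ A / δ i) :
    Tendsto (fun i => aspGam a (askRieN (δ i) f (v0 i) - aspW (δ i) f)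
      (askRieN (δ i) f (v0 i) - aspW (δ i) f)) l (𝓝 0) := by
  obtain ⟨R, hR0, hR⟩ := ask_supp_exists hf.2
  obtain ⟨L, hL0, hL⟩ := ask_rw_sub_wt hf
  have hpos := ask_ev_pos hδ
  have hle1 := ask_ev_lt_one hδ
  have happ : ∀ (d : ℝ) (w : AspG), 0 < d → ∀ u, u ≠ w →
      (askRieN d f w - aspW d f) u = askRw d f u - aspWt d f u := by
    intro d w dpos u hu
    unfold askRieN
    rw [Finsupp.sub_apply, Finsupp.sub_apply, Finsupp.single_apply, if_neg (Ne.symm hu), sub_zero,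
      ask_W_apply hR dpos, ask_rie_apply hR dpos]
    rfl
  refine ask_small_tendsto h hδ (v0 := v0) (A := |A| + (R + 2)) (B := L) ?_ ?_ ?_ ?_
  · filter_upwards [hpos] with i dpos
    rw [ask_tot_sub, ask_rieN_tot, ask_W_tot hf dpos, h0, sub_zero]
  · filter_upwards [hpos, hle1, hv] with i dpos dle tv u hu
    have hmono : A / δ i ≤ (|A| + (R + 2)) / δ i :=
      div_le_div_of_nonneg_right (by have := le_abs_self A; linarith) dpos.le
    by_cases huv : u = v0 i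
    · rw [huv]; exact ⟨tv.1.trans hmono, tv.2.trans hmono⟩
    · have hmem : u ∈ askSq (askNum R (δ i)) := by
        by_contra hnot
        apply hu
        rw [happ (δ i) (v0 i) dpos u huv, ask_rw_off hR dpos u hnot, ask_wt_off hR dpos u hnot,
          sub_zero]
      obtain ⟨m1, m2⟩ := ask_mem_sq.1 hmem
      have hN : (askNum R (δ i) : ℝ) ≤ (|A| + (R + 2)) / δ i := by
        rw [le_div_iff₀ dpos, mul_comm]
        have := ask_num_le hR0 dpos
        have := abs_nonneg A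
        linarith
      constructor
      · have : |(u.1 : ℝ)| ≤ (askNum R (δ i) : ℝ) := by exact_mod_cast m1
        exact this.trans hN
      · have : |(u.2 : ℝ)| ≤ (askNum R (δ i) : ℝ) := by exact_mod_cast m2
        exact this.trans hN
  · filter_upwards [hpos, hv] with i dpos tv
    have hmono : A / δ i ≤ (|A| + (R + 2)) / δ i :=
      div_le_div_of_nonneg_right (by have := le_abs_self A; linarith) dpos.le
    exact ⟨tv.1.trans hmono, tv.2.trans hmono⟩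
  · filter_upwards [hpos] with i dpos u hu
    rw [happ (δ i) (v0 i) dpos u hu]
    exact hL (δ i) dpos u

/-! ### 4e. the exits of SPEC with Riemann arrays -/

theorem ask_lap2_eq : (lap2 : (ℝ × ℝ → ℝ) → ℝ × ℝ → ℝ) = Claims.C0467.lap2 := rfl

theorem ask_lap_test {η : ℝ × ℝ → ℝ} (hη : AspTest η) : AspTest (lap2 η) := by
  rw [ask_lap2_eq]
  exact ⟨Claimed.Agent.R291.wkg_lap_smooth hη.1, Claimed.Agent.R291.wkg_lap_compact hη.2⟩

theorem ask_lap_int {η : ℝ × ℝ → ℝ} (hη : AspTest η) : ∫ z, lap2 η z = 0 := by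
  have h := Claimed.Agent.R291.wkg_green (D := Set.univ) isOpen_univ (u := fun _ => (1 : ℝ))
    (φ := η) contDiffOn_const (hη.1.of_le (by norm_cast)) hη.2 (Set.subset_univ _)
  have h1 : ∀ z, Claims.C0467.lap2 (fun _ : ℝ × ℝ => (1 : ℝ)) z = 0 := by
    intro z; simp [Claims.C0467.lap2]
  simp only [one_mul, h1, mul_zero, integral_zero] at h
  rw [ask_lap2_eq]; exact h

/-- **the master perturbation lemma for cell weights**: a limit of `aspGam a (aspW δ f) (aspW δ g)`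
along meshes `δ i ↓ 0` is also the limit for zero-total families close to the cell weights. -/
theorem ask_W_perturb {a : AspG → ℝ} (h : AspIn a) {ι : Type*} {l : Filter ι} {δ : ι → ℝ}
    (hδ : Tendsto δ l (𝓝[>] 0)) {f g : ℝ × ℝ → ℝ} (hf : AspTest f) (hg : AspTest g)
    (hf0 : ∫ z, f z = 0) (hg0 : ∫ z, g z = 0) {b b' : ι → AspG →₀ ℝ}
    (hb : ∀ᶠ i in l, aspTot (b i) = 0) (hb' : ∀ᶠ i in l, aspTot (b' i) = 0)
    (h1 : Tendsto (fun i => aspGam a (b i - aspW (δ i) f) (b i - aspW (δ i) f)) l (𝓝 0))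
    (h2 : Tendsto (fun i => aspGam a (b' i - aspW (δ i) g) (b' i - aspW (δ i) g)) l (𝓝 0))
    {L : ℝ} (hL : Tendsto (fun i => aspGam a (aspW (δ i) f) (aspW (δ i) g)) l (𝓝 L)) :
    Tendsto (fun i => aspGam a (b i) (b' i)) l (𝓝 L) := by
  obtain ⟨K, hK⟩ := ask_W_bdd h hf hf0
  obtain ⟨K', hK'⟩ := ask_W_bdd h hg hg0
  refine ask_perturb h hb hb' ?_ ?_ h1 h2 (hδ.eventually hK) (hδ.eventually hK') hL
  · filter_upwards [ask_ev_pos hδ] with i dpos
    rw [ask_W_tot hf dpos, hf0]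
  · filter_upwards [ask_ev_pos hδ] with i dpos
    rw [ask_W_tot hg dpos, hg0]

/-- the same with Riemann arrays. -/
theorem ask_W_rie {a : AspG → ℝ} (h : AspIn a) {ι : Type*} {l : Filter ι} {δ : ι → ℝ}
    (hδ : Tendsto δ l (𝓝[>] 0)) {f g : ℝ × ℝ → ℝ} (hf : AspTest f) (hg : AspTest g)
    (hf0 : ∫ z, f z = 0) (hg0 : ∫ z, g z = 0) {v0 v1 : ι → AspG} {A : ℝ}
    (hv0 : ∀ᶠ i in l, |((v0 i).1 : ℝ)| ≤ A / δ i ∧ |((v0 i).2 : ℝ)| ≤ A / δ i)
    (hv1 : ∀ᶠ i in l, |((v1 i).1 : ℝ)| ≤ A / δ i ∧ |((v1 i).2 : ℝ)| ≤ A / δ i)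
    {L : ℝ} (hL : Tendsto (fun i => aspGam a (aspW (δ i) f) (aspW (δ i) g)) l (𝓝 L)) :
    Tendsto (fun i => aspGam a (askRieN (δ i) f (v0 i)) (askRieN (δ i) g (v1 i))) l (𝓝 L) :=
  ask_W_perturb h hδ hf hg hf0 hg0 (Eventually.of_forall fun _ => ask_rieN_tot _ _ _)
    (Eventually.of_forall fun _ => ask_rieN_tot _ _ _) (ask_rie_close h hδ hf hf0 hv0)
    (ask_rie_close h hδ hg hg0 hv1) hL

/-- **`AspPCF` with Riemann arrays**, along any meshes `δ i ↓ 0`. -/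
theorem ask_pcf_rie {a : AspG → ℝ} (h : AspIn a) {v : ℝ} (hP : AspPCF (aspGam a) v)
    {ι : Type*} {l : Filter ι} {δ : ι → ℝ} (hδ : Tendsto δ l (𝓝[>] 0))
    {η g : ℝ × ℝ → ℝ} (hη : AspTest η) (hg : AspTest g) (hg0 : ∫ z, g z = 0)
    {v0 v1 : ι → AspG} {A : ℝ}
    (hv0 : ∀ᶠ i in l, |((v0 i).1 : ℝ)| ≤ A / δ i ∧ |((v0 i).2 : ℝ)| ≤ A / δ i)
    (hv1 : ∀ᶠ i in l, |((v1 i).1 : ℝ)| ≤ A / δ i ∧ |((v1 i).2 : ℝ)| ≤ A / δ i) :
    Tendsto (fun i => aspGam a (askRieN (δ i) (lap2 η) (v0 i)) (askRieN (δ i) g (v1 i))) l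
      (𝓝 (-v * ∫ z, η z * g z)) :=
  ask_W_rie h hδ (ask_lap_test hη) hg (ask_lap_int hη) hg0 hv0 hv1 ((hP η g hη hg hg0).comp hδ)

/-- **`AspPC` (sequence form) with Riemann arrays.** -/
theorem ask_pc_rie {a : AspG → ℝ} (h : AspIn a) {v : ℝ} {δ : ℕ → ℝ}
    (hδ : Tendsto δ atTop (𝓝[>] 0)) (hP : AspPC (aspGam a) δ v)
    {η g : ℝ × ℝ → ℝ} (hη : AspTest η) (hg : AspTest g) (hg0 : ∫ z, g z = 0)
    {v0 v1 : ℕ → AspG} {A : ℝ}
    (hv0 : ∀ᶠ n in atTop, |((v0 n).1 : ℝ)| ≤ A / δ n ∧ |((v0 n).2 : ℝ)| ≤ A / δ n)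
    (hv1 : ∀ᶠ n in atTop, |((v1 n).1 : ℝ)| ≤ A / δ n ∧ |((v1 n).2 : ℝ)| ≤ A / δ n) :
    Tendsto (fun n => aspGam a (askRieN (δ n) (lap2 η) (v0 n)) (askRieN (δ n) g (v1 n))) atTop
      (𝓝 (-v * ∫ z, η z * g z)) :=
  ask_W_rie h hδ (ask_lap_test hη) hg (ask_lap_int hη) hg0 hv0 hv1 (hP η g hη hg hg0)

/-- **`AspGreenF` with Riemann arrays.** -/
theorem ask_green_rie {a : AspG → ℝ} (h : AspIn a) {β : ℝ} (hP : AspGreenF (aspGam a) β)
    {ι : Type*} {l : Filter ι} {δ : ι → ℝ} (hδ : Tendsto δ l (𝓝[>] 0))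
    {f g : ℝ × ℝ → ℝ} (hf : AspTest f) (hg : AspTest g) (hf0 : ∫ z, f z = 0) (hg0 : ∫ z, g z = 0)
    {v0 v1 : ι → AspG} {A : ℝ}
    (hv0 : ∀ᶠ i in l, |((v0 i).1 : ℝ)| ≤ A / δ i ∧ |((v0 i).2 : ℝ)| ≤ A / δ i)
    (hv1 : ∀ᶠ i in l, |((v1 i).1 : ℝ)| ≤ A / δ i ∧ |((v1 i).2 : ℝ)| ≤ A / δ i) :
    Tendsto (fun i => aspGam a (askRieN (δ i) f (v0 i)) (askRieN (δ i) g (v1 i))) l
      (𝓝 (β * aspL f g)) :=
  ask_W_rie h hδ hf hg hf0 hg0 hv0 hv1 ((hP f g hf hg hf0 hg0).comp hδ)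

/-- perturbation of `AspRN`, along any meshes `δ i ↓ 0`. -/
theorem ask_rn_perturb {a : AspG → ℝ} (h : AspIn a) (hP : AspRN (aspGam a))
    {ι : Type*} {l : Filter ι} {δ : ι → ℝ} (hδ : Tendsto δ l (𝓝[>] 0))
    (i : Fin 4) {φ : ℝ × ℝ → ℝ} {y0 m : ℝ} {j : ℝ → ℤ} (hφ : AspTest φ) (hm : 0 < m)
    (hside : (∀ z ∈ tsupport φ, y0 + m ≤ aspNorE i z) ∨ (∀ z ∈ tsupport φ, aspNorE i z ≤ y0 - m))
    (hj : Tendsto (fun d : ℝ => aspStep i * d * (j d : ℝ)) (𝓝[>] 0) (𝓝 y0))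
    {b : ι → AspG →₀ ℝ} (hb : ∀ᶠ x in l, aspTot (b x) = 0)
    (h1 : Tendsto (fun x => aspGam a (b x - aspW (δ x) (lap2 φ)) (b x - aspW (δ x) (lap2 φ))) l (𝓝 0)) :
    Tendsto (fun x => aspGam a (aspMap (aspRow i (j (δ x))) (b x)) (b x)) l (𝓝 0) := by
  obtain ⟨K, hK⟩ := ask_W_bdd h (ask_lap_test hφ) (ask_lap_int hφ)
  refine ask_perturb_row h i (fun x => j (δ x)) hb ?_ h1 (hδ.eventually hK)
    ((hP i φ y0 m j hφ hm hside hj).comp hδ)
  filter_upwards [ask_ev_pos hδ] with x dpos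
  rw [ask_W_tot (ask_lap_test hφ) dpos, ask_lap_int hφ]

/-- **`AspRN` with Riemann arrays.** -/
theorem ask_rn_rie {a : AspG → ℝ} (h : AspIn a) (hP : AspRN (aspGam a))
    {ι : Type*} {l : Filter ι} {δ : ι → ℝ} (hδ : Tendsto δ l (𝓝[>] 0))
    (i : Fin 4) {φ : ℝ × ℝ → ℝ} {y0 m : ℝ} {j : ℝ → ℤ} (hφ : AspTest φ) (hm : 0 < m)
    (hside : (∀ z ∈ tsupport φ, y0 + m ≤ aspNorE i z) ∨ (∀ z ∈ tsupport φ, aspNorE i z ≤ y0 - m))
    (hj : Tendsto (fun d : ℝ => aspStep i * d * (j d : ℝ)) (𝓝[>] 0) (𝓝 y0))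
    {v0 : ι → AspG} {A : ℝ}
    (hv0 : ∀ᶠ x in l, |((v0 x).1 : ℝ)| ≤ A / δ x ∧ |((v0 x).2 : ℝ)| ≤ A / δ x) :
    Tendsto (fun x => aspGam a (aspMap (aspRow i (j (δ x))) (askRieN (δ x) (lap2 φ) (v0 x)))
      (askRieN (δ x) (lap2 φ) (v0 x))) l (𝓝 0) :=
  ask_rn_perturb h hP hδ i hφ hm hside hj (Eventually.of_forall fun _ => ask_rieN_tot _ _ _)
    (ask_rie_close h hδ (ask_lap_test hφ) (ask_lap_int hφ) hv0)

/-- the defect of mass of the Riemann array of a neutral test function is `O(δ)`. -/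
theorem ask_rie_mass {f : ℝ × ℝ → ℝ} (hf : AspTest f) (h0 : ∫ z, f z = 0) :
    ∃ C : ℝ, 0 ≤ C ∧ ∀ δ : ℝ, 0 < δ → δ < 1 → |aspTot (askRie δ f)| ≤ C * δ := by
  obtain ⟨R, hR0, hR⟩ := ask_supp_exists hf.2
  obtain ⟨L, hL0, hL⟩ := ask_rw_sub_wt hf
  refine ⟨(2 * R + 5) ^ 2 * L, by positivity, fun δ dpos dle => ?_⟩
  have e1 : aspTot (askRie δ f) = aspTot (askRie δ f) - aspTot (aspW δ f) := by
    rw [ask_W_tot hf dpos, h0, sub_zero]
  rw [e1, ask_tot_eq_sum (ask_rie_supp hR dpos), ask_tot_eq_sum (ask_W_supp hR dpos),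
    ← Finset.sum_sub_distrib]
  have hN := ask_num_le hR0 dpos
  calc |∑ u ∈ askSq (askNum R δ), (askRie δ f u - aspW δ f u)|
      ≤ ∑ u ∈ askSq (askNum R δ), |askRie δ f u - aspW δ f u| := Finset.abs_sum_le_sum_abs _ _
    _ ≤ ∑ _u ∈ askSq (askNum R δ), L * δ ^ 3 := by
        refine Finset.sum_le_sum fun u _ => ?_
        rw [ask_W_apply hR dpos, ask_rie_apply hR dpos]
        exact hL δ dpos u
    _ = (δ * (2 * (askNum R δ : ℝ) + 1)) ^ 2 * (L * δ) := by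
        rw [Finset.sum_const, nsmul_eq_mul, ask_sq_card]; ring
    _ ≤ (2 * R + 5) ^ 2 * (L * δ) := by
        apply mul_le_mul_of_nonneg_right _ (by positivity)
        apply pow_le_pow_left₀ (by positivity)
        nlinarith
    _ = (2 * R + 5) ^ 2 * L * δ := by ring

end Claimed.Agent.R292
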