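import Claimed.Agent.R292.Spec.Cov86

/-!
# Row 292 (S0540), Spec/RnFil79 : TEX[cor:reflection-null] ALONG ANY FILTER      (owner helper79; prefix `asr`)

`AspRN` asks for rows `j δ` which are a FUNCTION of the mesh.  The consumers (SCREEN, 232) have sequences of meshes `δ n` and rows `r n` indexed by `n`.
The proof of `asg_RN` (86) is uniform in the row: `|Γ(θ_j W, W)| ≤ |main term (δ)| + C |step δ j - y0|`.  Here it is run along any filter.
-/

set_option autoImplicit false

namespace Claimed.Agent.R292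

open Claims Claims.C0467 MeasureTheory Filter Topology
open Claimed.Agent.R291

/-- **TEX[cor:reflection-null], four frames, both sides, moving rows, along any filter** -/
theorem asr_RN {a : AspG → ℝ} {v : ℝ} (h : AspIn a) (hv : AspPCF (aspGam a) v) (i : Fin 4) {φ : ℝ × ℝ → ℝ} (hφt : AspTest φ)
    (y0 m : ℝ) (hm : 0 < m)
    (hsup : (∀ z ∈ tsupport φ, y0 + m ≤ aspNorE i z) ∨ (∀ z ∈ tsupport φ, aspNorE i z ≤ y0 - m))
    {ι : Type*} {l : Filter ι} {δ : ι → ℝ} {j : ι → ℤ} (hδ : Tendsto δ l (𝓝[>] 0))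
    (hj : Tendsto (fun x => aspStep i * δ x * (j x : ℝ)) l (𝓝 y0)) :
    Tendsto (fun x => aspGam a (aspMap (aspRow i (j x)) (aspW (δ x) (Claims.C0468.lap2 φ))) (aspW (δ x) (Claims.C0468.lap2 φ))) l (𝓝 0) := by
  obtain ⟨hφ, hc⟩ := hφt
  rw [asg_lap_eq]
  obtain ⟨s1, s2, s3⟩ := pcv_lap_test hφ hc
  have tF : PcvT (lap2 φ) := ⟨s1.continuous, s2⟩
  obtain ⟨C, hC0, hC⟩ := asg_RN_err h i hφ hc y0
  -- the main term
  have T1 := hv (fun z => φ (asgRf i y0 z)) (lap2 φ) ⟨asg_rf_smooth hφ i y0, asg_rf_compact hc i y0⟩ ⟨s1, s2⟩ s3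
  rw [asg_lap_eq] at T1
  have e0 : ∫ z, φ (asgRf i y0 z) * lap2 φ z = 0 := by
    have : ∀ z, φ (asgRf i y0 z) * lap2 φ z = 0 := by
      intro z
      by_contra hne
      have h1 : φ (asgRf i y0 z) ≠ 0 := left_ne_zero_of_mul hne
      have h2 : lap2 φ z ≠ 0 := right_ne_zero_of_mul hne
      rcases hsup with hsup | hsup
      · have a1 := hsup _ (subset_tsupport _ h1)
        have a2 := hsup _ (wkg_lap_tsupport φ (subset_tsupport _ h2))
        rw [asg_rf_nor] at a1
        linarith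
      · have a1 := hsup _ (subset_tsupport _ h1)
        have a2 := hsup _ (wkg_lap_tsupport φ (subset_tsupport _ h2))
        rw [asg_rf_nor] at a1
        linarith
    simp only [this, integral_zero]
  rw [e0, mul_zero] at T1
  have e1 : lap2 (fun w => φ (asgRf i y0 w)) = fun z => lap2 φ (asgRf i y0 z) := funext fun z => asg_lap_refl i y0 φ z
  rw [e1] at T1
  have T1' := T1.comp hδ
  have hpos : ∀ᶠ x in l, 0 < δ x := hδ.eventually self_mem_nhdsWithin
  -- the error term
  have T2 : Tendsto (fun x => aspGam a (aspW (δ x) (fun z => lap2 φ (asgRf i (aspStep i * δ x * (j x : ℝ)) z)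
      - lap2 φ (asgRf i y0 z))) (aspW (δ x) (lap2 φ))) l (𝓝 0) := by
    have hz : Tendsto (fun x => C * |aspStep i * δ x * (j x : ℝ) - y0|) l (𝓝 0) := by
      have := ((hj.sub_const y0).abs).const_mul C
      simpa using this
    refine squeeze_zero_norm' ?_ hz
    have c1 : ∀ᶠ x in l, |aspStep i * δ x * (j x : ℝ) - y0| ≤ 1 := by
      have := (hj.sub_const y0).abs
      rw [sub_self, abs_zero] at this
      exact (this.eventually (Iio_mem_nhds one_pos)).mono fun δ hδ => le_of_lt hδ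
    have c2 : ∀ᶠ x in l, δ x ≤ 1 :=
      hδ.eventually (by filter_upwards [Ioo_mem_nhdsGT (one_pos : (0 : ℝ) < 1)] with d hd using hd.2.le)
    filter_upwards [c1, c2, hpos] with x h1 h2 h3
    rw [Real.norm_eq_abs]
    exact hC (δ x) h3 h2 _ h1
  have T := T1'.add T2
  rw [add_zero] at T
  refine T.congr' ?_
  filter_upwards [hpos] with x hδ'
  simp only [Function.comp]
  rw [asg_W_refl hδ' tF, asg_W_sub hδ' (asg_rf_lap hφ hc i _).1 (asg_rf_lap hφ hc i y0).1, sub_eq_add_neg, asg_gam_add_left,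
    ← neg_one_smul ℝ (aspW (δ x) fun z => lap2 φ (asgRf i y0 z)), asg_gam_smul_left]
  ring

end Claimed.Agent.R292
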