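import Claimed.Agent.R292.Spec.B6
import Claimed.Agent.R292.Spec.Close179
import Claimed.Agent.R292.Spec.RnFil79

/-!
# Row 292 (S0540), Spec/ScrDict79 : THE INSERTIONS OF UNIT SCREEN UNDER THE PLANE LAW = THE COVARIANCE FORM OF UNIT SPEC      (owner helper79; prefix `asd`)

* `AsdRd T σ σf`      the map `T` of configurations reads the spins through an incidence preserving map `(σ, σf)` of corners / faces
                      (`asd_rd_id`, `asd_rd_tr` translations, `asd_rd_re` the four reflections `scrRe j`, `AsdRd.comp`)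
* **`asd_pl_cov`**    `scrPl t (fun ω => scrArr b v₀ (T ω) * scrArr b' v₀' (T' ω)) = asiCov t⁻¹ (aspMap σ b) (aspMap σ' b')`      (neutral arrays; no input)
* **`asd_pl_gam`**    `... = aspGam (asiVg t⁻¹) (aspMap σ b) (aspMap σ' b')`      (through `asi_cov_eq`)
* `asd_sh_arr`        `scrSh a (scrArr b v₀) = scrArr (aspTr a b) (v₀ + a)`      (exact)
* **`asd_fm_arr`**    `scrFm t j (scrArr b v₀) (scrArr b' v₀') = aspGam (asiVg t⁻¹) (aspMap (scrRe j).c b) b'`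
* **`asd_fm_ins`**    `scrFm t j (scrSh a (scrIns δ z φ)) (scrSh a (scrIns δ z φ)) = aspGam (asiVg t⁻¹) (aspMap (aspRow (asdFr j) (- aspNor (asdFr j) a)) W) W`, `W = aspW δ (lap2 φ)`
* **`asd_rn`**        TEX[cor:reflection-null] in the vocabulary of SCREEN (from `exit_spec_at`)
* **`asd_rn_fil`**    the same along ANY filter (meshes `δ x`, shifts `a x`, base points `z x` indexed by `x`);   **`asd_R3`** = the contract `Scr232sR3` of Screen/Sep232 (232)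
* **`asd_pc`**        TEX[prop:plane-green], Laplacian form, in the vocabulary of SCREEN
-/

set_option autoImplicit false

namespace Claimed.Agent.R292

open Claims Claims.C0468 MeasureTheory Filter Topology
open Claimed.Agent.R291

/-! ## 1. maps of configurations which read the spins through a map of the lattice -/

/-- `T` reads the spins through `(σ, σf)` -/
structure AsdRd (T : RswCfg → RswCfg) (σ σf : ℤ × ℤ → ℤ × ℤ) : Prop where
  inc : ∀ f v, v ∈ mdl21Cor f → σ v ∈ mdl21Cor (σf f)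
  S : ∀ ω v, scrS (T ω) v = scrS ω (σ v)
  D : ∀ ω f, scrD (T ω) f = scrD ω (σf f)
  box : ∀ m : ℕ, ∃ m' : ℕ, ∀ f ∈ rswBox 0 m, σf f ∈ rswBox 0 m'

theorem asd_rd_id : AsdRd (fun ω => ω) (fun v => v) (fun f => f) :=
  ⟨fun _ _ h => h, fun _ _ => rfl, fun _ _ => rfl, fun m => ⟨m, fun _ h => h⟩⟩

theorem AsdRd.comp {T T' : RswCfg → RswCfg} {σ σf σ' σf' : ℤ × ℤ → ℤ × ℤ} (h : AsdRd T σ σf) (h' : AsdRd T' σ' σf') :
    AsdRd (fun ω => T (T' ω)) (fun v => σ' (σ v)) (fun f => σf' (σf f)) := by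
  refine ⟨fun f v hv => h'.inc _ _ (h.inc _ _ hv), fun ω v => by rw [h.S, h'.S], fun ω f => by rw [h.D, h'.D], fun m => ?_⟩
  obtain ⟨m1, h1⟩ := h.box m
  obtain ⟨m2, h2⟩ := h'.box m1
  exact ⟨m2, fun f hf => h2 _ (h1 f hf)⟩

theorem asd_sh_S (a : ℤ × ℤ) (ω : RswCfg) (v : ℤ × ℤ) : scrS (scrAct (scrTr (-a)) ω) v = scrS ω (v + a) := by
  unfold scrS
  have : v ∈ (scrAct (scrTr (-a)) ω).S ↔ v + a ∈ ω.S := by
    simp only [scrAct, scrTr, Finset.mem_image]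
    constructor
    · rintro ⟨w, hw, rfl⟩
      simpa using hw
    · intro h
      exact ⟨v + a, h, by simp⟩
  simp only [this]

theorem asd_sh_D (a : ℤ × ℤ) (ω : RswCfg) (f : ℤ × ℤ) : scrD (scrAct (scrTr (-a)) ω) f = scrD ω (f + a) := by
  unfold scrD
  have : f ∈ (scrAct (scrTr (-a)) ω).D ↔ f + a ∈ ω.D := by
    simp only [scrAct, scrTr, Finset.mem_image]
    constructor
    · rintro ⟨w, hw, rfl⟩
      simpa using hw
    · intro h
      exact ⟨f + a, h, by simp⟩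
  simp only [this]

theorem asd_rd_tr (a : ℤ × ℤ) : AsdRd (fun ω => scrAct (scrTr (-a)) ω) (fun v => v + a) (fun f => f + a) :=
  ⟨asd_cor_add a, asd_sh_S a, asd_sh_D a, fun m => ⟨m + a.1.natAbs + a.2.natAbs, asd_box_shift' a le_rfl⟩⟩

theorem asd_re_c_inv (j : Fin 4) (v : ℤ × ℤ) : (scrRe j).c ((scrRe j).c v) = v := by
  fin_cases j <;> simp [scrRe]

theorem asd_re_f_inv (j : Fin 4) (f : ℤ × ℤ) : (scrRe j).f ((scrRe j).f f) = f := by
  fin_cases j <;> simp [scrRe]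

theorem asd_re_S (j : Fin 4) (ω : RswCfg) (v : ℤ × ℤ) : scrS (scrAct (scrRe j) ω) v = scrS ω ((scrRe j).c v) := by
  unfold scrS
  have : v ∈ (scrAct (scrRe j) ω).S ↔ (scrRe j).c v ∈ ω.S := by
    simp only [scrAct, Finset.mem_image]
    constructor
    · rintro ⟨w, hw, rfl⟩
      rwa [asd_re_c_inv]
    · intro h
      exact ⟨_, h, asd_re_c_inv j v⟩
  simp only [this]

theorem asd_re_D (j : Fin 4) (ω : RswCfg) (f : ℤ × ℤ) : scrD (scrAct (scrRe j) ω) f = scrD ω ((scrRe j).f f) := by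
  unfold scrD
  have : f ∈ (scrAct (scrRe j) ω).D ↔ (scrRe j).f f ∈ ω.D := by
    simp only [scrAct, Finset.mem_image]
    constructor
    · rintro ⟨w, hw, rfl⟩
      rwa [asd_re_f_inv]
    · intro h
      exact ⟨_, h, asd_re_f_inv j f⟩
  simp only [this]

theorem asd_re_inc (j : Fin 4) (f v : ℤ × ℤ) (h : v ∈ mdl21Cor f) : (scrRe j).c v ∈ mdl21Cor ((scrRe j).f f) := by
  rw [asd_mem_cor] at h ⊢
  fin_cases j <;> simp [scrRe] <;> omega

theorem asd_re_box (j : Fin 4) (m : ℕ) (f : ℤ × ℤ) (h : f ∈ rswBox 0 m) : (scrRe j).f f ∈ rswBox 0 m := by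
  rw [rsy_mem_box] at h ⊢
  simp only [Prod.fst_zero, Prod.snd_zero] at h ⊢
  fin_cases j <;> simp [scrRe] <;> omega

theorem asd_rd_re (j : Fin 4) : AsdRd (fun ω => scrAct (scrRe j) ω) (scrRe j).c (scrRe j).f :=
  ⟨asd_re_inc j, asd_re_S j, asd_re_D j, fun m => ⟨m, asd_re_box j m⟩⟩

/-! ## 2. the plane covariance of two insertions -/

theorem asd_exists_win' (A : Finset (ℤ × ℤ)) : ∃ m : ℕ, 1 ≤ m ∧ ∀ u ∈ A, u ∈ rswBox 0 m := by
  refine ⟨1 + A.sup (fun u => u.1.natAbs + u.2.natAbs), by omega, fun u hu => ?_⟩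
  have : u.1.natAbs + u.2.natAbs ≤ A.sup (fun u => u.1.natAbs + u.2.natAbs) :=
    Finset.le_sup (f := fun u : ℤ × ℤ => u.1.natAbs + u.2.natAbs) hu
  rw [rsy_mem_box]
  simp only [Prod.fst_zero, Prod.snd_zero]
  omega

/-- finite volume form -/
theorem asd_E_cov {t : ℝ} (ht : t ≠ 0) {T T' : RswCfg → RswCfg} {σ σf σ' σf' : ℤ × ℤ → ℤ × ℤ} (h : AsdRd T σ σf) (h' : AsdRd T' σ' σf')
    {b b' : AspG →₀ ℝ} (hb : aspTot b = 0) (hb' : aspTot b' = 0) (v₀ v₀' : ℤ × ℤ) :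
    ∀ᶠ n : ℕ in atTop, rswE t (rswBox 0 n) true (fun ω => scrArr b v₀ (T ω) * scrArr b' v₀' (T' ω)) =
      mdlFz t⁻¹ (rswBox 0 n) (fun k => asiArr (aspMap σ b) k * asiArr (aspMap σ' b') k) := by
  classical
  obtain ⟨m, hm, hw⟩ := asd_exists_win' (insert v₀ (insert v₀' (b.support ∪ b'.support)))
  obtain ⟨m1, h1⟩ := h.box m
  obtain ⟨m2, h2⟩ := h'.box m
  filter_upwards [eventually_ge_atTop (1 + m1 + m2)] with n hn
  have hex := asd_box_ex 0 (n := n) (by omega)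
  rw [asd_fz_eq ht hex]
  refine rswd11_E_congr t fun ω ha => ?_
  rw [asd_arr_box hex ha h.inc (h.S ω) (h.D ω) (fun f hf => asd_box_mono 0 (by omega) (h1 f hf)) (hw _ (by simp)) hb
      (fun v hv => hw _ (by simp only [Finset.mem_insert, Finset.mem_union]; tauto)),
    asd_arr_box hex ha h'.inc (h'.S ω) (h'.D ω) (fun f hf => asd_box_mono 0 (by omega) (h2 f hf)) (hw _ (by simp)) hb'
      (fun v hv => hw _ (by simp only [Finset.mem_insert, Finset.mem_union]; tauto))]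

/-- **the plane law of SCREEN on two insertions = the plane covariance of SPEC** -/
theorem asd_pl_cov {t : ℝ} (ht : t ≠ 0) {T T' : RswCfg → RswCfg} {σ σf σ' σf' : ℤ × ℤ → ℤ × ℤ} (h : AsdRd T σ σf) (h' : AsdRd T' σ' σf')
    {b b' : AspG →₀ ℝ} (hb : aspTot b = 0) (hb' : aspTot b' = 0) (v₀ v₀' : ℤ × ℤ) :
    scrPl t (fun ω => scrArr b v₀ (T ω) * scrArr b' v₀' (T' ω)) = asiCov t⁻¹ (aspMap σ b) (aspMap σ' b') := by
  unfold scrPl asiCov mdlPln limUnder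
  rw [Filter.map_congr (asd_E_cov ht h h' hb hb' v₀ v₀')]

theorem asd_c_of_t {t : ℝ} (ht1 : 1 / 2 ≤ t) (ht2 : t < 1) : 1 < t⁻¹ ∧ t⁻¹ ≤ 2 ∧ t ≠ 0 := by
  have h0 : 0 < t := by linarith
  refine ⟨(one_lt_inv₀ h0).2 ht2, ?_, h0.ne'⟩
  rw [inv_le_comm₀ h0 two_pos]
  linarith

/-- the same through the variogram -/
theorem asd_pl_gam {t : ℝ} (ht1 : 1 / 2 ≤ t) (ht2 : t < 1) {T T' : RswCfg → RswCfg} {σ σf σ' σf' : ℤ × ℤ → ℤ × ℤ}
    (h : AsdRd T σ σf) (h' : AsdRd T' σ' σf') {b b' : AspG →₀ ℝ} (hb : aspTot b = 0) (hb' : aspTot b' = 0) (v₀ v₀' : ℤ × ℤ) :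
    scrPl t (fun ω => scrArr b v₀ (T ω) * scrArr b' v₀' (T' ω)) = aspGam (asiVg t⁻¹) (aspMap σ b) (aspMap σ' b') := by
  obtain ⟨c1, c2, t0⟩ := asd_c_of_t ht1 ht2
  rw [asd_pl_cov t0 h h' hb hb', asi_cov_eq _ c1 c2 _ _ (by rw [asd_tot_map, hb]) (by rw [asd_tot_map, hb'])]

/-! ## 3. shifts (exact) -/

theorem asd_sh_step (a : ℤ × ℤ) (ω : RswCfg) (e : (ℤ × ℤ) × Bool) :
    scrStep (scrAct (scrTr (-a)) ω) e = scrStep ω (e.1 + a, e.2) := by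
  unfold scrStep
  rw [asd_sh_S, asd_sh_S, asd_sh_D]
  have : rswEnd e + a = rswEnd (e.1 + a, e.2) := by
    obtain ⟨⟨x, y⟩, d⟩ := e
    cases d <;> apply Prod.ext <;> simp [rswEnd] <;> ring
  rw [this]

theorem asd_sh_inc (a : ℤ × ℤ) (ω : RswCfg) (v₀ v : ℤ × ℤ) :
    scrInc (scrAct (scrTr (-a)) ω) v₀ v = scrInc ω (v₀ + a) (v + a) := by
  unfold scrInc
  simp only [asd_sh_step, Prod.fst_add, Prod.snd_add]
  rw [← asd_osum_shift v₀.1 v.1 a.1 (fun x => scrStep ω ((x, v₀.2 + a.2), false)),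
    ← asd_osum_shift v₀.2 v.2 a.2 (fun y => scrStep ω ((v.1 + a.1, y), true))]
  rfl

/-- **a shifted insertion is the insertion of the translated array** -/
theorem asd_sh_arr (a : ℤ × ℤ) (b : AspG →₀ ℝ) (v₀ : ℤ × ℤ) : scrSh a (scrArr b v₀) = scrArr (aspTr a b) (v₀ + a) := by
  funext ω
  unfold scrSh scrArr aspTr
  rw [Finsupp.sum_mapDomain_index (fun _ => zero_mul _) (fun _ _ _ => add_mul _ _ _)]
  simp only [asd_sh_inc]

/-! ## 4. the reflection form on insertions -/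

theorem asd_map_id (b : AspG →₀ ℝ) : aspMap (fun v => v) b = b := by
  unfold aspMap
  exact Finsupp.mapDomain_id

/-- **the reflection form of SCREEN on two insertions** -/
theorem asd_fm_arr {t : ℝ} (ht1 : 1 / 2 ≤ t) (ht2 : t < 1) (j : Fin 4) {b b' : AspG →₀ ℝ} (hb : aspTot b = 0) (hb' : aspTot b' = 0)
    (v₀ v₀' : ℤ × ℤ) :
    scrFm t j (scrArr b v₀) (scrArr b' v₀') = aspGam (asiVg t⁻¹) (aspMap (scrRe j).c b) b' := by
  have := asd_pl_gam ht1 ht2 (asd_rd_re j) asd_rd_id hb hb' v₀ v₀'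
  rw [asd_map_id] at this
  exact this

/-- product of two insertions under the plane law -/
theorem asd_pl_arr {t : ℝ} (ht1 : 1 / 2 ≤ t) (ht2 : t < 1) {b b' : AspG →₀ ℝ} (hb : aspTot b = 0) (hb' : aspTot b' = 0) (v₀ v₀' : ℤ × ℤ) :
    scrPl t (fun ω => scrArr b v₀ ω * scrArr b' v₀' ω) = aspGam (asiVg t⁻¹) b b' := by
  have := asd_pl_gam ht1 ht2 asd_rd_id asd_rd_id hb hb' v₀ v₀'
  rw [asd_map_id, asd_map_id] at this
  exact this

/-- the frame of SPEC of a frame of SCREEN -/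
def asdFr (j : Fin 4) : Fin 4 := ![0, 3, 2, 1] j

theorem asd_fr_eqns_cite : True := by
  have := @asdFr.eq_1
  trivial

theorem asd_re_row (j : Fin 4) : (scrRe j).c = aspRow (asdFr j) 0 := by
  funext v
  fin_cases j <;> simp [scrRe, asdFr, aspRow]

theorem asd_row_tr (i : Fin 4) (a v : AspG) : aspRow i 0 (v + a) = aspRow i (-aspNor i a) v + a := by
  fin_cases i <;> apply Prod.ext <;> simp [aspRow, aspNor] <;> ring

theorem asd_map_row_tr (i : Fin 4) (a : AspG) (b : AspG →₀ ℝ) :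
    aspMap (aspRow i 0) (aspTr a b) = aspTr a (aspMap (aspRow i (-aspNor i a)) b) := by
  unfold aspMap aspTr
  rw [← Finsupp.mapDomain_comp, ← Finsupp.mapDomain_comp]
  congr 1
  funext v
  exact asd_row_tr i a v

theorem asd_W_lap_tot {δ : ℝ} (hδ : 0 < δ) {φ : ℝ × ℝ → ℝ} (hφ : AspTest φ) : aspTot (aspW δ (lap2 φ)) = 0 := by
  obtain ⟨s1, s2, s3⟩ := pcv_lap_test hφ.1 hφ.2
  exact (asi_W_tot hδ (f := lap2 φ) ⟨s1, s2⟩).trans s3

/-- **the reflection form on a shifted Laplace insertion** -/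
theorem asd_fm_ins {t : ℝ} (ht1 : 1 / 2 ≤ t) (ht2 : t < 1) (j : Fin 4) {δ : ℝ} (hδ : 0 < δ) {φ : ℝ × ℝ → ℝ} (hφ : AspTest φ)
    (z : ℝ × ℝ) (a : ℤ × ℤ) :
    scrFm t j (scrSh a (scrIns δ z φ)) (scrSh a (scrIns δ z φ)) =
      aspGam (asiVg t⁻¹) (aspMap (aspRow (asdFr j) (-aspNor (asdFr j) a)) (aspW δ (lap2 φ))) (aspW δ (lap2 φ)) := by
  have h0 := asd_W_lap_tot hδ hφ
  have e : scrIns δ z φ = scrArr (aspW δ (lap2 φ)) (⌊z.1 / δ⌋, ⌊z.2 / δ⌋) := rfl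
  rw [e, asd_sh_arr, asd_fm_arr ht1 ht2 j (by rw [ask_tot_tr, h0]) (by rw [ask_tot_tr, h0]), asd_re_row, asd_map_row_tr, ask_gam_tr]

/-- **TEX[cor:reflection-null] in the vocabulary of SCREEN**: the insertion of a fixed test `φ`, moved by `a δ`, at macroscopic distance `≥ m` on one side of the row of
level `0` of the frame `j` (in the coordinates of `φ` the row sits at the normal coordinate `y0 = lim aspStep * δ * (- aspNor (a δ))`) -/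
theorem asd_rn {t : ℝ} (ht1 : 1 / 2 ≤ t) (ht2 : t < 1) (j : Fin 4) {φ : ℝ × ℝ → ℝ} (hφ : AspTest φ) (y0 m : ℝ) (hm : 0 < m)
    (hside : (∀ z ∈ tsupport φ, y0 + m ≤ aspNorE (asdFr j) z) ∨ (∀ z ∈ tsupport φ, aspNorE (asdFr j) z ≤ y0 - m))
    (a : ℝ → ℤ × ℤ) (z : ℝ → ℝ × ℝ)
    (hlim : Tendsto (fun δ : ℝ => aspStep (asdFr j) * δ * ((-aspNor (asdFr j) (a δ) : ℤ) : ℝ)) (𝓝[>] 0) (𝓝 y0)) :
    Tendsto (fun δ : ℝ => scrFm t j (scrSh (a δ) (scrIns δ (z δ) φ)) (scrSh (a δ) (scrIns δ (z δ) φ))) (𝓝[>] 0) (𝓝 0) := by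
  obtain ⟨c1, c2, -⟩ := asd_c_of_t ht1 ht2
  obtain ⟨v, -, -, hrn⟩ := exit_spec_at t⁻¹ c1 c2
  refine (hrn (asdFr j) φ y0 m (fun δ => -aspNor (asdFr j) (a δ)) hφ hm hside hlim).congr' ?_
  filter_upwards [self_mem_nhdsWithin] with δ hδ
  exact (asd_fm_ins ht1 ht2 j hδ hφ (z δ) (a δ)).symm

/-- **TEX[cor:reflection-null] in the vocabulary of SCREEN, along any filter** -/
theorem asd_rn_fil {t : ℝ} (ht1 : 1 / 2 ≤ t) (ht2 : t < 1) (j : Fin 4) {φ : ℝ × ℝ → ℝ} (hφ : AspTest φ) (y0 m : ℝ) (hm : 0 < m)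
    (hside : (∀ z ∈ tsupport φ, y0 + m ≤ aspNorE (asdFr j) z) ∨ (∀ z ∈ tsupport φ, aspNorE (asdFr j) z ≤ y0 - m))
    {ι : Type*} {l : Filter ι} {δ : ι → ℝ} (hδ : Tendsto δ l (𝓝[>] 0)) (a : ι → ℤ × ℤ) (z : ι → ℝ × ℝ)
    (hlim : Tendsto (fun x => aspStep (asdFr j) * δ x * ((-aspNor (asdFr j) (a x) : ℤ) : ℝ)) l (𝓝 y0)) :
    Tendsto (fun x => scrFm t j (scrSh (a x) (scrIns (δ x) (z x) φ)) (scrSh (a x) (scrIns (δ x) (z x) φ))) l (𝓝 0) := by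
  obtain ⟨c1, c2, -⟩ := asd_c_of_t ht1 ht2
  obtain ⟨v, -, hpc, -⟩ := exit_spec_at t⁻¹ c1 c2
  refine (asr_RN (asi_in t⁻¹ c1 c2) hpc (asdFr j) hφ y0 m hm hside hδ (j := fun x => -aspNor (asdFr j) (a x)) hlim).congr' ?_
  filter_upwards [hδ.eventually self_mem_nhdsWithin] with x hx
  exact (asd_fm_ins ht1 ht2 j hx hφ (z x) (a x)).symm

/-- **the contract `Scr232sR3` of Screen/Sep232** (there `scr232sRv 0 r = (0, r)`, `X n = scrIns (δ n) (z n) φ`, `core ⊇ tsupport φ`) -/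
theorem asd_R3 {t : ℝ} (ht1 : 1 / 2 ≤ t) (ht2 : t < 1) {δ : ℕ → ℝ} (hδ : ∀ n, 0 < δ n) (hδ0 : Tendsto δ atTop (𝓝 0))
    {φ : ℝ × ℝ → ℝ} (hφ : AspTest φ) (z : ℕ → ℝ × ℝ) {core : Set (ℝ × ℝ)} (hcore : tsupport φ ⊆ core)
    (r : ℕ → ℤ) (y0 m0 : ℝ) (hm0 : 0 < m0) (hr : Tendsto (fun n => δ n * (r n : ℝ)) atTop (𝓝 y0)) (hc : ∀ p ∈ core, p.2 ≤ y0 - m0) :
    Tendsto (fun n => scrFm t 0 (scrSh (-((0 : ℤ), r n)) (scrIns (δ n) (z n) φ)) (scrSh (-((0 : ℤ), r n)) (scrIns (δ n) (z n) φ)))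
      atTop (𝓝 0) := by
  refine asd_rn_fil ht1 ht2 0 hφ y0 m0 hm0 (Or.inr fun p hp => hc p (hcore hp))
    (tendsto_nhdsWithin_iff.2 ⟨hδ0, Eventually.of_forall hδ⟩) (fun n => -((0 : ℤ), r n)) z ?_
  refine hr.congr fun n => ?_
  simp [asdFr, aspStep, aspNor]

/-- **TEX[prop:plane-green], Laplacian form, in the vocabulary of SCREEN**: ONE constant `v`, full limit -/
theorem asd_pc {t : ℝ} (ht1 : 1 / 2 ≤ t) (ht2 : t < 1) :
    ∃ v : ℝ, 0 < v ∧ ∀ η φ : ℝ × ℝ → ℝ, AspTest η → AspTest φ → ∀ z z' : ℝ → ℝ × ℝ,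
      Tendsto (fun δ : ℝ => scrPl t (fun ω => scrIns δ (z δ) η ω * scrIns δ (z' δ) φ ω)) (𝓝[>] 0) (𝓝 (-v * ∫ x, η x * lap2 φ x)) := by
  obtain ⟨c1, c2, -⟩ := asd_c_of_t ht1 ht2
  obtain ⟨v, hv, hpc, -⟩ := exit_spec_at t⁻¹ c1 c2
  refine ⟨v, hv, fun η φ hη hφ z z' => ?_⟩
  obtain ⟨s1, s2, s3⟩ := pcv_lap_test hφ.1 hφ.2
  refine (hpc η (lap2 φ) hη ⟨s1, s2⟩ s3).congr' ?_
  filter_upwards [self_mem_nhdsWithin] with δ hδ
  exact (asd_pl_arr ht1 ht2 (asd_W_lap_tot hδ hη) (asd_W_lap_tot hδ hφ) _ _).symm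

end Claimed.Agent.R292
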