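import Claimed.Agent.R292.Spec.Mix222

/-!
# Row 292, Spec/B2 : CONTRACT B2 = TEX[lem:cauchy-mixture] in each of the four frames, model free      (typed helper79; OWNER helper222)
Port of R291 Pln/Mix, general frame theorem: proof in `Spec/Mix222.lean`.
-/

set_option autoImplicit false

namespace Claimed.Agent.R292

open MeasureTheory

theorem asp_mix {a : AspG → ℝ} {Cf : Measure (ℝ × ℝ)} {K : ℝ} (h : AspIn a) (hs : AspSpec a Cf K) (i : Fin 4) :
    ∃ ν : Measure (ℝ × ℝ), AspMix i Cf ν :=
  asp222_mix_box h hs i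

end Claimed.Agent.R292
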