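import Claimed.Agent.R292.Spec.Adapt202

/-!
# Row 292, Spec/B3 : CONTRACT B3 = TEX[prop:dispersion-defect, lem:spectral-endcap, first half of prop:plane-green] + uniqueness of the coefficient      (typed helper79; CLOSED: 102 22 202)
Pure measure theory on `ℝ × ℝ`: uses only the fields `box zero rot ann far` of `AspSpec` and `AspMix 0`, `AspMix 1`.      Port of R291 Exit/PlnCore + Pln/Pnc*.
Chain: `Spec/Core102` (AsqIn: defect, bands, endcaps, KL, prod, lam) → `Spec/Coef102` (`asq_main`, full limit) → `Spec/Adapt202` (`asaIn : AspSpec + AspMix 0, 1 → AsqIn`, `asa_core`).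
-/

set_option autoImplicit false

namespace Claimed.Agent.R292

open MeasureTheory

theorem asp_core {a : AspG → ℝ} {Cf : Measure (ℝ × ℝ)} {K : ℝ} (hs : AspSpec a Cf K)
    (hm : ∀ i : Fin 4, ∃ ν : Measure (ℝ × ℝ), AspMix i Cf ν) : ∃ c : ℝ, 0 ≤ c ∧ AspPS Cf c :=
  asa_core hs hm

end Claimed.Agent.R292
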