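import Claimed.Agent.R292.Spec.Cov86

/-!
# Row 292, Spec/B4 : CONTRACT B4 = second half of TEX[prop:plane-green] (Laplacian form) + TEX[cor:reflection-null], model free      (typed helper79; OWNER helper86)
Port of R291 Pln/PcvA PcvB PcvC.      CLOSED (86, 19:00Z), 0 sorry: citation of `asg_main` of `R292/Spec/Cov86.lean`.
-/

set_option autoImplicit false

namespace Claimed.Agent.R292

open MeasureTheory

theorem asp_cov {a : AspG → ℝ} {Cf : Measure (ℝ × ℝ)} {K c : ℝ} (h : AspIn a) (hs : AspSpec a Cf K) (hc : 0 ≤ c)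
    (hp : AspPS Cf c) : 0 < c ∧ AspPCF (aspGam a) ((2 * Real.pi) ^ 2 * c) ∧ AspRN (aspGam a) :=
  asg_main h hs hc hp

end Claimed.Agent.R292
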