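import Claimed.Agent.R292.Rsw.DictHt11
import Claimed.Agent.R292.Model.DictM21
import Claimed.Agent.R292.Rsw.Sym211
import Claimed.Agent.R292.Bridge.Rect89
import Claimed.Agent.R292.Defs.SPECI
import Claimed.Agent.R292.Defs.ScreenIns
import Claimed.Agent.R292.Exit.RSW

/-!
# Row 292 (S0540), Spec/Dict79 : THE ADAPTERS  `rsw` (flat laws of `(S, D, O)`)  <->  `mdl` / `asi` (six-vertex heights, frozen law)  <->  `scr` (local insertions)      (owner helper79; prefix `asd`)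

1. boxes: `asd_box_jordan : RswJordan (rswBox z n)` (`1 ≤ n`), `asd_ex_of_jordan : RswJordan F → Mdl21Ex F`
2. (D0) `asd_fz_eq : mdlFz t⁻¹ F G = rswE t F true (fun ω => G (mdl21mH F (rswd11K F ω)))`
3. heights of admissible configurations are read LOCALLY: `asd_face`, `asd_step`, `asd_inc_gen` (L-shaped paths, through any incidence preserving map), `asd_arr_box`
4. the local rooted height `asdK ω : MdlS → ℤ`, `asd_K_eq`, `asd_K_loc`
5. `asd_ht : AsiHt c` from `exit_rsw_plane`;   `asd_sm` from `exit_rsw_mom_plane`      (the contracts `asi_ht`, `asi_sm` of `Spec/B6`)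
-/

set_option autoImplicit false

namespace Claimed.Agent.R292

open Claims Claims.C0468 MeasureTheory Filter Topology

/-! ## 1. boxes -/

/-- a box of faces is bounded by a Jordan curve -/
theorem asd_box_jordan (z : ℤ × ℤ) {n : ℕ} (hn : 1 ≤ n) : RswJordan (rswBox z n) := by
  unfold RswJordan rswBox
  have hn' : (1 : ℝ) ≤ (n : ℝ) := by exact_mod_cast hn
  rw [atb89_rect_region one_pos _ _ _ _ (by omega) (by omega)]
  refine atb89_jordan (atb89_rectG ?_ ?_) _ <;> push_cast <;> linarith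

/-- every admissible pair of spins of a Jordan domain has a height -/
theorem asd_ex_of_jordan {F : Finset (ℤ × ℤ)} (h : RswJordan F) : Mdl21Ex F := by
  obtain ⟨γ, hc, -, hr⟩ := h
  refine mdl21_ex_of_ext fun S h1 h2 h3 => at92h_ext_conn one_pos F ?_ S h1 h2 h3
  rw [← hr]
  exact isPreconnected_range hc

theorem asd_box_ex (z : ℤ × ℤ) {n : ℕ} (hn : 1 ≤ n) : Mdl21Ex (rswBox z n) := asd_ex_of_jordan (asd_box_jordan z hn)

theorem asd_box_mono (z : ℤ × ℤ) {m n : ℕ} (h : m ≤ n) : rswBox z m ⊆ rswBox z n := by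
  intro f hf
  rw [rsy_mem_box] at hf ⊢
  omega

/-! ## 2. (D0) -/

/-- **(D0)** the frozen law in MODEL's vocabulary is the flat plus law of `Defs/RSW` read through the height -/
theorem asd_fz_eq {t : ℝ} (ht : t ≠ 0) {F : Finset (ℤ × ℤ)} (hex : Mdl21Ex F) (G : (MdlS → ℤ) → ℝ) :
    mdlFz t⁻¹ F G = rswE t F true (fun ω => G (mdl21mH F (rswd11K F ω))) := by
  rw [rswd11_E_ht ht hex (fun K => G (mdl21mH F K))]
  unfold mdlFz mdlEQ mdlZQ mdlWt
  rw [mdl21m_sum hex, mdl21m_sum hex]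
  simp only [mdl21m_N]

/-! ## 3. the height of an admissible configuration is read locally -/

theorem asd_S_cast (ω : RswCfg) (v : ℤ × ℤ) : scrS ω v = (((if v ∈ ω.S then 1 else -1 : ℤ)) : ℝ) := by
  unfold scrS
  split_ifs <;> simp

theorem asd_D_cast (ω : RswCfg) (f : ℤ × ℤ) : scrD ω f = (((if f ∈ ω.D then 1 else -1 : ℤ)) : ℝ) := by
  unfold scrD
  split_ifs <;> simp

section

variable {F : Finset (ℤ × ℤ)}

/-- face minus corner, integer form -/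
theorem asd_face_int (hex : Mdl21Ex F) {ω : RswCfg} (ha : IsAdmissibleSpins (rswTau F ω) (rswTauD F ω))
    {f v : ℤ × ℤ} (hf : f ∈ F) (hv : v ∈ mdl21Cor f) :
    (rswd11K F ω).2 f - (rswd11K F ω).1 v = (if v ∈ ω.S then 1 else -1) * (if f ∈ ω.D then 1 else -1) := by
  obtain ⟨hK, -, hs, hd⟩ := mdl21_K_spec ha (hex _ _ ha)
  have e := mdl21_sg_mul (hK.even v) (hK.step f hf v hv)
  rw [← hs v, ← hd f, rswd11_spin ω (mdl21_cor_sub hf hv), rswd11_dual ω hf] at e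
  exact e.symm

/-- face minus corner -/
theorem asd_face (hex : Mdl21Ex F) {ω : RswCfg} (ha : IsAdmissibleSpins (rswTau F ω) (rswTauD F ω))
    {f v : ℤ × ℤ} (hf : f ∈ F) (hv : v ∈ mdl21Cor f) :
    (((rswd11K F ω).2 f : ℤ) : ℝ) - (((rswd11K F ω).1 v : ℤ) : ℝ) = scrS ω v * scrD ω f := by
  rw [asd_S_cast, asd_D_cast, ← Int.cast_sub, ← Int.cast_mul, asd_face_int hex ha hf hv]

/-- two corners of one face -/
theorem asd_step (hex : Mdl21Ex F) {ω : RswCfg} (ha : IsAdmissibleSpins (rswTau F ω) (rswTauD F ω))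
    {f v v' : ℤ × ℤ} (hf : f ∈ F) (hv : v ∈ mdl21Cor f) (hv' : v' ∈ mdl21Cor f) :
    (scrS ω v - scrS ω v') * scrD ω f / 2 = (((rswd11K F ω).1 v' : ℤ) : ℝ) / 2 - (((rswd11K F ω).1 v : ℤ) : ℝ) / 2 := by
  have h1 := asd_face hex ha hf hv
  have h2 := asd_face hex ha hf hv'
  rw [sub_mul, ← h1, ← h2]
  ring

end

/-- telescoping over an interval of integers -/
theorem asd_tel {a b : ℤ} (hab : a ≤ b) (φ : ℤ → ℝ) : ∑ x ∈ Finset.Ico a b, (φ (x + 1) - φ x) = φ b - φ a := by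
  induction b, hab using Int.leInduction with
  | base => simp
  | succ b hb ih =>
    rw [← Finset.insert_Ico_right_eq_Ico_add_one hb, Finset.sum_insert (by simp), ih]
    ring

theorem asd_osum_congr {a b : ℤ} {g g' : ℤ → ℝ} (h : ∀ x, min a b ≤ x → x < max a b → g x = g' x) :
    scrOsum a b g = scrOsum a b g' := by
  unfold scrOsum
  split_ifs with hab
  · refine Finset.sum_congr rfl fun x hx => h x ?_ ?_
    · rw [min_eq_left hab]; exact (Finset.mem_Ico.1 hx).1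
    · rw [max_eq_right hab]; exact (Finset.mem_Ico.1 hx).2
  · have hba : b ≤ a := by omega
    congr 1
    refine Finset.sum_congr rfl fun x hx => h x ?_ ?_
    · rw [min_eq_right hba]; exact (Finset.mem_Ico.1 hx).1
    · rw [max_eq_left hba]; exact (Finset.mem_Ico.1 hx).2

/-- telescoping of oriented sums -/
theorem asd_osum_tel (a b : ℤ) (φ : ℤ → ℝ) : scrOsum a b (fun x => φ (x + 1) - φ x) = φ b - φ a := by
  unfold scrOsum
  split_ifs with hab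
  · exact asd_tel hab φ
  · rw [asd_tel (by omega) φ]
    ring

/-- shift of oriented sums -/
theorem asd_osum_shift (a b c : ℤ) (g : ℤ → ℝ) : scrOsum a b (fun x => g (x + c)) = scrOsum (a + c) (b + c) g := by
  unfold scrOsum
  have e : ∀ p q : ℤ, ∑ x ∈ Finset.Ico p q, g (x + c) = ∑ x ∈ Finset.Ico (p + c) (q + c), g x := by
    intro p q
    rw [← Finset.map_add_right_Ico, Finset.sum_map]
    rfl
  by_cases hab : a ≤ b
  · rw [if_pos hab, if_pos (by omega), e]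
  · rw [if_neg hab, if_neg (by omega), e]

/-- **increments along L-shaped paths**, read through an incidence preserving map `(σ, σf)` of the corners and of the faces -/
theorem asd_inc_gen {F : Finset (ℤ × ℤ)} (hex : Mdl21Ex F) {ω ω' : RswCfg} (ha : IsAdmissibleSpins (rswTau F ω) (rswTauD F ω))
    {σ σf : ℤ × ℤ → ℤ × ℤ} (hσ : ∀ f v, v ∈ mdl21Cor f → σ v ∈ mdl21Cor (σf f))
    (hS : ∀ v, scrS ω' v = scrS ω (σ v)) (hD : ∀ f, scrD ω' f = scrD ω (σf f)) (v₀ v : ℤ × ℤ)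
    (h1 : ∀ x, min v₀.1 v.1 ≤ x → x < max v₀.1 v.1 → σf (x, v₀.2) ∈ F)
    (h2 : ∀ y, min v₀.2 v.2 ≤ y → y < max v₀.2 v.2 → σf (v.1, y) ∈ F) :
    scrInc ω' v₀ v = (((rswd11K F ω).1 (σ v) : ℤ) : ℝ) / 2 - (((rswd11K F ω).1 (σ v₀) : ℤ) : ℝ) / 2 := by
  unfold scrInc
  have A : scrOsum v₀.1 v.1 (fun x => scrStep ω' ((x, v₀.2), false)) =
      (((rswd11K F ω).1 (σ (v.1, v₀.2)) : ℤ) : ℝ) / 2 - (((rswd11K F ω).1 (σ (v₀.1, v₀.2)) : ℤ) : ℝ) / 2 := by
    rw [← asd_osum_tel v₀.1 v.1 (fun x : ℤ => (((rswd11K F ω).1 (σ (x, v₀.2)) : ℤ) : ℝ) / 2)]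
    refine asd_osum_congr fun x hx1 hx2 => ?_
    unfold scrStep
    rw [hS, hS, hD]
    exact asd_step hex ha (h1 x hx1 hx2) (hσ _ _ (by simp [mdl21Cor])) (hσ _ _ (by simp [mdl21Cor, rswEnd]))
  have B : scrOsum v₀.2 v.2 (fun y => scrStep ω' ((v.1, y), true)) =
      (((rswd11K F ω).1 (σ (v.1, v.2)) : ℤ) : ℝ) / 2 - (((rswd11K F ω).1 (σ (v.1, v₀.2)) : ℤ) : ℝ) / 2 := by
    rw [← asd_osum_tel v₀.2 v.2 (fun y : ℤ => (((rswd11K F ω).1 (σ (v.1, y)) : ℤ) : ℝ) / 2)]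
    refine asd_osum_congr fun y hy1 hy2 => ?_
    unfold scrStep
    rw [hS, hS, hD]
    exact asd_step hex ha (h2 y hy1 hy2) (hσ _ _ (by simp [mdl21Cor])) (hσ _ _ (by simp [mdl21Cor, rswEnd]))
  rw [A, B]
  simp only [Prod.mk.eta]
  ring

/-- the same in a window -/
theorem asd_inc_box {F : Finset (ℤ × ℤ)} (hex : Mdl21Ex F) {ω ω' : RswCfg} (ha : IsAdmissibleSpins (rswTau F ω) (rswTauD F ω))
    {σ σf : ℤ × ℤ → ℤ × ℤ} (hσ : ∀ f v, v ∈ mdl21Cor f → σ v ∈ mdl21Cor (σf f))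
    (hS : ∀ v, scrS ω' v = scrS ω (σ v)) (hD : ∀ f, scrD ω' f = scrD ω (σf f)) {m : ℕ}
    (hF : ∀ f ∈ rswBox 0 m, σf f ∈ F) {v₀ v : ℤ × ℤ} (h₀ : v₀ ∈ rswBox 0 m) (hv : v ∈ rswBox 0 m) :
    scrInc ω' v₀ v = (((rswd11K F ω).1 (σ v) : ℤ) : ℝ) / 2 - (((rswd11K F ω).1 (σ v₀) : ℤ) : ℝ) / 2 := by
  rw [rsy_mem_box] at h₀ hv
  refine asd_inc_gen hex ha hσ hS hD v₀ v (fun x hx1 hx2 => hF _ ?_) (fun y hy1 hy2 => hF _ ?_)
  · rw [rsy_mem_box]
    simp only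
    omega
  · rw [rsy_mem_box]
    simp only
    omega

theorem asd_tot_map (σ : AspG → AspG) (b : AspG →₀ ℝ) : aspTot (aspMap σ b) = aspTot b := by
  unfold aspTot aspMap
  exact Finsupp.sum_mapDomain_index (fun _ => rfl) (fun _ _ _ => rfl)

theorem asd_arr_map (σ : AspG → AspG) (b : AspG →₀ ℝ) (h : MdlS → ℤ) :
    asiArr (aspMap σ b) h = b.sum fun v x => x * ((h (mdlV (σ v)) : ℝ) / 2) := by
  unfold asiArr aspMap
  exact Finsupp.sum_mapDomain_index (fun _ => zero_mul _) (fun _ _ _ => add_mul _ _ _)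

/-- **insertions of neutral arrays are arrays of the height** -/
theorem asd_arr_box {F : Finset (ℤ × ℤ)} (hex : Mdl21Ex F) {ω ω' : RswCfg} (ha : IsAdmissibleSpins (rswTau F ω) (rswTauD F ω))
    {σ σf : ℤ × ℤ → ℤ × ℤ} (hσ : ∀ f v, v ∈ mdl21Cor f → σ v ∈ mdl21Cor (σf f))
    (hS : ∀ v, scrS ω' v = scrS ω (σ v)) (hD : ∀ f, scrD ω' f = scrD ω (σf f)) {m : ℕ}
    (hF : ∀ f ∈ rswBox 0 m, σf f ∈ F) {v₀ : ℤ × ℤ} (h₀ : v₀ ∈ rswBox 0 m) {b : AspG →₀ ℝ} (hb : aspTot b = 0)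
    (hs : ∀ v ∈ b.support, v ∈ rswBox 0 m) :
    scrArr b v₀ ω' = asiArr (aspMap σ b) (mdl21mH F (rswd11K F ω)) := by
  rw [asd_arr_map]
  unfold scrArr
  have e : b.sum (fun v x => x * scrInc ω' v₀ v) =
      b.sum (fun v x => x * (((mdl21mH F (rswd11K F ω) (mdlV (σ v)) : ℤ) : ℝ) / 2) - x * ((((rswd11K F ω).1 (σ v₀) : ℤ) : ℝ) / 2)) := by
    refine Finsupp.sum_congr fun v hv => ?_
    rw [asd_inc_box hex ha hσ hS hD hF h₀ (hs v hv), mdl21m_H_V]
    ring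
  rw [e, Finsupp.sum_sub]
  have e2 : (b.sum fun _ x => x * ((((rswd11K F ω).1 (σ v₀) : ℤ) : ℝ) / 2)) = aspTot b * ((((rswd11K F ω).1 (σ v₀) : ℤ) : ℝ) / 2) := by
    unfold aspTot
    rw [Finsupp.sum_mul]
  rw [e2, hb, zero_mul, sub_zero]

/-! ## 4. the local rooted height -/

/-- the window of corners and faces read by the L-shaped paths of `rswBox 0 m` -/
noncomputable def asdWin (m : ℕ) : Finset (ℤ × ℤ) := Finset.Icc (-(m : ℤ)) m ×ˢ Finset.Icc (-(m : ℤ)) m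

/-- **the local rooted height**: `K - K(0)` computed along the L-shaped paths from `0`; a local function of `(S, D)` -/
noncomputable def asdK (ω : RswCfg) (u : MdlS) : ℤ :=
  round (2 * scrInc ω 0 (mdl21mU u)) + if (u.1 + u.2) % 2 = 0 then 0 else round (scrS ω (mdl21mU u) * scrD ω (mdl21mU u))

theorem asd_eqns_cite : True := by
  have := @asdWin.eq_1
  have := @asdK.eq_1
  trivial

theorem asd_mem_win (m : ℕ) (v : ℤ × ℤ) : v ∈ asdWin m ↔ (-(m : ℤ) ≤ v.1 ∧ v.1 ≤ m) ∧ (-(m : ℤ) ≤ v.2 ∧ v.2 ≤ m) := by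
  unfold asdWin
  simp only [Finset.mem_product, Finset.mem_Icc]

theorem asd_inc_congr {m : ℕ} {ω ω' : RswCfg} (hS : ∀ v ∈ asdWin m, scrS ω v = scrS ω' v) (hD : ∀ f ∈ asdWin m, scrD ω f = scrD ω' f)
    {v₀ v : ℤ × ℤ} (h₀ : v₀ ∈ rswBox 0 m) (hv : v ∈ rswBox 0 m) : scrInc ω v₀ v = scrInc ω' v₀ v := by
  rw [rsy_mem_box] at h₀ hv
  unfold scrInc
  congr 1
  · refine asd_osum_congr fun x hx1 hx2 => ?_
    unfold scrStep
    simp only [Prod.fst_zero, Prod.snd_zero] at h₀ hv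
    rw [hS, hS, hD] <;> rw [asd_mem_win] <;> simp [rswEnd] <;> omega
  · refine asd_osum_congr fun x hx1 hx2 => ?_
    unfold scrStep
    simp only [Prod.fst_zero, Prod.snd_zero] at h₀ hv
    rw [hS, hS, hD] <;> rw [asd_mem_win] <;> simp [rswEnd] <;> omega

theorem asd_V_add (v a : ℤ × ℤ) : mdlV v + mdlV a = mdlV (v + a) := by
  unfold mdlV
  refine Prod.ext ?_ ?_ <;> simp <;> ring

theorem asd_F_add (f a : ℤ × ℤ) : mdlF f + mdlV a = mdlF (f + a) := by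
  unfold mdlV mdlF
  refine Prod.ext ?_ ?_ <;> simp <;> ring

theorem asd_mem_cor (f v : ℤ × ℤ) : v ∈ mdl21Cor f ↔ (v.1 = f.1 ∨ v.1 = f.1 + 1) ∧ (v.2 = f.2 ∨ v.2 = f.2 + 1) := by
  obtain ⟨a, b⟩ := v
  obtain ⟨c, d⟩ := f
  rw [mdl21_mem_cor]
  simp only [Prod.mk.injEq]
  omega

theorem asd_cor_add (a f v : ℤ × ℤ) (h : v ∈ mdl21Cor f) : v + a ∈ mdl21Cor (f + a) := by
  rw [asd_mem_cor] at h ⊢
  simp only [Prod.fst_add, Prod.snd_add]
  omega

/-- **the height of an admissible configuration is the local rooted height up to a constant** (through a translation) -/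
theorem asd_K_eq {F : Finset (ℤ × ℤ)} (hex : Mdl21Ex F) {ω ω' : RswCfg} (ha : IsAdmissibleSpins (rswTau F ω) (rswTauD F ω))
    (a : ℤ × ℤ) (hS : ∀ v, scrS ω' v = scrS ω (v + a)) (hD : ∀ f, scrD ω' f = scrD ω (f + a)) {m : ℕ} (hm : 1 ≤ m)
    (hF : ∀ f ∈ rswBox 0 m, f + a ∈ F) {u : MdlS} (hu : mdl21mU u ∈ rswBox 0 m) :
    mdl21mH F (rswd11K F ω) (u + mdlV a) = asdK ω' u + (rswd11K F ω).1 (0 + a) := by
  have h0 : (0 : ℤ × ℤ) ∈ rswBox 0 m := by
    rw [rsy_mem_box]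
    simp only [Prod.fst_zero, Prod.snd_zero]
    omega
  have hinc := asd_inc_box hex ha (σ := fun v => v + a) (σf := fun f => f + a) (asd_cor_add a) hS hD hF h0 hu
  have hr : round (2 * scrInc ω' 0 (mdl21mU u)) = (rswd11K F ω).1 (mdl21mU u + a) - (rswd11K F ω).1 (0 + a) := by
    rw [hinc]
    have : (2 : ℝ) * ((((rswd11K F ω).1 (mdl21mU u + a) : ℤ) : ℝ) / 2 - (((rswd11K F ω).1 (0 + a) : ℤ) : ℝ) / 2) =
        (((rswd11K F ω).1 (mdl21mU u + a) - (rswd11K F ω).1 (0 + a) : ℤ) : ℝ) := by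
      push_cast
      ring
    rw [this, round_intCast]
  unfold asdK
  rw [hr]
  by_cases hp : (u.1 + u.2) % 2 = 0
  · rw [if_pos hp]
    conv_lhs => rw [← mdl21m_V_U hp, asd_V_add, mdl21m_H_V]
    ring
  · rw [if_neg hp]
    conv_lhs => rw [← mdl21m_F_U hp, asd_F_add, mdl21m_H_F _ (hF _ hu)]
    have hf := asd_face hex ha (hF _ hu) (v := mdl21mU u + a) (by simp [mdl21Cor])
    rw [hS, hD, ← hf, ← Int.cast_sub, round_intCast]
    ring

/-- the local rooted height is local -/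
theorem asd_K_loc {m : ℕ} {ω ω' : RswCfg} (hS : ω.S ∩ asdWin m = ω'.S ∩ asdWin m) (hD : ω.D ∩ asdWin m = ω'.D ∩ asdWin m)
    (hm : 1 ≤ m) {u : MdlS} (hu : mdl21mU u ∈ rswBox 0 m) : asdK ω u = asdK ω' u := by
  have hS' : ∀ v ∈ asdWin m, scrS ω v = scrS ω' v := by
    intro v hv
    have := Finset.ext_iff.1 hS v
    simp only [Finset.mem_inter, hv, and_true] at this
    unfold scrS
    simp only [this]
  have hD' : ∀ v ∈ asdWin m, scrD ω v = scrD ω' v := by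
    intro v hv
    have := Finset.ext_iff.1 hD v
    simp only [Finset.mem_inter, hv, and_true] at this
    unfold scrD
    simp only [this]
  have h0 : (0 : ℤ × ℤ) ∈ rswBox 0 m := by
    rw [rsy_mem_box]
    simp only [Prod.fst_zero, Prod.snd_zero]
    omega
  have hw : mdl21mU u ∈ asdWin m := by
    rw [rsy_mem_box] at hu
    rw [asd_mem_win]
    simp only [Prod.fst_zero, Prod.snd_zero] at hu
    omega
  unfold asdK
  rw [asd_inc_congr hS' hD' h0 hu, hS' _ hw, hD' _ hw]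

/-- a window for a finite set of sites -/
theorem asd_exists_win (S : Finset MdlS) : ∃ m : ℕ, 1 ≤ m ∧ ∀ u ∈ S, mdl21mU u ∈ rswBox 0 m := by
  refine ⟨1 + S.sup (fun u => (mdl21mU u).1.natAbs + (mdl21mU u).2.natAbs), by omega, fun u hu => ?_⟩
  have : (mdl21mU u).1.natAbs + (mdl21mU u).2.natAbs ≤ S.sup (fun u => (mdl21mU u).1.natAbs + (mdl21mU u).2.natAbs) :=
    Finset.le_sup (f := fun u => (mdl21mU u).1.natAbs + (mdl21mU u).2.natAbs) hu
  rw [rsy_mem_box]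
  simp only [Prod.fst_zero, Prod.snd_zero]
  omega

/-- the local observable of a local gradient observable of the height -/
theorem asd_X_loc {S : Finset MdlS} {G : (MdlS → ℤ) → ℝ} (hG : MdlLoc S G) {m : ℕ} (hm : 1 ≤ m)
    (hS : ∀ u ∈ S, mdl21mU u ∈ rswBox 0 m) : RswLoc (asdWin m) ∅ (fun ω => G (asdK ω)) :=
  fun _ _ h1 h2 _ => hG _ _ fun u hu => asd_K_loc h1 h2 hm (hS u hu)

/-- **finite volume**: a local gradient observable of the frozen height, translated, is a local observable of `(S, D)` -/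
theorem asd_fz_loc {t : ℝ} (ht : t ≠ 0) {S : Finset MdlS} {G : (MdlS → ℤ) → ℝ} (hG : MdlLoc S G) (hgr : MdlGrad G) {m : ℕ} (hm : 1 ≤ m)
    (hS : ∀ u ∈ S, mdl21mU u ∈ rswBox 0 m) (a : ℤ × ℤ) (T : RswCfg → RswCfg) (hTS : ∀ ω v, scrS (T ω) v = scrS ω (v + a))
    (hTD : ∀ ω f, scrD (T ω) f = scrD ω (f + a)) {F : Finset (ℤ × ℤ)} (hex : Mdl21Ex F) (hF : ∀ f ∈ rswBox 0 m, f + a ∈ F) :
    mdlFz t⁻¹ F (fun h => G (fun u => h (u + mdlV a))) = rswE t F true (fun ω => G (asdK (T ω))) := by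
  rw [asd_fz_eq ht hex]
  refine rswd11_E_congr t fun ω ha => ?_
  rw [← hgr (asdK (T ω)) ((rswd11K F ω).1 (0 + a))]
  exact hG _ _ fun u hu => asd_K_eq hex ha a (hTS ω) (hTD ω) hm hF (hS u hu)

/-! ## 5. the contracts `asi_ht`, `asi_sm` of `Spec/B6` from the exits of RSW -/

theorem asd_T_S (a : ℤ × ℤ) (ω : RswCfg) (v : ℤ × ℤ) : scrS ((rsyT (-a)).act ω) v = scrS ω (v + a) := by
  unfold scrS
  have : v ∈ ((rsyT (-a)).act ω).S ↔ v + a ∈ ω.S := by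
    show v ∈ (rsyT (-a)).mV ω.S ↔ _
    rw [rsy_mem_mV']
    simp [rsyT]
  simp only [this]

theorem asd_T_D (a : ℤ × ℤ) (ω : RswCfg) (f : ℤ × ℤ) : scrD ((rsyT (-a)).act ω) f = scrD ω (f + a) := by
  unfold scrD
  have : f ∈ ((rsyT (-a)).act ω).D ↔ f + a ∈ ω.D := by
    show f ∈ (rsyT (-a)).mF ω.D ↔ _
    rw [rsy_mem_mF']
    simp [rsyT]
  simp only [this]

theorem asd_t_of_c {c : ℝ} (hc1 : 1 < c) (hc2 : c ≤ 2) : 1 / 2 ≤ c⁻¹ ∧ c⁻¹ < 1 ∧ c⁻¹ ≠ 0 ∧ (c⁻¹)⁻¹ = c := by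
  have h0 : 0 < c := by linarith
  refine ⟨?_, inv_lt_one_of_one_lt₀ hc1, (inv_pos.2 h0).ne', inv_inv c⟩
  rw [one_div]
  exact inv_anti₀ h0 hc2

/-- the translated boxes exhaust the plane -/
theorem asd_box_shift (a : ℤ × ℤ) {n R : ℕ} (h : n + a.1.natAbs + a.2.natAbs ≤ R) : rswBox 0 n ⊆ rswBox (0 + -a) R := by
  intro f hf
  rw [rsy_mem_box] at hf ⊢
  simp only [Prod.fst_zero, Prod.snd_zero, Prod.fst_add, Prod.snd_add, Prod.fst_neg, Prod.snd_neg] at hf ⊢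
  omega

theorem asd_box_shift' (a : ℤ × ℤ) {n R : ℕ} (h : n + a.1.natAbs + a.2.natAbs ≤ R) : ∀ f ∈ rswBox 0 n, f + a ∈ rswBox 0 R := by
  intro f hf
  rw [rsy_mem_box] at hf ⊢
  simp only [Prod.fst_zero, Prod.snd_zero, Prod.fst_add, Prod.snd_add] at hf ⊢
  omega

/-- the frozen laws of the boxes converge on translated local gradient observables, to the limit of the untranslated one -/
theorem asd_lim (c : ℝ) (hc1 : 1 < c) (hc2 : c ≤ 2) (S : Finset MdlS) (G : (MdlS → ℤ) → ℝ) (hG : MdlLoc S G) (hgr : MdlGrad G) :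
    ∃ ℓ : ℝ, ∀ a : ℤ × ℤ, Tendsto (fun R : ℕ => mdlFz c (rswBox 0 R) (fun h => G (fun u => h (u + mdlV a)))) atTop (𝓝 ℓ) := by
  obtain ⟨ht1, ht2, ht0, htc⟩ := asd_t_of_c hc1 hc2
  obtain ⟨m, hm, hS⟩ := asd_exists_win S
  obtain ⟨ℓ, hℓ⟩ := exit_rsw_plane c⁻¹ ht1 ht2 (asdWin m) ∅ (fun ω => G (asdK ω)) (asd_X_loc hG hm hS)
  refine ⟨ℓ, fun a => ?_⟩
  rw [Metric.tendsto_atTop]
  intro ε hε
  obtain ⟨n0, hn0⟩ := hℓ ε hε
  refine ⟨1 + m + n0 + a.1.natAbs + a.2.natAbs, fun R hR => ?_⟩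
  have e := asd_fz_loc ht0 hG hgr hm hS a (fun ω => (rsyT (-a)).act ω) (asd_T_S a) (asd_T_D a)
    (asd_box_ex 0 (n := R) (by omega)) (asd_box_shift' a (by omega))
  rw [htc] at e
  rw [e, ← rsy_E (rsyT (-a)) c⁻¹ (rswBox 0 R) true (fun ω => G (asdK ω)), rsy_box_T, Real.dist_eq]
  exact hn0 _ true (asd_box_jordan _ (by omega)) (asd_box_shift a (by omega))

theorem asd_V_zero : mdlV 0 = 0 := by
  unfold mdlV
  simp

/-- **(P1) + (P2)**: the contract `asi_ht` from `exit_rsw_plane` -/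
theorem asd_ht (c : ℝ) (hc1 : 1 < c) (hc2 : c ≤ 2) : AsiHt c := by
  have key : ∀ (S : Finset MdlS) (G : (MdlS → ℤ) → ℝ), MdlLoc S G → MdlGrad G → ∀ a : ℤ × ℤ,
      Tendsto (fun R : ℕ => mdlFz c (rswBox 0 R) (fun h => G (fun u => h (u + mdlV a)))) atTop (𝓝 (mdlPln c G)) := by
    intro S G hG hgr a
    obtain ⟨ℓ, hℓ⟩ := asd_lim c hc1 hc2 S G hG hgr
    have h0 := hℓ 0
    simp only [asd_V_zero, add_zero] at h0
    have : mdlPln c G = ℓ := h0.limUnder_eq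
    rw [this]
    exact hℓ a
  refine ⟨fun S G hG hgr => ?_, fun S G w hw hG hgr => ?_⟩
  · have h0 := key S G hG hgr 0
    simpa only [asd_V_zero, add_zero] using h0
  · have h1 := key S G hG hgr (mdl21mU w)
    rw [mdl21m_V_U hw] at h1
    exact h1.limUnder_eq

/-- **(P4)**: the contract `asi_sm` from `exit_rsw_mom_plane`, `p = 2` -/
theorem asd_sm (c : ℝ) (hc1 : 1 < c) (hc2 : c ≤ 2) :
    ∃ K : ℝ, ∀ N : ℕ, 1 ≤ N → ∀ b : AspG →₀ ℝ, aspTot b = 0 → (∀ u ∈ b.support, |u.1| ≤ (N : ℤ) ∧ |u.2| ≤ (N : ℤ)) →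
      (∀ u, |b u| ≤ 1 / (N : ℝ) ^ 2) → ∀ᶠ R : ℕ in atTop, mdlFz c (rswBox 0 R) (fun h => asiArr b h ^ 2) ≤ K := by
  obtain ⟨ht1, ht2, ht0, htc⟩ := asd_t_of_c hc1 hc2
  obtain ⟨C0, H⟩ := exit_rsw_mom_plane c⁻¹ ht1 ht2
  obtain ⟨C, hC, H2⟩ := H 2
  refine ⟨(C * 9) ^ 2, fun N hN b hb hsupp hsup => ?_⟩
  have hN' : (1 : ℝ) ≤ (N : ℝ) := by exact_mod_cast hN
  have hsub : b.support ⊆ rswBox 0 (N + 1) := by
    intro u hu
    obtain ⟨h1, h2⟩ := hsupp u hu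
    rw [abs_le] at h1 h2
    rw [rsy_mem_box]
    simp only [Prod.fst_zero, Prod.snd_zero]
    push_cast
    omega
  have hsm : RswSm 0 (N + 1) 9 b := by
    refine ⟨hsub, ?_, fun u => ?_⟩
    · have hcard : (b.support.card : ℝ) ≤ (2 * (N : ℝ) + 1) ^ 2 := by
        have h1 : b.support ⊆ Finset.Icc (-(N : ℤ)) N ×ˢ Finset.Icc (-(N : ℤ)) N := by
          intro u hu
          obtain ⟨h1, h2⟩ := hsupp u hu
          rw [abs_le] at h1 h2
          simp only [Finset.mem_product, Finset.mem_Icc]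
          omega
        have h2 := Finset.card_le_card h1
        rw [Finset.card_product, Int.card_Icc] at h2
        have h3 : ((N : ℤ) + 1 - -(N : ℤ)).toNat = 2 * N + 1 := by omega
        rw [h3] at h2
        have h4 : (b.support.card : ℝ) ≤ (((2 * N + 1) * (2 * N + 1) : ℕ) : ℝ) := by exact_mod_cast h2
        push_cast at h4
        nlinarith
      calc ∑ u ∈ b.support, |b u| ≤ ∑ _u ∈ b.support, 1 / (N : ℝ) ^ 2 := Finset.sum_le_sum fun u _ => hsup u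
        _ = (b.support.card : ℝ) * (1 / (N : ℝ) ^ 2) := by rw [Finset.sum_const, nsmul_eq_mul]
        _ ≤ (2 * (N : ℝ) + 1) ^ 2 * (1 / (N : ℝ) ^ 2) := by gcongr
        _ ≤ 9 := by
          rw [mul_one_div, div_le_iff₀ (by positivity)]
          nlinarith
    · calc |b u| * (((N + 1 : ℕ) : ℝ)) ^ 2 ≤ 1 / (N : ℝ) ^ 2 * (((N + 1 : ℕ) : ℝ)) ^ 2 := by gcongr; exact hsup u
        _ ≤ 9 := by
          rw [one_div_mul_eq_div, div_le_iff₀ (by positivity)]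
          push_cast
          nlinarith
  filter_upwards [eventually_ge_atTop (1 + (N + 1) + C0 * (N + 1))] with R hR
  have hex := asd_box_ex 0 (n := R) (by omega)
  have h := H2 (rswBox 0 R) 0 (N + 1) 9 b (asd_box_jordan 0 (by omega)) (by omega) (asd_box_mono 0 (by omega)) hsm hb
  have e := asd_fz_eq ht0 hex (fun h => asiArr b h ^ 2)
  rw [htc] at e
  rw [e]
  refine le_of_eq_of_le (rswd11_E_congr _ fun ω ha => ?_) h
  rw [sq_abs]
  congr 1
  unfold asiArr rswArr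
  refine Finsupp.sum_congr fun v hv => ?_
  rw [mdl21m_H_V, rswd11_H_K hex ha (rswd11_face_corner (asd_box_mono 0 (by omega) (hsub hv)))]

end Claimed.Agent.R292
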