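import Claimed.Agent.R292.Defs.SPEC
import Claimed.Agent.R291.Pln.PcvC

/-!
# Row 292 (S0540), unit SPEC, box B4 : covariance limit (Laplacian form), `c > 0`, reflection-null in the four frames      (owner helper86; prefix `asg`)

TEX[04-spectral.tex, second half of prop:plane-green; cor:reflection-null].      MODEL FREE.
Port of R291 Pln/PcvA PcvB PcvC (helper90) to the square grid and the cell arrays `aspW`.  Everything which does not see the lattice is IMPORTED from R291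
(`pcvF pcvPhi0 pcvTh pcvPsi PcvT pcv_geo pcv_int_bound pcv_plancherel pcv_psi_lim pcv_lap_test ...`); `aspSq = plnSq` and `C0468.lap2 = C0467.lap2` by `rfl`.

Route.  `T_δ = aspGam a (W δ f) (W δ g) = ∫ Φ_δ dCf`, `Φ_δ = Re (conj A_f A_g)`, `A_f = aspHat (aspW δ f)`   (`asg_rep`).
* (T1) `asg_hat_lim`, (T2) `asg_hat_small`, (T3) `asg_hat_large` (one summation by parts with the lattice Laplacian, symbol `aspDD`)
* `asg_low`, `asg_high` : dyadic sums of `AspSpec.ann`, far part by `AspSpec.far`;  `asg_core` : by `AspPS`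
* `asg_pos`, `asg_PC`, `asg_sm`, `asg_RN` (four frames, both sides, moving rows), `asg_main` = contract B4.
-/

set_option autoImplicit false

namespace Claimed.Agent.R292

open Claims Claims.C0467 MeasureTheory Filter Topology
open Claimed.Agent.R291
open scoped ENNReal ComplexConjugate

/-! ## 0. definitions -/

theorem asg_sq_eq : aspSq = plnSq := rfl

theorem asg_lap_eq : Claims.C0468.lap2 = Claims.C0467.lap2 := rfl

/-- position of a site at mesh `δ` -/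
def asgPos (δ : ℝ) (u : AspG) : ℝ × ℝ := (δ * (u.1 : ℝ), δ * (u.2 : ℝ))

/-- the integrand of the polarised spectral representation -/
noncomputable def asgPhi (b b' : AspG →₀ ℝ) (p : ℝ × ℝ) : ℝ := (conj (aspHat b p) * aspHat b' p).re

/-- the lattice Laplacian at mesh `δ` acting on test functions -/
noncomputable def asgL (δ : ℝ) (f : ℝ × ℝ → ℝ) (z : ℝ × ℝ) : ℝ :=
  (2 * f z - f (z + asgPos δ (1, 0)) - f (z - asgPos δ (1, 0))) + (2 * f z - f (z + asgPos δ (0, 1)) - f (z - asgPos δ (0, 1)))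

/-- linear part of the reflection in a line of the frame `i` -/
def asgSig (i : Fin 4) (z : ℝ × ℝ) : ℝ × ℝ :=
  match i with
  | 0 => (z.1, -z.2)
  | 1 => (z.2, z.1)
  | 2 => (-z.1, z.2)
  | 3 => (-z.2, -z.1)

/-- twice the unit normal of the frame `i` -/
noncomputable def asgVec (i : Fin 4) : ℝ × ℝ :=
  match i with
  | 0 => (0, 2)
  | 1 => (-Real.sqrt 2, Real.sqrt 2)
  | 2 => (-2, 0)
  | 3 => (-Real.sqrt 2, -Real.sqrt 2)

/-- reflection of the plane in the line `aspNorE i = y` -/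
noncomputable def asgRf (i : Fin 4) (y : ℝ) (z : ℝ × ℝ) : ℝ × ℝ := asgSig i z + y • asgVec i

theorem asg_eqns_cite : True := by
  have := @asgPos.eq_1
  have := @asgPhi.eq_1
  have := @asgL.eq_1
  have := @asgSig.eq_1
  have := @asgVec.eq_1
  have := @asgRf.eq_1
  trivial

/-! ## A. algebra of the covariance form -/

theorem asg_tot_add (b b' : AspG →₀ ℝ) : aspTot (b + b') = aspTot b + aspTot b' := by
  unfold aspTot
  exact Finsupp.sum_add_index' (fun _ => rfl) (fun _ _ _ => rfl)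

theorem asg_tot_smul (t : ℝ) (b : AspG →₀ ℝ) : aspTot (t • b) = t * aspTot b := by
  unfold aspTot
  rw [Finsupp.sum_smul_index (fun _ => rfl), Finsupp.mul_sum]

theorem asg_gam_add_left (a : AspG → ℝ) (b₁ b₂ b' : AspG →₀ ℝ) :
    aspGam a (b₁ + b₂) b' = aspGam a b₁ b' + aspGam a b₂ b' := by
  unfold aspGam
  rw [Finsupp.sum_add_index' (fun u => by simp) (fun u x₁ x₂ => by
    rw [← Finsupp.sum_add]
    exact Finsupp.sum_congr fun v _ => by ring)]
  ring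

theorem asg_gam_add_right (a : AspG → ℝ) (b b₁ b₂ : AspG →₀ ℝ) :
    aspGam a b (b₁ + b₂) = aspGam a b b₁ + aspGam a b b₂ := by
  unfold aspGam
  rw [← mul_add, ← Finsupp.sum_add]
  congr 1
  refine Finsupp.sum_congr fun u _ => ?_
  exact Finsupp.sum_add_index' (fun v => by simp) (fun v y₁ y₂ => by ring)

theorem asg_gam_smul_left (a : AspG → ℝ) (t : ℝ) (b b' : AspG →₀ ℝ) : aspGam a (t • b) b' = t * aspGam a b b' := by
  unfold aspGam
  rw [Finsupp.sum_smul_index (fun u => by simp)]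
  have e : ∀ (u : AspG) (x : ℝ), (b'.sum fun v y => t * x * y * a (u - v)) = t * b'.sum fun v y => x * y * a (u - v) := by
    intro u x
    rw [Finsupp.mul_sum]
    exact Finsupp.sum_congr fun v _ => by ring
  simp only [e]
  rw [← Finsupp.mul_sum]
  ring

theorem asg_gam_smul_right (a : AspG → ℝ) (t : ℝ) (b b' : AspG →₀ ℝ) : aspGam a b (t • b') = t * aspGam a b b' := by
  unfold aspGam
  have e : ∀ (u : AspG) (x : ℝ), ((t • b').sum fun v y => x * y * a (u - v)) = t * b'.sum fun v y => x * y * a (u - v) := by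
    intro u x
    rw [Finsupp.sum_smul_index (fun v => by simp), Finsupp.mul_sum]
    exact Finsupp.sum_congr fun v _ => by ring
  simp only [e]
  rw [← Finsupp.mul_sum]
  ring

/-- the variogram is even -/
theorem asg_even {a : AspG → ℝ} (h : AspIn a) (u : AspG) : a (-u) = a u := by
  have h1 := h.symX (-u)
  have h2 := h.symS (-(-u).1, (-u).2)
  have h3 := h.symX ((-u).2, -(-u).1)
  have h4 := h.symS (-(-u).2, -(-u).1)
  simp only [Prod.fst_neg, Prod.snd_neg, neg_neg] at h1 h2 h3 h4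
  exact h1.symm.trans (h2.symm.trans (h3.symm.trans h4.symm))

theorem asg_gam_symm {a : AspG → ℝ} (h : AspIn a) (b b' : AspG →₀ ℝ) : aspGam a b b' = aspGam a b' b := by
  unfold aspGam
  rw [Finsupp.sum_comm]
  congr 1
  refine Finsupp.sum_congr fun v _ => ?_
  refine Finsupp.sum_congr fun u _ => ?_
  rw [← asg_even h (u - v), neg_sub]
  ring

/-- Cauchy-Schwarz on zero-total arrays -/
theorem asg_gam_cs {a : AspG → ℝ} (h : AspIn a) {b b' : AspG →₀ ℝ} (hb : aspTot b = 0) (hb' : aspTot b' = 0) :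
    aspGam a b b' ^ 2 ≤ aspGam a b b * aspGam a b' b' := by
  have key : ∀ t : ℝ, 0 ≤ aspGam a b' b' * (t * t) + 2 * aspGam a b b' * t + aspGam a b b := by
    intro t
    have h0 := h.psd (b + t • b') (by rw [asg_tot_add, asg_tot_smul, hb, hb']; ring)
    rw [asg_gam_add_left, asg_gam_add_right, asg_gam_add_right, asg_gam_smul_left, asg_gam_smul_left, asg_gam_smul_right,
      asg_gam_smul_right, asg_gam_symm h b' b] at h0
    linarith
  have := discrim_le_zero key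
  unfold discrim at this
  nlinarith

/-! ## B. the polarised spectral representation -/

theorem asg_hat_add (b b' : AspG →₀ ℝ) (p : ℝ × ℝ) : aspHat (b + b') p = aspHat b p + aspHat b' p := by
  unfold aspHat
  exact Finsupp.sum_add_index' (fun u => by simp) (fun u x y => by push_cast; ring)

theorem asg_hat_smul (t : ℝ) (b : AspG →₀ ℝ) (p : ℝ × ℝ) : aspHat (t • b) p = (t : ℂ) * aspHat b p := by
  unfold aspHat
  rw [Finsupp.sum_smul_index (fun u => by simp), Finsupp.mul_sum]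
  exact Finsupp.sum_congr fun u _ => by push_cast; ring

theorem asg_hat_continuous (b : AspG →₀ ℝ) : Continuous (aspHat b) := by
  unfold aspHat Finsupp.sum aspPh
  fun_prop

/-- translation of an array multiplies the transform by a character -/
theorem asg_hat_tr (w : AspG) (b : AspG →₀ ℝ) (p : ℝ × ℝ) :
    aspHat (aspTr w b) p = Complex.exp (Complex.I * (aspPh p w : ℂ)) * aspHat b p := by
  unfold aspHat aspTr
  rw [Finsupp.sum_mapDomain_index (fun u => by simp) (fun u x y => by push_cast; ring), Finsupp.mul_sum]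
  refine Finsupp.sum_congr fun u _ => ?_
  have e : aspPh p (u + w) = aspPh p u + aspPh p w := by
    simp only [aspPh, Prod.fst_add, Prod.snd_add]
    push_cast
    ring
  rw [e]
  push_cast
  rw [mul_add, Complex.exp_add]
  ring

theorem asg_rep_diag {a : AspG → ℝ} {Cf : Measure (ℝ × ℝ)} {K : ℝ} (hs : AspSpec a Cf K) {b : AspG →₀ ℝ}
    (hb : aspTot b = 0) : aspGam a b b = ∫ p, ‖aspHat b p‖ ^ 2 ∂Cf := by
  have h := hs.rep b 0 hb
  have e1 : aspTr 0 b = b := by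
    unfold aspTr
    simp only [add_zero]
    exact Finsupp.mapDomain_id
  have e2 : ∀ p : ℝ × ℝ, aspPh p 0 = 0 := fun p => by simp [aspPh]
  simp only [e1, e2, Complex.ofReal_zero, mul_zero, Complex.exp_zero, one_mul] at h
  rw [integral_complex_ofReal] at h
  exact_mod_cast h

/-- polarisation -/
theorem asg_phi_polar (b b' : AspG →₀ ℝ) (p : ℝ × ℝ) :
    asgPhi b b' p = (‖aspHat (b + b') p‖ ^ 2 - ‖aspHat b p‖ ^ 2 - ‖aspHat b' p‖ ^ 2) / 2 := by
  rw [asg_hat_add]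
  simp only [asgPhi, Complex.sq_norm, Complex.normSq_apply, Complex.mul_re, Complex.conj_re, Complex.conj_im, Complex.add_re, Complex.add_im]
  ring

theorem asg_phi_integrable {a : AspG → ℝ} {Cf : Measure (ℝ × ℝ)} {K : ℝ} (hs : AspSpec a Cf K) {b b' : AspG →₀ ℝ}
    (hb : aspTot b = 0) (hb' : aspTot b' = 0) : Integrable (asgPhi b b') Cf := by
  have e : asgPhi b b' = fun p => (‖aspHat (b + b') p‖ ^ 2 - ‖aspHat b p‖ ^ 2 - ‖aspHat b' p‖ ^ 2) / 2 := funext (asg_phi_polar b b')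
  rw [e]
  exact (((hs.int (b + b') (by rw [asg_tot_add, hb, hb', add_zero])).sub (hs.int b hb)).sub (hs.int b' hb')).div_const 2

/-- **polarised spectral representation** -/
theorem asg_rep {a : AspG → ℝ} {Cf : Measure (ℝ × ℝ)} {K : ℝ} (h : AspIn a) (hs : AspSpec a Cf K) {b b' : AspG →₀ ℝ}
    (hb : aspTot b = 0) (hb' : aspTot b' = 0) : aspGam a b b' = ∫ p, asgPhi b b' p ∂Cf := by
  have hbb : aspTot (b + b') = 0 := by rw [asg_tot_add, hb, hb', add_zero]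
  have e : asgPhi b b' = fun p => (‖aspHat (b + b') p‖ ^ 2 - ‖aspHat b p‖ ^ 2 - ‖aspHat b' p‖ ^ 2) / 2 := funext (asg_phi_polar b b')
  have i12 : Integrable (fun p => ‖aspHat (b + b') p‖ ^ 2 - ‖aspHat b p‖ ^ 2) Cf := (hs.int _ hbb).sub (hs.int b hb)
  rw [e, integral_div, integral_sub i12 (hs.int b' hb'), integral_sub (hs.int _ hbb) (hs.int b hb),
    ← asg_rep_diag hs hbb, ← asg_rep_diag hs hb, ← asg_rep_diag hs hb', asg_gam_add_left, asg_gam_add_right, asg_gam_add_right,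
    asg_gam_symm h b' b]
  ring

/-! ## C. cell weights -/

theorem asg_cell_meas (δ : ℝ) (u : AspG) : MeasurableSet (aspCell δ u) := measurableSet_Ioc.prod measurableSet_Ioc

theorem asg_mem_cell {δ : ℝ} (hδ : 0 < δ) (u : AspG) (z : ℝ × ℝ) :
    z ∈ aspCell δ u ↔ (((u.1 : ℝ) - 1 / 2 < z.1 / δ ∧ z.1 / δ ≤ (u.1 : ℝ) + 1 / 2) ∧
      ((u.2 : ℝ) - 1 / 2 < z.2 / δ ∧ z.2 / δ ≤ (u.2 : ℝ) + 1 / 2)) := by
  unfold aspCell
  simp only [Set.mem_prod, Set.mem_Ioc]
  rw [lt_div_iff₀ hδ, div_le_iff₀ hδ, lt_div_iff₀ hδ, div_le_iff₀ hδ, mul_comm δ, mul_comm δ, mul_comm δ, mul_comm δ]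

theorem asg_cell_cover {δ : ℝ} (hδ : 0 < δ) (z : ℝ × ℝ) : ∃ u : AspG, z ∈ aspCell δ u := by
  refine ⟨(⌈z.1 / δ - 1 / 2⌉, ⌈z.2 / δ - 1 / 2⌉), ?_⟩
  rw [asg_mem_cell hδ]
  have a1 := Int.ceil_lt_add_one (z.1 / δ - 1 / 2)
  have a2 := Int.le_ceil (z.1 / δ - 1 / 2)
  have b1 := Int.ceil_lt_add_one (z.2 / δ - 1 / 2)
  have b2 := Int.le_ceil (z.2 / δ - 1 / 2)
  refine ⟨⟨?_, ?_⟩, ⟨?_, ?_⟩⟩ <;> simp only <;> linarith

theorem asg_cell_unique {δ : ℝ} (hδ : 0 < δ) {u v : AspG} {z : ℝ × ℝ} (hu : z ∈ aspCell δ u) (hv : z ∈ aspCell δ v) : u = v := by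
  rw [asg_mem_cell hδ] at hu hv
  obtain ⟨⟨a1, a2⟩, ⟨a3, a4⟩⟩ := hu
  obtain ⟨⟨b1, b2⟩, ⟨b3, b4⟩⟩ := hv
  have key : ∀ m n : ℤ, (m : ℝ) < (n : ℝ) + 1 → (n : ℝ) < (m : ℝ) + 1 → m = n := by
    intro m n h1 h2
    have h1' : m < n + 1 := by exact_mod_cast h1
    have h2' : n < m + 1 := by exact_mod_cast h2
    omega
  exact Prod.ext (key _ _ (by linarith) (by linarith)) (key _ _ (by linarith) (by linarith))

theorem asg_cell_disj {δ : ℝ} (hδ : 0 < δ) : Pairwise (Function.onFun Disjoint fun u : AspG => aspCell δ u) := by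
  intro u v huv
  rw [Function.onFun, Set.disjoint_left]
  intro z hu hv
  exact huv (asg_cell_unique hδ hu hv)

/-- points of a cell are within `δ` of the centre, coordinatewise -/
theorem asg_face_near {δ : ℝ} (hδ : 0 < δ) {u : AspG} {z : ℝ × ℝ} (hz : z ∈ aspCell δ u) :
    |z.1 - (asgPos δ u).1| ≤ δ ∧ |z.2 - (asgPos δ u).2| ≤ δ := by
  unfold aspCell at hz
  simp only [Set.mem_prod, Set.mem_Ioc] at hz
  obtain ⟨⟨a1, a2⟩, ⟨a3, a4⟩⟩ := hz
  simp only [asgPos]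
  constructor <;> rw [abs_le] <;> constructor <;> nlinarith

theorem asg_cell_vol {δ : ℝ} (hδ : 0 < δ) (u : AspG) : volume (aspCell δ u) = ENNReal.ofReal (δ ^ 2) := by
  unfold aspCell
  rw [Measure.volume_eq_prod, Measure.prod_prod, Real.volume_Ioc, Real.volume_Ioc, ← ENNReal.ofReal_mul (by nlinarith)]
  congr 1
  ring

theorem asg_latW_supp {δ : ℝ} {f : ℝ × ℝ → ℝ} {u : AspG} (h : aspWt δ f u ≠ 0) : ∃ z ∈ aspCell δ u, f z ≠ 0 := by
  by_contra hcon
  push Not at hcon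
  apply h
  unfold aspWt
  exact setIntegral_eq_zero_of_forall_eq_zero hcon

/-- only finitely many cells meet the support -/
theorem asg_W_fin {δ : ℝ} (hδ : 0 < δ) {f : ℝ × ℝ → ℝ} (hf : PcvT f) : (Function.support (aspWt δ f)).Finite := by
  obtain ⟨ρ, hρ0, hρ⟩ := hf.box
  set N : ℤ := ⌈ρ / δ + 1⌉ with hN
  have hN1 : ρ / δ + 1 ≤ (N : ℝ) := Int.le_ceil _
  refine ((Set.finite_Icc (-N) N).prod (Set.finite_Icc (-N) N)).subset ?_
  intro u hu
  obtain ⟨z, hz, hfz⟩ := asg_latW_supp hu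
  obtain ⟨s1, s2⟩ := hρ z hfz
  obtain ⟨n1, n2⟩ := asg_face_near hδ hz
  simp only [asgPos] at n1 n2
  have key : ∀ (m : ℤ) (x : ℝ), |x| ≤ ρ → |x - δ * (m : ℝ)| ≤ δ → m ∈ Set.Icc (-N) N := by
    intro m x h1 h2
    rw [abs_le] at h1 h2
    have e : ρ / δ * δ = ρ := by field_simp
    have c1 : (m : ℝ) ≤ (N : ℝ) := by
      by_contra hcon
      rw [not_le] at hcon
      have : (ρ / δ + 1) * δ < (m : ℝ) * δ := mul_lt_mul_of_pos_right (lt_of_le_of_lt hN1 hcon) hδ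
      nlinarith
    have c2 : -(N : ℝ) ≤ (m : ℝ) := by
      by_contra hcon
      rw [not_le] at hcon
      have : (ρ / δ + 1) * δ < (-(m : ℝ)) * δ := mul_lt_mul_of_pos_right (lt_of_le_of_lt hN1 (by linarith)) hδ
      nlinarith
    exact ⟨by exact_mod_cast c2, by exact_mod_cast c1⟩
  exact ⟨key _ _ s1 n1, key _ _ s2 n2⟩

theorem asg_W_apply {δ : ℝ} (hδ : 0 < δ) {f : ℝ × ℝ → ℝ} (hf : PcvT f) (u : AspG) : aspW δ f u = aspWt δ f u := by
  unfold aspW
  rw [dif_pos (asg_W_fin hδ hf)]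
  rfl

/-- **the cells tile the plane** -/
theorem asg_face_hasSum {δ : ℝ} (hδ : 0 < δ) {E : Type*} [NormedAddCommGroup E] [NormedSpace ℝ E] {F : ℝ × ℝ → E}
    (hF : Integrable F) : HasSum (fun u : AspG => ∫ z in aspCell δ u, F z) (∫ z, F z) := by
  have hU : (⋃ u : AspG, aspCell δ u) = Set.univ := by
    ext z
    simp only [Set.mem_iUnion, Set.mem_univ, iff_true]
    exact asg_cell_cover hδ z
  have := hasSum_integral_iUnion (μ := volume) (f := F) (s := fun u : AspG => aspCell δ u)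
    (fun u => asg_cell_meas δ u) (asg_cell_disj hδ) (by rw [hU]; exact hF.integrableOn)
  rwa [hU, setIntegral_univ] at this

/-- a sum over the array of face weights as a `HasSum` -/
theorem asg_W_hasSum {δ : ℝ} (hδ : 0 < δ) {f : ℝ × ℝ → ℝ} (hf : PcvT f) {E : Type*} [AddCommMonoid E] [TopologicalSpace E]
    (φ : AspG → ℝ → E) (h0 : ∀ u, φ u 0 = 0) : HasSum (fun u : AspG => φ u (aspWt δ f u)) ((aspW δ f).sum φ) := by
  unfold Finsupp.sum
  have h1 : ∀ u ∉ (aspW δ f).support, φ u (aspWt δ f u) = 0 := by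
    intro u hu
    rw [Finsupp.notMem_support_iff, asg_W_apply hδ hf] at hu
    rw [hu, h0]
  have h2 : HasSum (fun u : AspG => φ u (aspWt δ f u)) (∑ u ∈ (aspW δ f).support, φ u (aspWt δ f u)) :=
    hasSum_sum_of_ne_finset_zero h1
  have h3 : ∑ u ∈ (aspW δ f).support, φ u (aspWt δ f u) = ∑ u ∈ (aspW δ f).support, φ u ((aspW δ f) u) :=
    Finset.sum_congr rfl fun u _ => by rw [asg_W_apply hδ hf]
  rwa [h3] at h2

theorem asg_W_tot {δ : ℝ} (hδ : 0 < δ) {f : ℝ × ℝ → ℝ} (hf : PcvT f) : aspTot (aspW δ f) = ∫ z, f z := by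
  have h1 := asg_W_hasSum hδ hf (fun _ c => c) (fun _ => rfl)
  have h2 := asg_face_hasSum hδ hf.integrable
  exact h1.unique h2

/-- **comparison of a weighted sum of face weights with an integral** -/
theorem asg_tile {δ : ℝ} (hδ : 0 < δ) {f : ℝ × ℝ → ℝ} (hf : PcvT f) (cf : AspG → ℂ) {G : ℝ × ℝ → ℂ} (hG : Continuous G) {ε : ℝ}
    (h : ∀ u z, z ∈ aspCell δ u → f z ≠ 0 → ‖cf u - G z‖ ≤ ε) :
    ‖((aspW δ f).sum fun u x => (x : ℂ) * cf u) - ∫ z, (f z : ℂ) * G z‖ ≤ ε * ∫ z, |f z| := by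
  have hfc : Continuous fun z => (f z : ℂ) := Complex.continuous_ofReal.comp hf.cont
  have hfG : Integrable fun z => (f z : ℂ) * G z := by
    refine (hfc.mul hG).integrable_of_hasCompactSupport ?_
    refine HasCompactSupport.mul_right ?_
    exact hf.comp.comp_left (g := fun x : ℝ => (x : ℂ)) Complex.ofReal_zero
  have h1 := asg_W_hasSum hδ hf (fun u x => (x : ℂ) * cf u) (fun u => by simp)
  have h2 := asg_face_hasSum hδ hfG
  have h3 := (asg_face_hasSum hδ (PcvT.abs hf).integrable).mul_left ε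
  refine (h1.sub h2).norm_le_of_bounded h3 fun u => ?_
  have hI : IntegrableOn (fun z => (f z : ℂ)) (aspCell δ u) :=
    (hfc.integrable_of_hasCompactSupport (hf.comp.comp_left (g := fun x : ℝ => (x : ℂ)) Complex.ofReal_zero)).integrableOn
  have e1 : ((aspWt δ f u : ℝ) : ℂ) * cf u - ∫ z in aspCell δ u, (f z : ℂ) * G z
      = ∫ z in aspCell δ u, (f z : ℂ) * (cf u - G z) := by
    unfold aspWt
    rw [← integral_complex_ofReal, ← integral_mul_const, ← integral_sub (hI.mul_const _) hfG.integrableOn]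
    refine integral_congr_ae (Eventually.of_forall fun z => ?_)
    simp only
    ring
  rw [e1, ← integral_const_mul]
  refine norm_integral_le_of_norm_le ((PcvT.abs hf).integrable.integrableOn.const_mul ε) ?_
  refine (ae_restrict_iff' (asg_cell_meas δ u)).2 (Eventually.of_forall fun z hz => ?_)
  rw [norm_mul, Complex.norm_real, Real.norm_eq_abs]
  by_cases hz0 : f z = 0
  · simp [hz0]
  · rw [mul_comm]
    exact mul_le_mul_of_nonneg_right (h u z hz hz0) (abs_nonneg _)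

theorem asg_W_add {δ : ℝ} (hδ : 0 < δ) {f g : ℝ × ℝ → ℝ} (hf : PcvT f) (hg : PcvT g) :
    aspW δ (fun z => f z + g z) = aspW δ f + aspW δ g := by
  ext u
  rw [Finsupp.add_apply, asg_W_apply hδ (hf.add hg), asg_W_apply hδ hf, asg_W_apply hδ hg]
  unfold aspWt
  exact integral_add hf.integrable.integrableOn hg.integrable.integrableOn

theorem asg_W_smul {δ : ℝ} (hδ : 0 < δ) {f : ℝ × ℝ → ℝ} (hf : PcvT f) (t : ℝ) : aspW δ (fun z => t * f z) = t • aspW δ f := by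
  ext u
  rw [Finsupp.smul_apply, asg_W_apply hδ (hf.smul t), asg_W_apply hδ hf]
  unfold aspWt
  rw [integral_const_mul, smul_eq_mul]

theorem asg_W_sub {δ : ℝ} (hδ : 0 < δ) {f g : ℝ × ℝ → ℝ} (hf : PcvT f) (hg : PcvT g) :
    aspW δ (fun z => f z - g z) = aspW δ f - aspW δ g := by
  ext u
  rw [Finsupp.sub_apply, asg_W_apply hδ (PcvT.sub hf hg), asg_W_apply hδ hf, asg_W_apply hδ hg]
  unfold aspWt
  exact integral_sub hf.integrable.integrableOn hg.integrable.integrableOn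

theorem asg_triPos_add (δ : ℝ) (u v : AspG) : asgPos δ (u + v) = asgPos δ u + asgPos δ v := by
  unfold asgPos
  ext
  · simp only [Prod.fst_add, Int.cast_add]; ring
  · simp only [Prod.snd_add, Int.cast_add]; ring

/-- translation of cells -/
theorem asg_face_tr (δ : ℝ) (u e : AspG) (z : ℝ × ℝ) : z + asgPos δ e ∈ aspCell δ (u + e) ↔ z ∈ aspCell δ u := by
  unfold aspCell asgPos
  simp only [Set.mem_prod, Set.mem_Ioc, Prod.fst_add, Prod.snd_add, Int.cast_add]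
  constructor
  · rintro ⟨⟨a1, a2⟩, ⟨a3, a4⟩⟩
    exact ⟨⟨by linarith, by linarith⟩, ⟨by linarith, by linarith⟩⟩
  · rintro ⟨⟨a1, a2⟩, ⟨a3, a4⟩⟩
    exact ⟨⟨by linarith, by linarith⟩, ⟨by linarith, by linarith⟩⟩

theorem asg_latW_tr (δ : ℝ) (f : ℝ × ℝ → ℝ) (u e : AspG) : aspWt δ (fun z => f (z + asgPos δ e)) u = aspWt δ f (u + e) := by
  unfold aspWt
  rw [← integral_indicator (asg_cell_meas δ u), ← integral_indicator (asg_cell_meas δ (u + e)),
    ← integral_add_right_eq_self (fun z => (aspCell δ (u + e)).indicator f z) (asgPos δ e)]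
  refine integral_congr_ae (Eventually.of_forall fun z => ?_)
  beta_reduce
  by_cases hz : z ∈ aspCell δ u
  · rw [Set.indicator_of_mem hz, Set.indicator_of_mem ((asg_face_tr δ u e z).2 hz)]
  · rw [Set.indicator_of_notMem hz, Set.indicator_of_notMem (fun h => hz ((asg_face_tr δ u e z).1 h))]

theorem asg_W_tr {δ : ℝ} (hδ : 0 < δ) {f : ℝ × ℝ → ℝ} (hf : PcvT f) (e : AspG) :
    aspW δ (fun z => f (z + asgPos δ e)) = aspTr (-e) (aspW δ f) := by
  ext u
  rw [asg_W_apply hδ (hf.tr _), asg_latW_tr]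
  unfold aspTr
  have h1 : u = (u + e) + -e := by simp
  conv_rhs => rw [h1]
  rw [Finsupp.mapDomain_apply (add_left_injective (-e)), asg_W_apply hδ hf]

theorem asg_latW_abs_le {δ : ℝ} (hδ : 0 < δ) {f : ℝ × ℝ → ℝ} {M : ℝ} (hM : ∀ z, |f z| ≤ M) (u : AspG) :
    |aspWt δ f u| ≤ 4 * δ ^ 2 * M := by
  have hM0 : 0 ≤ M := (abs_nonneg _).trans (hM 0)
  unfold aspWt
  have h1 := norm_setIntegral_le_of_norm_le_const (μ := volume) (s := aspCell δ u) (f := f) (C := M)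
    (by rw [asg_cell_vol hδ]; exact ENNReal.ofReal_lt_top) (fun z _ => by rw [Real.norm_eq_abs]; exact hM z)
  rw [Real.norm_eq_abs] at h1
  refine h1.trans ?_
  rw [Measure.real, asg_cell_vol hδ, ENNReal.toReal_ofReal (by positivity)]
  nlinarith [sq_nonneg δ]

/-! ## D. the lattice transform of the cell weights -/

theorem asg_ph_smul (δ : ℝ) (ζ : ℝ × ℝ) (u : AspG) :
    aspPh (δ • ζ) u = ζ.1 * (asgPos δ u).1 + ζ.2 * (asgPos δ u).2 := by
  unfold aspPh asgPos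
  simp only [Prod.smul_fst, Prod.smul_snd, smul_eq_mul]
  ring

theorem asg_ph_add (p : ℝ × ℝ) (u v : AspG) : aspPh p (u + v) = aspPh p u + aspPh p v := by
  unfold aspPh
  simp only [Prod.fst_add, Prod.snd_add, Int.cast_add]
  ring

theorem asg_hat_le {δ : ℝ} (hδ : 0 < δ) {f : ℝ × ℝ → ℝ} (hf : PcvT f) (p : ℝ × ℝ) :
    ‖aspHat (aspW δ f) p‖ ≤ ∫ z, |f z| := by
  have h := asg_tile hδ hf (fun u => Complex.exp (Complex.I * (aspPh p u : ℂ))) (G := fun _ => 0) continuous_const (ε := 1)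
    (fun u z _ _ => by rw [sub_zero, pcv_exp_norm])
  simpa [aspHat] using h

/-- (T1) TEX[plane:eq:transform-limit] -/
theorem asg_hat_lim {δ : ℝ} (hδ : 0 < δ) {f : ℝ × ℝ → ℝ} (hf : PcvT f) (ζ : ℝ × ℝ) :
    ‖aspHat (aspW δ f) (δ • ζ) - pcvF f ζ‖ ≤ δ * (|ζ.1| + |ζ.2|) * ∫ z, |f z| := by
  refine asg_tile hδ hf (fun u => Complex.exp (Complex.I * (aspPh (δ • ζ) u : ℂ)))
    (G := fun z => Complex.exp (Complex.I * ((ζ.1 * z.1 + ζ.2 * z.2 : ℝ) : ℂ))) (by fun_prop) ?_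
  intro u z hz _
  refine (pcv_exp_sub_le _ _).trans ?_
  obtain ⟨h1, h2⟩ := asg_face_near hδ hz
  rw [asg_ph_smul]
  have e : ζ.1 * (asgPos δ u).1 + ζ.2 * (asgPos δ u).2 - (ζ.1 * z.1 + ζ.2 * z.2)
      = -(ζ.1 * (z.1 - (asgPos δ u).1)) + -(ζ.2 * (z.2 - (asgPos δ u).2)) := by ring
  rw [e]
  refine (abs_add_le _ _).trans ?_
  rw [abs_neg, abs_neg, abs_mul, abs_mul]
  nlinarith [abs_nonneg ζ.1, abs_nonneg ζ.2]

/-- (T2) TEX[plane:eq:transform-bounds], first bound -/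
theorem asg_hat_small {δ : ℝ} (hδ : 0 < δ) (hδ1 : δ ≤ 1) {f : ℝ × ℝ → ℝ} (hf : PcvT f) (h0 : ∫ z, f z = 0) {ρ : ℝ}
    (hρ : ∀ z, f z ≠ 0 → |z.1| ≤ ρ ∧ |z.2| ≤ ρ) (p : ℝ × ℝ) :
    ‖aspHat (aspW δ f) p‖ ≤ (ρ + 1) / δ * (|p.1| + |p.2|) * ∫ z, |f z| := by
  have h := asg_tile hδ hf (fun u => Complex.exp (Complex.I * (aspPh p u : ℂ))) (G := fun _ => 1) continuous_const
    (ε := (ρ + 1) / δ * (|p.1| + |p.2|)) ?_
  · have e : ∫ z, (f z : ℂ) * 1 = 0 := by
      simp only [mul_one]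
      rw [integral_complex_ofReal, h0, Complex.ofReal_zero]
    rw [e, sub_zero] at h
    exact h
  · intro u z hz hfz
    obtain ⟨h1, h2⟩ := asg_face_near hδ hz
    obtain ⟨h3, h4⟩ := hρ z hfz
    have e0 : (1 : ℂ) = Complex.exp (Complex.I * ((0 : ℝ) : ℂ)) := by simp
    rw [e0]
    refine (pcv_exp_sub_le _ _).trans ?_
    rw [sub_zero]
    have e : aspPh p u = (p.1 * (asgPos δ u).1 + p.2 * (asgPos δ u).2) / δ := by
      unfold aspPh asgPos
      field_simp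
    have a1 : |(asgPos δ u).1| ≤ ρ + 1 := by
      have := abs_sub_abs_le_abs_sub (asgPos δ u).1 z.1
      rw [abs_sub_comm] at this
      linarith
    have a2 : |(asgPos δ u).2| ≤ ρ + 1 := by
      have := abs_sub_abs_le_abs_sub (asgPos δ u).2 z.2
      rw [abs_sub_comm] at this
      linarith
    rw [e, abs_div, abs_of_pos hδ, div_mul_eq_mul_div, div_le_div_iff_of_pos_right hδ]
    refine (abs_add_le _ _).trans ?_
    rw [abs_mul, abs_mul]
    nlinarith [abs_nonneg p.1, abs_nonneg p.2]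

theorem asg_triPos_neg (δ : ℝ) (e : AspG) : asgPos δ (-e) = -asgPos δ e := by
  have := asg_triPos_add δ e (-e)
  rw [add_neg_cancel] at this
  have h0 : asgPos δ 0 = 0 := by
    unfold asgPos
    simp
  rw [h0] at this
  exact (neg_eq_of_add_eq_zero_right this.symm).symm

theorem asg_L_test (δ : ℝ) {f : ℝ × ℝ → ℝ} (hf : PcvT f) : PcvT (asgL δ f) := by
  have h1 : ∀ e : AspG, PcvT (fun z => 2 * f z - f (z + asgPos δ e) - f (z - asgPos δ e)) := by
    intro e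
    have := PcvT.sub (PcvT.sub (hf.smul 2) (hf.tr (asgPos δ e))) (hf.tr (-asgPos δ e))
    simpa [sub_eq_add_neg] using this
  exact (h1 _).add (h1 _)

theorem asg_triPos_norm_le {δ : ℝ} (hδ : 0 < δ) {e : AspG} (he : e = (1, 0) ∨ e = (0, 1)) : ‖asgPos δ e‖ ≤ δ := by
  rw [Prod.norm_def, Real.norm_eq_abs, Real.norm_eq_abs]
  rcases he with rfl | rfl <;> unfold asgPos <;> simp only [Int.cast_one, Int.cast_zero] <;>
    refine max_le ?_ ?_ <;> rw [abs_le] <;> constructor <;> nlinarith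

theorem asg_L_int {f : ℝ × ℝ → ℝ} (hf : ContDiff ℝ 2 f) (hc : HasCompactSupport f) :
    ∃ B : ℝ, 0 ≤ B ∧ ∀ δ : ℝ, 0 < δ → δ ≤ 1 → ∫ z, |asgL δ f z| ≤ B * δ ^ 2 := by
  obtain ⟨C, hC0, hC⟩ := pcv_second_diff hf hc
  have hT : PcvT f := ⟨hf.continuous, hc⟩
  obtain ⟨ρ, hρ0, hρ⟩ := PcvT.box hT
  refine ⟨3 * C * (2 * (ρ + 1)) ^ 2, by positivity, fun δ hδ hδ1 => ?_⟩
  set Q : Set (ℝ × ℝ) := Set.Icc (-(ρ + 1)) (ρ + 1) ×ˢ Set.Icc (-(ρ + 1)) (ρ + 1) with hQ
  have hb : ∀ z, |asgL δ f z| ≤ 3 * C * δ ^ 2 := by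
    intro z
    unfold asgL
    refine (abs_add_le _ _).trans ?_
    have : ∀ e : AspG, (e = (1, 0) ∨ e = (0, 1)) → |2 * f z - f (z + asgPos δ e) - f (z - asgPos δ e)| ≤ C * δ ^ 2 := by
      intro e he
      refine (hC z _).trans ?_
      have := asg_triPos_norm_le hδ he
      gcongr
    have t1 := this (1, 0) (Or.inl rfl)
    have t2 := this (0, 1) (Or.inr rfl)
    have t3 : 0 ≤ C * δ ^ 2 := by positivity
    linarith
  have hz : ∀ z, z ∉ Q → asgL δ f z = 0 := by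
    intro z hzQ
    have far : ∀ w : ℝ × ℝ, |w.1 - z.1| ≤ 1 → |w.2 - z.2| ≤ 1 → f w = 0 := by
      intro w h1 h2
      by_contra hw
      obtain ⟨a1, a2⟩ := hρ w hw
      apply hzQ
      rw [hQ, Set.mem_prod, Set.mem_Icc, Set.mem_Icc]
      rw [abs_le] at h1 h2 a1 a2
      refine ⟨⟨by linarith, by linarith⟩, ⟨by linarith, by linarith⟩⟩
    have key : ∀ e : AspG, (e = (1, 0) ∨ e = (0, 1)) → 2 * f z - f (z + asgPos δ e) - f (z - asgPos δ e) = 0 := by
      intro e he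
      have hn := asg_triPos_norm_le hδ he
      rw [Prod.norm_def, Real.norm_eq_abs, Real.norm_eq_abs] at hn
      have n1 := (le_max_left _ _).trans hn
      have n2 := (le_max_right _ _).trans hn
      rw [far z (by simp) (by simp), far (z + asgPos δ e) (by simpa using n1.trans hδ1) (by simpa using n2.trans hδ1),
        far (z - asgPos δ e) (by simpa using n1.trans hδ1) (by simpa using n2.trans hδ1)]
      ring
    unfold asgL
    rw [key _ (Or.inl rfl), key _ (Or.inr rfl), add_zero]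
  have hvol : volume Q = ENNReal.ofReal ((2 * (ρ + 1)) ^ 2) := by
    rw [hQ, Measure.volume_eq_prod, Measure.prod_prod, Real.volume_Icc, ← ENNReal.ofReal_mul (by linarith)]
    congr 1
    ring
  have e1 : ∫ z, |asgL δ f z| = ∫ z in Q, |asgL δ f z| := by
    rw [setIntegral_eq_integral_of_forall_compl_eq_zero]
    intro z hzQ
    rw [hz z hzQ, abs_zero]
  rw [e1]
  have h2 := norm_setIntegral_le_of_norm_le_const (μ := volume) (s := Q) (f := fun z => |asgL δ f z|) (C := 3 * C * δ ^ 2)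
    (by rw [hvol]; exact ENNReal.ofReal_lt_top) (fun z _ => by rw [Real.norm_eq_abs, abs_abs]; exact hb z)
  have h3 : volume.real Q = (2 * (ρ + 1)) ^ 2 := by
    rw [Measure.real, hvol, ENNReal.toReal_ofReal (by positivity)]
  rw [h3] at h2
  calc _ ≤ ‖∫ z in Q, |asgL δ f z|‖ := Real.le_norm_self _
    _ ≤ _ := h2
    _ = _ := by ring

/-- summation by parts: the lattice Laplacian has the symbol `aspDD` -/
theorem asg_hat_L {δ : ℝ} (hδ : 0 < δ) {f : ℝ × ℝ → ℝ} (hf : PcvT f) (p : ℝ × ℝ) :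
    aspHat (aspW δ (asgL δ f)) p = (aspDD p : ℂ) * aspHat (aspW δ f) p := by
  have h1 : ∀ e : AspG, PcvT (fun z => 2 * f z - f (z + asgPos δ e) - f (z - asgPos δ e)) := by
    intro e
    have := PcvT.sub (PcvT.sub (hf.smul 2) (hf.tr (asgPos δ e))) (hf.tr (-asgPos δ e))
    simpa [sub_eq_add_neg] using this
  have h2 : asgL δ f = fun z => (2 * f z - f (z + asgPos δ (1, 0)) - f (z - asgPos δ (1, 0)))
      + (2 * f z - f (z + asgPos δ (0, 1)) - f (z - asgPos δ (0, 1))) := rfl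
  have h3 : ∀ e : AspG, aspHat (aspW δ (fun z => 2 * f z - f (z + asgPos δ e) - f (z - asgPos δ e))) p
      = ((2 - 2 * Real.cos (aspPh p e) : ℝ) : ℂ) * aspHat (aspW δ f) p := by
    intro e
    have e1 : (fun z => f (z - asgPos δ e)) = fun z => f (z + asgPos δ (-e)) := by
      funext z
      rw [asg_triPos_neg, sub_eq_add_neg]
    have t1 : PcvT (fun z => f (z - asgPos δ e)) := by rw [e1]; exact hf.tr _
    rw [asg_W_sub hδ (PcvT.sub (hf.smul 2) (hf.tr _)) t1, asg_W_sub hδ (hf.smul 2) (hf.tr _), asg_W_smul hδ hf,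
      asg_W_tr hδ hf, e1, asg_W_tr hδ hf, neg_neg, sub_eq_add_neg, sub_eq_add_neg, asg_hat_add, asg_hat_add,
      ← neg_one_smul ℝ (aspTr (-e) (aspW δ f)), ← neg_one_smul ℝ (aspTr e (aspW δ f)), asg_hat_smul, asg_hat_smul,
      asg_hat_smul, asg_hat_tr, asg_hat_tr]
    have hn : aspPh p (-e) = -aspPh p e := by
      have := asg_ph_add p e (-e)
      rw [add_neg_cancel] at this
      have h0 : aspPh p 0 = 0 := by unfold aspPh; simp
      linarith
    rw [hn]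
    push_cast
    rw [Complex.cos, mul_comm (aspPh p e : ℂ) Complex.I, show -(aspPh p e : ℂ) * Complex.I = Complex.I * -(aspPh p e : ℂ) by ring]
    ring
  rw [h2, asg_W_add hδ (h1 _) (h1 _), asg_hat_add, h3, h3]
  unfold aspDD aspPh
  push_cast
  simp only [mul_one, mul_zero, add_zero, zero_add]
  ring

theorem asg_DD_nonneg (p : ℝ × ℝ) : 0 ≤ aspDD p := by
  unfold aspDD
  linarith [Real.cos_le_one p.1, Real.cos_le_one p.2]

/-- (T3) TEX[plane:eq:transform-bounds], second bound, `N = 1` with the single multiplier `aspDD` -/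
theorem asg_hat_large {f : ℝ × ℝ → ℝ} (hf : ContDiff ℝ 2 f) (hc : HasCompactSupport f) :
    ∃ B : ℝ, 0 ≤ B ∧ ∀ δ : ℝ, 0 < δ → δ ≤ 1 → ∀ p, aspDD p * ‖aspHat (aspW δ f) p‖ ≤ B * δ ^ 2 := by
  obtain ⟨B, hB, h⟩ := asg_L_int hf hc
  refine ⟨B, hB, fun δ hδ hδ1 p => ?_⟩
  have hT : PcvT f := ⟨hf.continuous, hc⟩
  have h1 := asg_hat_le hδ (asg_L_test δ hT) p
  rw [asg_hat_L hδ hT, norm_mul, Complex.norm_real, Real.norm_of_nonneg (asg_DD_nonneg p)] at h1
  exact h1.trans (h δ hδ hδ1)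

/-! ## E. the measure `Cf` : dyadic sums -/

/-- the symbol dominates `|p|²` on the box -/
theorem asg_DD_ge {p : ℝ × ℝ} (hp : p ∈ aspBox) : 4 / (3 * Real.pi ^ 2) * plnSq p ≤ aspDD p := by
  obtain ⟨h1, h2⟩ := hp
  have hpi : 0 < Real.pi := Real.pi_pos
  have c1 : Real.cos p.1 ≤ 1 - 2 / Real.pi ^ 2 * p.1 ^ 2 :=
    Real.cos_le_one_sub_mul_cos_sq (abs_le.2 ⟨h1.1.le, h1.2⟩)
  have c2 : Real.cos p.2 ≤ 1 - 2 / Real.pi ^ 2 * p.2 ^ 2 :=
    Real.cos_le_one_sub_mul_cos_sq (abs_le.2 ⟨h2.1.le, h2.2⟩)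
  unfold aspDD plnSq
  have h6 : 4 / (3 * Real.pi ^ 2) * (p.1 ^ 2 + p.2 ^ 2) = 2 / 3 * (2 / Real.pi ^ 2 * p.1 ^ 2 + 2 / Real.pi ^ 2 * p.2 ^ 2) := by
    field_simp
    ring
  have h7 : 0 ≤ 2 / Real.pi ^ 2 * p.1 ^ 2 := by positivity
  have h8 : 0 ≤ 2 / Real.pi ^ 2 * p.2 ^ 2 := by positivity
  rw [h6]
  linarith

theorem asg_box_meas : MeasurableSet aspBox := by
  have h1 : Measurable fun p : ℝ × ℝ => p.1 := measurable_fst
  have h2 : Measurable fun p : ℝ × ℝ => p.2 := measurable_snd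
  exact (h1 measurableSet_Ioc).inter (h2 measurableSet_Ioc)

/-- low frequencies: `∫_{|p| ≤ ρ} |p|² dCf ≤ 2 K ρ²` -/
theorem asg_low {a : AspG → ℝ} {Cf : Measure (ℝ × ℝ)} {K : ℝ} (hs : AspSpec a Cf K) {ρ : ℝ} (hρ : 0 < ρ) (hρ1 : ρ ≤ 1) :
    ∫⁻ p in {p | plnSq p ≤ ρ ^ 2}, ENNReal.ofReal (plnSq p) ∂Cf ≤ ENNReal.ofReal (2 * max K 0 * ρ ^ 2) := by
  have hK0 : 0 ≤ max K 0 := le_max_right _ _
  set r : ℕ → ℝ := fun j => ρ / 2 ^ (j + 1) with hr
  have hr0 : ∀ j, 0 < r j := fun j => by positivity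
  have hr1 : ∀ j, r j ^ 2 = ρ ^ 2 * (1 / 4) ^ (j + 1) := by
    intro j
    simp only [hr]
    rw [div_pow, ← pow_mul, mul_comm (j + 1) 2, pow_mul, div_eq_mul_inv, one_div, inv_pow]
    norm_num
  have hr2 : ∀ j, 4 * r j ^ 2 = ρ ^ 2 / 4 ^ j := by
    intro j
    rw [hr1 j, pow_succ, one_div, inv_pow]
    ring
  have hrh : ∀ j, r j ≤ 1 / 2 := by
    intro j
    simp only [hr]
    rw [div_le_iff₀ (by positivity), pow_succ]
    have : (1 : ℝ) ≤ 2 ^ j := one_le_pow₀ (by norm_num)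
    nlinarith
  set S : ℕ → Set (ℝ × ℝ) := fun j => {p | r j ^ 2 ≤ plnSq p ∧ plnSq p ≤ 4 * r j ^ 2} ∪ {0} with hS
  have h := pcv_geo (μ := Cf) (S := S) (w := fun p => ENNReal.ofReal (plnSq p)) (A := {p | plnSq p ≤ ρ ^ 2})
    (K := max K 0) (t := ρ ^ 2) (fun j => (pcv_ann_meas _ _).union (measurableSet_singleton _)) ?_ hK0 (by positivity) ?_ ?_
  · refine h.trans (ENNReal.ofReal_le_ofReal ?_)
    have : 0 ≤ max K 0 * ρ ^ 2 := by positivity
    nlinarith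
  · intro p hp
    rw [Set.mem_iUnion]
    by_cases h0 : plnSq p = 0
    · refine ⟨0, Or.inr ?_⟩
      unfold plnSq at h0
      have h1 : p.1 = 0 := by nlinarith [sq_nonneg p.1, sq_nonneg p.2]
      have h2 : p.2 = 0 := by nlinarith [sq_nonneg p.1, sq_nonneg p.2]
      exact Prod.ext h1 h2
    · have hpos : 0 < plnSq p := lt_of_le_of_ne (by unfold plnSq; positivity) (Ne.symm h0)
      have hρ2 : 0 < ρ ^ 2 := by positivity
      obtain ⟨n, hn1, hn2⟩ := exists_nat_pow_near_of_lt_one (x := plnSq p / ρ ^ 2) (y := 1 / 4) (by positivity)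
        ((div_le_one hρ2).2 hp) (by norm_num) (by norm_num)
      refine ⟨n, Or.inl ⟨?_, ?_⟩⟩
      · rw [hr1 n]
        rw [lt_div_iff₀ hρ2] at hn1
        linarith
      · rw [hr2 n]
        rw [div_le_iff₀ hρ2, one_div, inv_pow] at hn2
        rw [div_eq_mul_inv, mul_comm]
        exact hn2
  · intro j
    calc Cf (S j) ≤ Cf {p | r j ^ 2 ≤ plnSq p ∧ plnSq p ≤ 4 * r j ^ 2} + Cf {0} := measure_union_le _ _
      _ ≤ ENNReal.ofReal K + 0 := by
          gcongr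
          · exact hs.ann (r j) (hr0 j) (hrh j)
          · exact hs.zero.le
      _ ≤ ENNReal.ofReal (max K 0) := by rw [add_zero]; exact ENNReal.ofReal_le_ofReal (le_max_left _ _)
  · intro j p hp
    refine ENNReal.ofReal_le_ofReal ?_
    rcases hp with hp | hp
    · rw [← hr2 j]; exact hp.2
    · rw [Set.mem_singleton_iff] at hp
      subst hp
      have : plnSq (0 : ℝ × ℝ) = 0 := by simp [plnSq]
      rw [this]
      positivity

/-- high frequencies: `∫_{|p| ≥ ρ} dCf / aspDD ≤ K' / ρ²`   (dyadic annuli up to `|p| < 1/2`, then `AspSpec.far`) -/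
theorem asg_high {a : AspG → ℝ} {Cf : Measure (ℝ × ℝ)} {K : ℝ} (hs : AspSpec a Cf K) :
    ∃ K' : ℝ, 0 ≤ K' ∧ ∀ ρ : ℝ, 0 < ρ → ρ ≤ 1 →
      ∫⁻ p in {p | ρ ^ 2 ≤ plnSq p}, ENNReal.ofReal (1 / aspDD p) ∂Cf ≤ ENNReal.ofReal (K' / ρ ^ 2) := by
  have hK0 : 0 ≤ max K 0 := le_max_right _ _
  have hpi : 0 < Real.pi := Real.pi_pos
  refine ⟨(Real.pi ^ 2 + 9 * Real.pi ^ 4) * max K 0, by positivity, ?_⟩
  intro ρ hρ hρ1
  have hρ2 : 0 < ρ ^ 2 := by positivity
  have hB : ∀ᵐ p ∂Cf, p ∈ aspBox := mem_ae_iff.2 hs.box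
  set A1 : Set (ℝ × ℝ) := {p | ρ ^ 2 ≤ plnSq p ∧ plnSq p ≤ 1 / 4} ∩ aspBox with hA1
  set A2 : Set (ℝ × ℝ) := {p | 1 / 4 ≤ plnSq p} ∩ aspBox with hA2
  have hsub : ({p | ρ ^ 2 ≤ plnSq p} : Set (ℝ × ℝ)) ≤ᵐ[Cf] (A1 ∪ A2 : Set (ℝ × ℝ)) := by
    filter_upwards [hB] with p hp hpA
    rcases le_total (plnSq p) (1 / 4) with h | h
    · exact Or.inl ⟨⟨hpA, h⟩, hp⟩
    · exact Or.inr ⟨h, hp⟩
  -- part 1
  have h1 : ∫⁻ p in A1, ENNReal.ofReal (1 / aspDD p) ∂Cf ≤ ENNReal.ofReal (Real.pi ^ 2 * max K 0 / ρ ^ 2) := by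
    set S : ℕ → Set (ℝ × ℝ) := fun j =>
      ({p | (ρ * 2 ^ j) ^ 2 ≤ plnSq p ∧ plnSq p ≤ 4 * (ρ * 2 ^ j) ^ 2} ∩ {p | plnSq p ≤ 1 / 4}) ∩ aspBox with hS
    have e4 : ∀ j : ℕ, (ρ * 2 ^ j) ^ 2 = ρ ^ 2 * 4 ^ j := by
      intro j
      rw [mul_pow, ← pow_mul, mul_comm j 2, pow_mul]; norm_num
    have h := pcv_geo (μ := Cf) (S := S) (w := fun p => ENNReal.ofReal (1 / aspDD p)) (A := A1)
      (K := max K 0) (t := 3 * Real.pi ^ 2 / (4 * ρ ^ 2))
      (fun j => ((pcv_ann_meas _ _).inter (pcv_sq_meas measurableSet_Iic)).inter asg_box_meas) ?_ hK0 (by positivity) ?_ ?_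
    · refine h.trans (ENNReal.ofReal_le_ofReal (le_of_eq ?_))
      field_simp
    · rintro p ⟨⟨hp1, hp2⟩, hp3⟩
      rw [Set.mem_iUnion]
      obtain ⟨n, hn1, hn2⟩ := exists_nat_pow_near (x := plnSq p / ρ ^ 2) (y := 4) ((one_le_div hρ2).2 hp1) (by norm_num)
      refine ⟨n, ⟨⟨⟨?_, ?_⟩, hp2⟩, hp3⟩⟩
      · rw [e4, mul_comm]; exact (le_div_iff₀ hρ2).1 hn1
      · rw [e4]
        have := (div_lt_iff₀ hρ2).1 hn2
        rw [pow_succ] at this
        nlinarith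
    · intro j
      by_cases hj : ρ * 2 ^ j ≤ 1 / 2
      · refine (measure_mono ?_).trans ((hs.ann (ρ * 2 ^ j) (by positivity) hj).trans (ENNReal.ofReal_le_ofReal (le_max_left _ _)))
        rintro p ⟨⟨hp, -⟩, -⟩
        exact hp
      · have : S j = ∅ := by
          rw [Set.eq_empty_iff_forall_notMem]
          rintro p ⟨⟨⟨hp1, -⟩, hp2⟩, -⟩
          rw [not_le] at hj
          have hp2' : plnSq p ≤ 1 / 4 := hp2
          nlinarith
        rw [this, measure_empty]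
        exact zero_le
    · rintro j p ⟨⟨⟨hp1, -⟩, -⟩, hp3⟩
      refine ENNReal.ofReal_le_ofReal ?_
      have hD := asg_DD_ge hp3
      rw [e4] at hp1
      have h4 : (0 : ℝ) < 4 ^ j := by positivity
      have hlow : 4 / (3 * Real.pi ^ 2) * (ρ ^ 2 * 4 ^ j) ≤ aspDD p :=
        (mul_le_mul_of_nonneg_left hp1 (by positivity)).trans hD
      have hpos : 0 < 4 / (3 * Real.pi ^ 2) * (ρ ^ 2 * 4 ^ j) := by positivity
      refine (one_div_le_one_div_of_le hpos hlow).trans (le_of_eq ?_)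
      field_simp
  -- part 2
  have h2 : ∫⁻ p in A2, ENNReal.ofReal (1 / aspDD p) ∂Cf ≤ ENNReal.ofReal (9 * Real.pi ^ 4 * max K 0) := by
    have hA2m : MeasurableSet A2 := (pcv_sq_meas measurableSet_Ici).inter asg_box_meas
    calc ∫⁻ p in A2, ENNReal.ofReal (1 / aspDD p) ∂Cf
        ≤ ∫⁻ p in A2, ENNReal.ofReal (9 * Real.pi ^ 4) * ENNReal.ofReal (aspDD p) ∂Cf := by
          refine setLIntegral_mono' hA2m ?_
          rintro p ⟨hp1, hp2⟩
          rw [← ENNReal.ofReal_mul (by positivity)]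
          refine ENNReal.ofReal_le_ofReal ?_
          have hD := asg_DD_ge hp2
          have hp1' : 1 / 4 ≤ plnSq p := hp1
          have hlow : 1 / (3 * Real.pi ^ 2) ≤ aspDD p := by
            refine le_trans (le_of_eq ?_) ((mul_le_mul_of_nonneg_left hp1' (by positivity)).trans hD)
            field_simp
          have hm : 0 < 1 / (3 * Real.pi ^ 2) := by positivity
          have hDpos : 0 < aspDD p := lt_of_lt_of_le hm hlow
          rw [div_le_iff₀ hDpos]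
          have h5 : (1 / (3 * Real.pi ^ 2)) * (1 / (3 * Real.pi ^ 2)) ≤ aspDD p * aspDD p :=
            mul_le_mul hlow hlow hm.le hDpos.le
          have h6 : 9 * Real.pi ^ 4 * ((1 / (3 * Real.pi ^ 2)) * (1 / (3 * Real.pi ^ 2))) = 1 := by
            field_simp
            ring
          calc (1 : ℝ) = 9 * Real.pi ^ 4 * ((1 / (3 * Real.pi ^ 2)) * (1 / (3 * Real.pi ^ 2))) := h6.symm
            _ ≤ 9 * Real.pi ^ 4 * (aspDD p * aspDD p) := mul_le_mul_of_nonneg_left h5 (by positivity)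
            _ = 9 * Real.pi ^ 4 * aspDD p * aspDD p := by ring
      _ ≤ ∫⁻ p, ENNReal.ofReal (9 * Real.pi ^ 4) * ENNReal.ofReal (aspDD p) ∂Cf := setLIntegral_le_lintegral _ _
      _ = ENNReal.ofReal (9 * Real.pi ^ 4) * ∫⁻ p, ENNReal.ofReal (aspDD p) ∂Cf := lintegral_const_mul' _ _ ENNReal.ofReal_ne_top
      _ ≤ ENNReal.ofReal (9 * Real.pi ^ 4) * ENNReal.ofReal (max K 0) := by
          gcongr
          exact hs.far.trans (ENNReal.ofReal_le_ofReal (le_max_left _ _))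
      _ = ENNReal.ofReal (9 * Real.pi ^ 4 * max K 0) := (ENNReal.ofReal_mul (by positivity)).symm
  calc ∫⁻ p in {p | ρ ^ 2 ≤ plnSq p}, ENNReal.ofReal (1 / aspDD p) ∂Cf
      ≤ ∫⁻ p in A1 ∪ A2, ENNReal.ofReal (1 / aspDD p) ∂Cf := lintegral_mono_set' hsub
    _ ≤ ∫⁻ p in A1, ENNReal.ofReal (1 / aspDD p) ∂Cf + ∫⁻ p in A2, ENNReal.ofReal (1 / aspDD p) ∂Cf := lintegral_union_le _ _ _
    _ ≤ ENNReal.ofReal (Real.pi ^ 2 * max K 0 / ρ ^ 2) + ENNReal.ofReal (9 * Real.pi ^ 4 * max K 0) := add_le_add h1 h2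
    _ = ENNReal.ofReal (Real.pi ^ 2 * max K 0 / ρ ^ 2 + 9 * Real.pi ^ 4 * max K 0) := (ENNReal.ofReal_add (by positivity) (by positivity)).symm
    _ ≤ ENNReal.ofReal ((Real.pi ^ 2 + 9 * Real.pi ^ 4) * max K 0 / ρ ^ 2) := by
        refine ENNReal.ofReal_le_ofReal ?_
        have h7 : 9 * Real.pi ^ 4 * max K 0 ≤ 9 * Real.pi ^ 4 * max K 0 / ρ ^ 2 := by
          rw [le_div_iff₀ hρ2]
          have : ρ ^ 2 ≤ 1 := pow_le_one₀ hρ.le hρ1
          have h8 : 0 ≤ 9 * Real.pi ^ 4 * max K 0 := by positivity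
          nlinarith
        rw [add_mul, add_div]
        linarith

/-! ## F. the core limit -/

/-- (F1) low frequencies -/
theorem asg_phi_small {f g : ℝ × ℝ → ℝ} (hf : PcvT f) (hg : PcvT g) (hf0 : ∫ z, f z = 0) (hg0 : ∫ z, g z = 0) :
    ∃ M : ℝ, 0 ≤ M ∧ ∀ δ : ℝ, 0 < δ → δ ≤ 1 → ∀ p, |asgPhi (aspW δ f) (aspW δ g) p| ≤ M * (plnSq p / δ ^ 2) := by
  obtain ⟨ρ, hρ0, hρ⟩ := hf.box
  obtain ⟨σ, hσ0, hσ⟩ := hg.box
  have hIf : 0 ≤ ∫ z, |f z| := integral_nonneg fun z => abs_nonneg _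
  have hIg : 0 ≤ ∫ z, |g z| := integral_nonneg fun z => abs_nonneg _
  refine ⟨2 * ((ρ + 1) * (∫ z, |f z|) * ((σ + 1) * ∫ z, |g z|)), by positivity, fun δ hδ hδ1 p => ?_⟩
  unfold asgPhi
  refine (pcv_re_le _ _).trans ?_
  have h1 := asg_hat_small hδ hδ1 hf hf0 hρ p
  have h2 := asg_hat_small hδ hδ1 hg hg0 hσ p
  have h3 := mul_le_mul h1 h2 (norm_nonneg _) (by positivity)
  refine h3.trans ?_
  have h4 := pcv_l1_sq p
  have e : (ρ + 1) / δ * (|p.1| + |p.2|) * (∫ z, |f z|) * ((σ + 1) / δ * (|p.1| + |p.2|) * ∫ z, |g z|)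
      = ((ρ + 1) * (∫ z, |f z|) * ((σ + 1) * ∫ z, |g z|)) / δ ^ 2 * (|p.1| + |p.2|) ^ 2 := by
    field_simp
  rw [e]
  have e2 : 2 * ((ρ + 1) * (∫ z, |f z|) * ((σ + 1) * ∫ z, |g z|)) * (plnSq p / δ ^ 2)
      = ((ρ + 1) * (∫ z, |f z|) * ((σ + 1) * ∫ z, |g z|)) / δ ^ 2 * (2 * plnSq p) := by
    field_simp
  rw [e2]
  exact mul_le_mul_of_nonneg_left h4 (by positivity)

/-- (F2) high frequencies -/
theorem asg_phi_large {f g : ℝ × ℝ → ℝ} (hf : ContDiff ℝ 2 f) (hc : HasCompactSupport f) (hg : PcvT g) :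
    ∃ M : ℝ, 0 ≤ M ∧ ∀ δ : ℝ, 0 < δ → δ ≤ 1 → ∀ p, aspDD p * |asgPhi (aspW δ f) (aspW δ g) p| ≤ M * δ ^ 2 := by
  obtain ⟨B, hB, h⟩ := asg_hat_large hf hc
  have hI : 0 ≤ ∫ z, |g z| := integral_nonneg fun z => abs_nonneg _
  refine ⟨B * ∫ z, |g z|, mul_nonneg hB hI, fun δ hδ hδ1 p => ?_⟩
  have h1 := pcv_re_le (aspHat (aspW δ f) p) (aspHat (aspW δ g) p)
  have h2 := asg_hat_le hδ hg p
  have h3 := h δ hδ hδ1 p
  have hD := asg_DD_nonneg p
  calc aspDD p * |asgPhi (aspW δ f) (aspW δ g) p|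
      ≤ aspDD p * (‖aspHat (aspW δ f) p‖ * ‖aspHat (aspW δ g) p‖) := mul_le_mul_of_nonneg_left h1 hD
    _ = (aspDD p * ‖aspHat (aspW δ f) p‖) * ‖aspHat (aspW δ g) p‖ := by ring
    _ ≤ (B * δ ^ 2) * ∫ z, |g z| := mul_le_mul h3 h2 (norm_nonneg _) (by positivity)
    _ = B * (∫ z, |g z|) * δ ^ 2 := by ring

/-- (F3) convergence on compact sets of rescaled frequencies -/
theorem asg_phi_lim {f g : ℝ × ℝ → ℝ} (hf : PcvT f) (hg : PcvT g) :
    ∃ M : ℝ, 0 ≤ M ∧ ∀ δ : ℝ, 0 < δ → ∀ ζ : ℝ × ℝ,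
      |asgPhi (aspW δ f) (aspW δ g) (δ • ζ) - pcvPhi0 f g ζ| ≤ M * δ * (|ζ.1| + |ζ.2|) := by
  have hIf : 0 ≤ ∫ z, |f z| := integral_nonneg fun z => abs_nonneg _
  have hIg : 0 ≤ ∫ z, |g z| := integral_nonneg fun z => abs_nonneg _
  refine ⟨2 * ((∫ z, |f z|) * ∫ z, |g z|), by positivity, fun δ hδ ζ => ?_⟩
  set A := aspHat (aspW δ f) (δ • ζ) with hA
  set A0 := pcvF f ζ with hA0
  set B := aspHat (aspW δ g) (δ • ζ) with hB
  set B0 := pcvF g ζ with hB0
  have e : asgPhi (aspW δ f) (aspW δ g) (δ • ζ) - pcvPhi0 f g ζ = (conj (A - A0) * B).re + (conj A0 * (B - B0)).re := by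
    unfold asgPhi pcvPhi0
    rw [← Complex.sub_re, ← Complex.add_re]
    congr 1
    rw [map_sub]
    ring
  rw [e]
  have h1 := pcv_re_le (A - A0) B
  have h2 := pcv_re_le A0 (B - B0)
  have a1 : ‖A - A0‖ ≤ δ * (|ζ.1| + |ζ.2|) * ∫ z, |f z| := asg_hat_lim hδ hf ζ
  have a2 : ‖B - B0‖ ≤ δ * (|ζ.1| + |ζ.2|) * ∫ z, |g z| := asg_hat_lim hδ hg ζ
  have a3 : ‖B‖ ≤ ∫ z, |g z| := asg_hat_le hδ hg _
  have a4 : ‖A0‖ ≤ ∫ z, |f z| := pcv_F_le ζ
  have hz : 0 ≤ δ * (|ζ.1| + |ζ.2|) := by positivity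
  calc |(conj (A - A0) * B).re + (conj A0 * (B - B0)).re|
      ≤ |(conj (A - A0) * B).re| + |(conj A0 * (B - B0)).re| := abs_add_le _ _
    _ ≤ ‖A - A0‖ * ‖B‖ + ‖A0‖ * ‖B - B0‖ := add_le_add h1 h2
    _ ≤ (δ * (|ζ.1| + |ζ.2|) * ∫ z, |f z|) * (∫ z, |g z|) + (∫ z, |f z|) * (δ * (|ζ.1| + |ζ.2|) * ∫ z, |g z|) :=
        add_le_add (mul_le_mul a1 a3 (norm_nonneg _) (by positivity)) (mul_le_mul a4 a2 (norm_nonneg _) hIf)
    _ = 2 * ((∫ z, |f z|) * ∫ z, |g z|) * δ * (|ζ.1| + |ζ.2|) := by ring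

theorem asg_phi_continuous (b b' : AspG →₀ ℝ) : Continuous (asgPhi b b') := by
  unfold asgPhi
  exact Complex.continuous_re.comp ((Complex.continuous_conj.comp (asg_hat_continuous b)).mul (asg_hat_continuous b'))

theorem asg_DD_continuous : Continuous aspDD := by
  unfold aspDD
  fun_prop

/-- (F4) the error between `T_δ` and the functional of `AspPS` at `Ψ_n` -/
theorem asg_err {a : AspG → ℝ} {Cf : Measure (ℝ × ℝ)} {K : ℝ} (hs : AspSpec a Cf K) {f g : ℝ × ℝ → ℝ} (hf : ContDiff ℝ 2 f)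
    (hc : HasCompactSupport f) (hg : PcvT g) (hf0 : ∫ z, f z = 0) (hg0 : ∫ z, g z = 0) :
    ∃ M : ℝ, 0 ≤ M ∧ ∀ n : ℕ, 1 ≤ n → ∀ δ : ℝ, 0 < δ → (n : ℝ) * δ ≤ 1 / 2 →
      Integrable (fun p => asgPhi (aspW δ f) (aspW δ g) p - pcvPhi0 f g (δ⁻¹ • p) * pcvTh n (δ⁻¹ • p)) Cf ∧
      |∫ p, (asgPhi (aspW δ f) (aspW δ g) p - pcvPhi0 f g (δ⁻¹ • p) * pcvTh n (δ⁻¹ • p)) ∂Cf|
        ≤ M / (n : ℝ) ^ 2 + M * (n : ℝ) ^ 5 * δ := by
  have hT : PcvT f := ⟨hf.continuous, hc⟩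
  obtain ⟨M1, hM1, h1⟩ := asg_phi_small hT hg hf0 hg0
  obtain ⟨M2, hM2, h2⟩ := asg_phi_large hf hc hg
  obtain ⟨M3, hM3, h3⟩ := asg_phi_lim hT hg
  obtain ⟨K', hK', h4⟩ := asg_high hs
  have hKp : 0 ≤ max K 0 := le_max_right _ _
  set Kp := max K 0 with hKpdef
  refine ⟨8 * M1 * Kp + M2 * K' + 16 * M3 * Kp, by positivity, fun n hn δ hδ hnδ => ?_⟩
  have hn1 : (1 : ℝ) ≤ n := by exact_mod_cast hn
  have hn0 : (0 : ℝ) < n := by linarith
  have hδ1 : δ ≤ 1 := by nlinarith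
  have hδh : δ ≤ 1 / 2 := by nlinarith
  set S1 : Set (ℝ × ℝ) := {p | plnSq p ≤ (2 * δ / n) ^ 2} with hS1
  set S2 : Set (ℝ × ℝ) := {p | ((n : ℝ) * δ) ^ 2 ≤ plnSq p} with hS2
  set S3 : Set (ℝ × ℝ) := {p | plnSq p ≤ (2 * n * δ) ^ 2} with hS3
  have mS1 : MeasurableSet S1 := measurableSet_le pcv_sq_continuous.measurable measurable_const
  have mS2 : MeasurableSet S2 := measurableSet_le measurable_const pcv_sq_continuous.measurable
  have mS3 : MeasurableSet S3 := measurableSet_le pcv_sq_continuous.measurable measurable_const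
  set g1 : ℝ × ℝ → ℝ := S1.indicator (fun p => M1 / δ ^ 2 * plnSq p) with hg1
  set g2 : ℝ × ℝ → ℝ := S2.indicator (fun p => M2 * δ ^ 2 * (1 / aspDD p)) with hg2
  set g3 : ℝ × ℝ → ℝ := S3.indicator (fun p => 2 * M3 * (n : ℝ) ^ 3 / δ * plnSq p) with hg3
  have hmeas : AEStronglyMeasurable
      (fun p => asgPhi (aspW δ f) (aspW δ g) p - pcvPhi0 f g (δ⁻¹ • p) * pcvTh n (δ⁻¹ • p)) Cf := by
    refine Continuous.aestronglyMeasurable ?_
    refine (asg_phi_continuous _ _).sub (((pcv_phi0_continuous hT hg).comp (continuous_const_smul _)).mul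
      ((pcv_th_continuous n).comp (continuous_const_smul _)))
  have hbox : ∀ᵐ p ∂Cf, p ∈ aspBox := by
    have := hs.box
    rw [measure_eq_zero_iff_ae_notMem] at this
    filter_upwards [this] with p hp
    simpa using hp
  have g1nn : ∀ p, 0 ≤ g1 p := fun p => Set.indicator_nonneg (fun p _ => mul_nonneg (by positivity) (pcv_sq_nonneg p)) p
  have g2nn : ∀ p, 0 ≤ g2 p := fun p => Set.indicator_nonneg (fun p _ => mul_nonneg (by positivity)
    (one_div_nonneg.2 (asg_DD_nonneg p))) p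
  have g3nn : ∀ p, 0 ≤ g3 p := fun p => Set.indicator_nonneg (fun p _ => mul_nonneg (by positivity) (pcv_sq_nonneg p)) p
  have hpt : ∀ᵐ p ∂Cf, ENNReal.ofReal |asgPhi (aspW δ f) (aspW δ g) p - pcvPhi0 f g (δ⁻¹ • p) * pcvTh n (δ⁻¹ • p)|
      ≤ ENNReal.ofReal (g1 p) + ENNReal.ofReal (g2 p) + ENNReal.ofReal (g3 p) := by
    filter_upwards [hbox] with p hp
    rw [← ENNReal.ofReal_add (g1nn p) (g2nn p), ← ENNReal.ofReal_add (add_nonneg (g1nn p) (g2nn p)) (g3nn p)]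
    refine ENNReal.ofReal_le_ofReal ?_
    set ζ := δ⁻¹ • p with hζ
    have hpζ : p = δ • ζ := by rw [hζ, smul_smul, mul_inv_cancel₀ hδ.ne', one_smul]
    have hsq : plnSq p = δ ^ 2 * plnSq ζ := by rw [hpζ, pcv_sq_smul]
    set θ := pcvTh n ζ with hθ
    have θ0 : 0 ≤ θ := pcv_th_nonneg n ζ
    have θ1 : θ ≤ 1 := pcv_th_le_one n ζ
    set Φ := asgPhi (aspW δ f) (aspW δ g) p with hΦ
    have e : Φ - pcvPhi0 f g ζ * θ = Φ * (1 - θ) + (Φ - pcvPhi0 f g ζ) * θ := by ring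
    rw [e]
    refine (abs_add_le _ _).trans ?_
    rw [abs_mul, abs_mul, abs_of_nonneg θ0, abs_of_nonneg (sub_nonneg.2 θ1)]
    have hn2 : (0 : ℝ) < (n : ℝ) ^ 2 := by positivity
    have hδ2 : (0 : ℝ) < δ ^ 2 := by positivity
    -- first term
    have A : |Φ| * (1 - θ) ≤ g1 p + g2 p := by
      rcases lt_or_ge (plnSq ζ) (2 / (n : ℝ) ^ 2) with c1 | c1
      · have hp1 : p ∈ S1 := by
          rw [hS1, Set.mem_ofPred_eq, hsq, div_pow, mul_pow]
          rw [lt_div_iff₀ hn2] at c1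
          rw [le_div_iff₀ hn2]
          nlinarith
        have : g1 p = M1 / δ ^ 2 * plnSq p := Set.indicator_of_mem hp1 _
        have b1 := h1 δ hδ hδ1 p
        have : |Φ| * (1 - θ) ≤ |Φ| := mul_le_of_le_one_right (abs_nonneg _) (by linarith)
        have e2 : M1 * (plnSq p / δ ^ 2) = M1 / δ ^ 2 * plnSq p := by ring
        linarith [g2nn p]
      · rcases le_or_gt (plnSq ζ) ((n : ℝ) ^ 2) with c2 | c2
        · have : θ = 1 := pcv_th_mid hn c1 c2
          rw [this, sub_self, mul_zero]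
          exact add_nonneg (g1nn p) (g2nn p)
        · have hp2 : p ∈ S2 := by
            rw [hS2, Set.mem_ofPred_eq, hsq, mul_pow]
            nlinarith
          have hg2p : g2 p = M2 * δ ^ 2 * (1 / aspDD p) := Set.indicator_of_mem hp2 _
          have hsqpos : 0 < plnSq p := by
            rw [hsq]
            exact mul_pos hδ2 (hn2.trans c2)
          have hDD : 0 < aspDD p := by
            have := asg_DD_ge hp
            have h0 : 0 < 4 / (3 * Real.pi ^ 2) * plnSq p := by positivity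
            linarith
          have b2 := h2 δ hδ hδ1 p
          have b3 : |Φ| ≤ M2 * δ ^ 2 * (1 / aspDD p) := by
            rw [mul_one_div, le_div_iff₀ hDD, mul_comm]
            exact b2
          have : |Φ| * (1 - θ) ≤ |Φ| := mul_le_of_le_one_right (abs_nonneg _) (by linarith)
          linarith [g1nn p]
    -- second term
    have B : |Φ - pcvPhi0 f g ζ| * θ ≤ g3 p := by
      by_cases hθ0 : θ = 0
      · rw [hθ0, mul_zero]
        exact g3nn p
      · have c1 : 1 / (n : ℝ) ^ 2 < plnSq ζ := by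
          by_contra hcon
          exact hθ0 (pcv_th_low hn (not_lt.1 hcon))
        have c2 : plnSq ζ < 2 * (n : ℝ) ^ 2 := by
          by_contra hcon
          exact hθ0 (pcv_th_high hn (not_lt.1 hcon))
        have hp3 : p ∈ S3 := by
          rw [hS3, Set.mem_ofPred_eq, hsq]
          nlinarith
        have hg3p : g3 p = 2 * M3 * (n : ℝ) ^ 3 / δ * plnSq p := Set.indicator_of_mem hp3 _
        have b1 := h3 δ hδ ζ
        rw [← hpζ] at b1
        have b2 : |ζ.1| + |ζ.2| ≤ 2 * n := by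
          have := pcv_l1_sq ζ
          refine abs_le_of_sq_le_sq' ?_ (by positivity) |>.2
          nlinarith
        have b3 : 1 ≤ (n : ℝ) ^ 2 * plnSq ζ := by
          rw [div_lt_iff₀ hn2] at c1
          linarith
        have b4 : |Φ - pcvPhi0 f g ζ| ≤ M3 * δ * (2 * n) := b1.trans (mul_le_mul_of_nonneg_left b2 (by positivity))
        have b5 : M3 * δ * (2 * n) ≤ M3 * δ * (2 * n) * ((n : ℝ) ^ 2 * plnSq ζ) := le_mul_of_one_le_right (by positivity) b3
        have e3 : 2 * M3 * (n : ℝ) ^ 3 / δ * plnSq p = M3 * δ * (2 * n) * ((n : ℝ) ^ 2 * plnSq ζ) := by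
          rw [hsq]
          field_simp
        have : |Φ - pcvPhi0 f g ζ| * θ ≤ |Φ - pcvPhi0 f g ζ| := mul_le_of_le_one_right (abs_nonneg _) θ1
        linarith
    linarith
  have l1 : ∫⁻ p, ENNReal.ofReal (g1 p) ∂Cf ≤ ENNReal.ofReal (M1 / δ ^ 2 * (2 * Kp * (2 * δ / n) ^ 2)) :=
    pcv_lint_ind mS1 (by positivity) (asg_low hs (by positivity) (by
      rw [div_le_one hn0]
      linarith))
  have l2 : ∫⁻ p, ENNReal.ofReal (g2 p) ∂Cf ≤ ENNReal.ofReal (M2 * δ ^ 2 * (K' / ((n : ℝ) * δ) ^ 2)) :=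
    pcv_lint_ind mS2 (by positivity) (h4 _ (by positivity) (by linarith))
  have l3 : ∫⁻ p, ENNReal.ofReal (g3 p) ∂Cf ≤ ENNReal.ofReal (2 * M3 * (n : ℝ) ^ 3 / δ * (2 * Kp * (2 * n * δ) ^ 2)) :=
    pcv_lint_ind mS3 (by positivity) (asg_low hs (by positivity) (by linarith))
  have mg1 : Measurable fun p => ENNReal.ofReal (g1 p) :=
    ENNReal.measurable_ofReal.comp ((measurable_const.mul pcv_sq_continuous.measurable).indicator mS1)
  have mg2 : Measurable fun p => ENNReal.ofReal (g2 p) :=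
    ENNReal.measurable_ofReal.comp ((measurable_const.mul (measurable_const.div asg_DD_continuous.measurable)).indicator mS2)
  have hG : ∫⁻ p, (ENNReal.ofReal (g1 p) + ENNReal.ofReal (g2 p) + ENNReal.ofReal (g3 p)) ∂Cf
      ≤ ENNReal.ofReal ((8 * M1 * Kp + M2 * K' + 16 * M3 * Kp) / (n : ℝ) ^ 2
        + (8 * M1 * Kp + M2 * K' + 16 * M3 * Kp) * (n : ℝ) ^ 5 * δ) := by
    have mg12 : Measurable fun p => ENNReal.ofReal (g1 p) + ENNReal.ofReal (g2 p) := mg1.add mg2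
    rw [lintegral_add_left mg12, lintegral_add_left mg1]
    refine (add_le_add (add_le_add l1 l2) l3).trans ?_
    rw [← ENNReal.ofReal_add (by positivity) (by positivity), ← ENNReal.ofReal_add (by positivity) (by positivity)]
    refine ENNReal.ofReal_le_ofReal ?_
    have e1 : M1 / δ ^ 2 * (2 * Kp * (2 * δ / n) ^ 2) = 8 * M1 * Kp / (n : ℝ) ^ 2 := by field_simp; ring
    have e2 : M2 * δ ^ 2 * (K' / ((n : ℝ) * δ) ^ 2) = M2 * K' / (n : ℝ) ^ 2 := by field_simp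
    have e3 : 2 * M3 * (n : ℝ) ^ 3 / δ * (2 * Kp * (2 * n * δ) ^ 2) = 16 * M3 * Kp * (n : ℝ) ^ 5 * δ := by field_simp; ring
    rw [e1, e2, e3]
    have p1 : 0 ≤ 16 * M3 * Kp / (n : ℝ) ^ 2 := by positivity
    have p2 : 0 ≤ (8 * M1 * Kp + M2 * K') * (n : ℝ) ^ 5 * δ := by positivity
    have e4 : (8 * M1 * Kp + M2 * K' + 16 * M3 * Kp) / (n : ℝ) ^ 2 + (8 * M1 * Kp + M2 * K' + 16 * M3 * Kp) * (n : ℝ) ^ 5 * δ
        = 8 * M1 * Kp / (n : ℝ) ^ 2 + M2 * K' / (n : ℝ) ^ 2 + 16 * M3 * Kp * (n : ℝ) ^ 5 * δ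
          + (16 * M3 * Kp / (n : ℝ) ^ 2 + (8 * M1 * Kp + M2 * K') * (n : ℝ) ^ 5 * δ) := by ring
    rw [e4]
    linarith
  obtain ⟨i1, i2⟩ := pcv_int_bound hmeas hpt hG
  refine ⟨i1, i2.trans (le_of_eq (max_eq_left (by positivity)))⟩

/-- **the core limit** -/
theorem asg_core {a : AspG → ℝ} {Cf : Measure (ℝ × ℝ)} {K c : ℝ} (h : AspIn a) (hs : AspSpec a Cf K) (hp : AspPS Cf c)
    {f g : ℝ × ℝ → ℝ} (hf : ContDiff ℝ 2 f) (hc : HasCompactSupport f) (hg : PcvT g) (hf0 : ∫ z, f z = 0)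
    (hg0 : ∫ z, g z = 0) :
    ∃ M : ℝ, ∀ n : ℕ, 1 ≤ n → ∀ᶠ δ in 𝓝[>] (0 : ℝ),
      |aspGam a (aspW δ f) (aspW δ g) - c * ∫ ζ, pcvPsi f g n ζ| ≤ M / (n : ℝ) := by
  have hT : PcvT f := ⟨hf.continuous, hc⟩
  obtain ⟨M, hM, E⟩ := asg_err hs hf hc hg hf0 hg0
  refine ⟨2 * M + 1, fun n hn => ?_⟩
  have hn' : (1 : ℝ) ≤ (n : ℝ) := by exact_mod_cast hn
  have hn0 : (0 : ℝ) < (n : ℝ) := by linarith
  have hlim := hp (pcvPsi f g n) (pcv_psi_continuous hT hg hn) (pcv_psi_compact f g hn)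
  have ev1 : ∀ᶠ δ in 𝓝[>] (0 : ℝ),
      |∫ p, pcvPsi f g n (δ⁻¹ • p) * (plnSq p / δ ^ 2) ∂Cf - c * ∫ p, pcvPsi f g n p| < 1 / (n : ℝ) := by
    have := (Metric.tendsto_nhds.1 hlim) (1 / (n : ℝ)) (by positivity)
    simpa only [Real.dist_eq, asg_sq_eq] using this
  have ev2 : ∀ᶠ δ in 𝓝[>] (0 : ℝ), δ < 1 / (2 * (n : ℝ) ^ 6) := by
    have : Set.Ioo (0 : ℝ) (1 / (2 * (n : ℝ) ^ 6)) ∈ 𝓝[>] (0 : ℝ) := Ioo_mem_nhdsGT (by positivity)
    filter_upwards [this] with δ hδ using hδ.2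
  filter_upwards [ev1, ev2, self_mem_nhdsWithin] with δ h1 h2 hδ
  have hδ0 : 0 < δ := hδ
  have h3 : (n : ℝ) ^ 5 * δ ≤ 1 / (2 * (n : ℝ)) := by
    have : (n : ℝ) ^ 5 * δ ≤ (n : ℝ) ^ 5 * (1 / (2 * (n : ℝ) ^ 6)) := mul_le_mul_of_nonneg_left h2.le (by positivity)
    refine this.trans (le_of_eq ?_)
    field_simp
  have hnδ : (n : ℝ) * δ ≤ 1 / 2 := by
    have a1 : (n : ℝ) * δ ≤ (n : ℝ) ^ 5 * δ := by
      refine mul_le_mul_of_nonneg_right ?_ hδ0.le
      calc (n : ℝ) = (n : ℝ) ^ 1 := (pow_one _).symm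
        _ ≤ (n : ℝ) ^ 5 := pow_le_pow_right₀ hn' (by norm_num)
    have a2 : 1 / (2 * (n : ℝ)) ≤ 1 / 2 := by
      rw [div_le_div_iff₀ (by positivity) (by norm_num)]
      linarith
    linarith
  obtain ⟨i1, i2⟩ := E n hn δ hδ0 hnδ
  have tf : aspTot (aspW δ f) = 0 := by rw [asg_W_tot hδ0 hT, hf0]
  have tg : aspTot (aspW δ g) = 0 := by rw [asg_W_tot hδ0 hg, hg0]
  have iΦ := asg_phi_integrable hs tf tg
  have e1 : ∀ p, pcvPsi f g n (δ⁻¹ • p) * (plnSq p / δ ^ 2) = pcvPhi0 f g (δ⁻¹ • p) * pcvTh n (δ⁻¹ • p) := by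
    intro p
    rw [← pcv_psi_mul f g hn (δ⁻¹ • p), pcv_sq_smul]
    congr 1
    field_simp
  have i3 : Integrable (fun p => pcvPsi f g n (δ⁻¹ • p) * (plnSq p / δ ^ 2)) Cf := by
    refine (iΦ.sub i1).congr (Filter.Eventually.of_forall fun p => ?_)
    simp only [Pi.sub_apply, e1]
    ring
  have e2 : ∫ p, asgPhi (aspW δ f) (aspW δ g) p ∂Cf
      = (∫ p, (asgPhi (aspW δ f) (aspW δ g) p - pcvPhi0 f g (δ⁻¹ • p) * pcvTh n (δ⁻¹ • p)) ∂Cf)
        + ∫ p, pcvPsi f g n (δ⁻¹ • p) * (plnSq p / δ ^ 2) ∂Cf := by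
    rw [← integral_add i1 i3]
    refine integral_congr_ae (Filter.Eventually.of_forall fun p => ?_)
    simp only [e1]
    ring
  rw [asg_rep h hs tf tg, e2]
  set D := ∫ p, (asgPhi (aspW δ f) (aspW δ g) p - pcvPhi0 f g (δ⁻¹ • p) * pcvTh n (δ⁻¹ • p)) ∂Cf with hD
  set P := ∫ p, pcvPsi f g n (δ⁻¹ • p) * (plnSq p / δ ^ 2) ∂Cf with hP
  have b1 : |D + P - c * ∫ ζ, pcvPsi f g n ζ| ≤ |D| + |P - c * ∫ ζ, pcvPsi f g n ζ| := by
    have : D + P - c * ∫ ζ, pcvPsi f g n ζ = D + (P - c * ∫ ζ, pcvPsi f g n ζ) := by ring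
    rw [this]
    exact abs_add_le _ _
  have b2 : M / (n : ℝ) ^ 2 ≤ M / (n : ℝ) := by
    refine div_le_div_of_nonneg_left hM hn0 ?_
    calc (n : ℝ) = (n : ℝ) ^ 1 := (pow_one _).symm
      _ ≤ (n : ℝ) ^ 2 := pow_le_pow_right₀ hn' (by norm_num)
  have b3 : M * (n : ℝ) ^ 5 * δ ≤ M / (n : ℝ) := by
    have : M * (n : ℝ) ^ 5 * δ = M * ((n : ℝ) ^ 5 * δ) := by ring
    rw [this]
    refine (mul_le_mul_of_nonneg_left h3 hM).trans ?_
    rw [mul_one_div]
    exact div_le_div_of_nonneg_left hM hn0 (by linarith)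
  have b4 : (2 * M + 1) / (n : ℝ) = M / (n : ℝ) + M / (n : ℝ) + 1 / (n : ℝ) := by ring
  rw [b4]
  linarith

/-! ## H. the conclusions -/

/-- `c > 0` : the lower variance bound against `asg_core` at `c = 0` -/
theorem asg_pos {a : AspG → ℝ} {Cf : Measure (ℝ × ℝ)} {K c : ℝ} (h : AspIn a) (hs : AspSpec a Cf K) (hc : 0 ≤ c)
    (hp : AspPS Cf c) : 0 < c := by
  rcases hc.lt_or_eq with hpos | h0
  · exact hpos
  exfalso
  obtain ⟨f, ⟨hf, hfc⟩, hf0, c0, hc0, hev⟩ := h.nd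
  have h2 : ContDiff ℝ 2 f := hf.of_le (WithTop.coe_le_coe.2 le_top)
  obtain ⟨M, hM⟩ := asg_core h hs hp h2 hfc ⟨hf.continuous, hfc⟩ hf0 hf0
  obtain ⟨n, hn⟩ := exists_nat_gt (max (M / c0) 1)
  have hn1 : 1 ≤ n := by
    have : (1 : ℝ) < n := lt_of_le_of_lt (le_max_right _ _) hn
    exact_mod_cast this.le
  have hnpos : (0 : ℝ) < n := by exact_mod_cast hn1
  have hlt : M / (n : ℝ) < c0 := by
    have : M / c0 < n := lt_of_le_of_lt (le_max_left _ _) hn
    rw [div_lt_iff₀ hc0] at this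
    rw [div_lt_iff₀ hnpos]
    linarith
  obtain ⟨δ, h1, h2'⟩ := ((hM n hn1).and hev).exists
  rw [← h0, zero_mul, sub_zero] at h1
  have := le_abs_self (aspGam a (aspW δ f) (aspW δ f))
  linarith

/-- TEX[prop:plane-covariance], Laplacian form -/
theorem asg_PC {a : AspG → ℝ} {Cf : Measure (ℝ × ℝ)} {K c : ℝ} (h : AspIn a) (hs : AspSpec a Cf K) (hp : AspPS Cf c) :
    AspPCF (aspGam a) ((2 * Real.pi) ^ 2 * c) := by
  intro η g ⟨hη, hηc⟩ ⟨hg, hgc⟩ hg0
  rw [asg_lap_eq]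
  obtain ⟨l1, l2, l3⟩ := pcv_lap_test hη hηc
  have h2 : ContDiff ℝ 2 (lap2 η) := l1.of_le (WithTop.coe_le_coe.2 le_top)
  obtain ⟨M, hM⟩ := asg_core h hs hp h2 l2 ⟨hg.continuous, hgc⟩ l3 hg0
  have hlim := (pcv_psi_lim hη hηc hg hgc).const_mul c
  rw [Metric.tendsto_nhds]
  intro ε hε
  have e1 : ∀ᶠ n : ℕ in atTop, dist (c * ∫ ζ, pcvPsi (lap2 η) g n ζ)
      (c * -((2 * Real.pi) ^ 2 * ∫ z, η z * g z)) < ε / 2 := (Metric.tendsto_nhds.1 hlim) (ε / 2) (by positivity)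
  obtain ⟨N, hN⟩ := exists_nat_gt (max (M / (ε / 2)) 1)
  obtain ⟨n, hn1, hn2⟩ := (e1.and (eventually_ge_atTop N)).exists
  have hnN : max (M / (ε / 2)) 1 < (n : ℝ) := lt_of_lt_of_le hN (by exact_mod_cast hn2)
  have hn1' : 1 ≤ n := by
    have : (1 : ℝ) < n := lt_of_le_of_lt (le_max_right _ _) hnN
    exact_mod_cast this.le
  have hnpos : (0 : ℝ) < n := by exact_mod_cast hn1'
  have hlt : M / (n : ℝ) < ε / 2 := by
    have : M / (ε / 2) < n := lt_of_le_of_lt (le_max_left _ _) hnN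
    rw [div_lt_iff₀ (by positivity)] at this
    rw [div_lt_iff₀ hnpos]
    linarith
  filter_upwards [hM n hn1'] with δ hδ
  have e2 : -((2 * Real.pi) ^ 2 * c) * ∫ z, η z * g z = c * -((2 * Real.pi) ^ 2 * ∫ z, η z * g z) := by ring
  rw [e2]
  calc dist (aspGam a (aspW δ (lap2 η)) (aspW δ g)) (c * -((2 * Real.pi) ^ 2 * ∫ z, η z * g z))
      ≤ dist (aspGam a (aspW δ (lap2 η)) (aspW δ g)) (c * ∫ ζ, pcvPsi (lap2 η) g n ζ)
        + dist (c * ∫ ζ, pcvPsi (lap2 η) g n ζ) (c * -((2 * Real.pi) ^ 2 * ∫ z, η z * g z)) := dist_triangle _ _ _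
    _ < ε / 2 + ε / 2 := by
        refine add_lt_add ?_ hn1
        rw [Real.dist_eq]
        exact lt_of_le_of_lt hδ hlt
    _ = ε := by ring

/-- a cell which meets the square of half side `r - δ` has its centre at lattice distance `≤ 2 r / δ` of the origin -/
theorem asg_hs_latN {δ r : ℝ} (hδ : 0 < δ) {u : AspG} (h1 : |(asgPos δ u).1| ≤ r) (h2 : |(asgPos δ u).2| ≤ r) {N : ℕ}
    (hN : 2 * r / δ ≤ N) : |u.1| ≤ (N : ℤ) ∧ |u.2| ≤ (N : ℤ) := by
  simp only [asgPos] at h1 h2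
  rw [abs_mul, abs_of_pos hδ] at h1 h2
  have hr : 0 ≤ r := le_trans (by positivity) h1
  have hN' : r / δ ≤ N := by
    have : r / δ ≤ 2 * r / δ := by
      rw [div_le_div_iff_of_pos_right hδ]
      linarith
    exact this.trans hN
  have cv : ∀ k : ℤ, δ * |(k : ℝ)| ≤ r → |k| ≤ (N : ℤ) := by
    intro k hk
    have h3 : |(k : ℝ)| ≤ r / δ := by rw [le_div_iff₀ hδ]; linarith
    have h4 : ((|k| : ℤ) : ℝ) ≤ ((N : ℤ) : ℝ) := by
      push_cast
      exact h3.trans hN'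
    exact_mod_cast h4
  exact ⟨cv _ h1, cv _ h2⟩

/-- TEX[prop:plane-moments] at `p = 2` for face weights: uniform in the mesh, quadratic in the sup norm -/
theorem asg_sm {a : AspG → ℝ} (h : AspIn a) (ρ : ℝ) : ∃ K' : ℝ, 0 ≤ K' ∧ ∀ δ : ℝ, 0 < δ → δ ≤ 1 → ∀ (f : ℝ × ℝ → ℝ) (M : ℝ),
    PcvT f → (∀ z, f z ≠ 0 → |z.1| ≤ ρ ∧ |z.2| ≤ ρ) → ∫ z, f z = 0 → (∀ z, |f z| ≤ M) →
    aspGam a (aspW δ f) (aspW δ f) ≤ K' * M ^ 2 := by
  obtain ⟨K, hK⟩ := h.sm
  set r : ℝ := |ρ| + 1 with hr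
  have hr1 : 1 ≤ r := by have := abs_nonneg ρ; linarith
  refine ⟨10000 * max K 0 * r ^ 4, by positivity, fun δ hδ hδ1 f M hf hsupp h0 hM => ?_⟩
  have hM0 : 0 ≤ M := (abs_nonneg _).trans (hM 0)
  rcases hM0.eq_or_lt with hMz | hMpos
  · -- `f = 0`
    have hW : aspW δ f = 0 := by
      ext u
      rw [asg_W_apply hδ hf]
      have := asg_latW_abs_le hδ hM u
      rw [← hMz, mul_zero] at this
      simpa using abs_nonpos_iff.1 this
    rw [hW, ← hMz]
    simp [aspGam]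
  set N : ℕ := ⌈4 * r / δ⌉₊ with hN
  have hq : 1 ≤ r / δ := by rw [le_div_iff₀ hδ]; linarith
  have hN1 : 4 * r / δ ≤ N := Nat.le_ceil _
  have hN2 : (N : ℝ) ≤ 5 * (r / δ) := by
    have h3 : (N : ℝ) ≤ 4 * r / δ + 1 := (Nat.ceil_lt_add_one (by positivity : 0 ≤ 4 * r / δ)).le
    rw [mul_div_assoc] at h3
    linarith
  have hNpos : (0 : ℝ) < N := lt_of_lt_of_le (by positivity) hN1
  have hN1' : 1 ≤ N := by exact_mod_cast hNpos
  set t : ℝ := 1 / (100 * r ^ 2 * M) with ht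
  have htpos : 0 < t := by positivity
  have key := hK N hN1' (t • aspW δ f) (by rw [asg_tot_smul, asg_W_tot hδ hf, h0, mul_zero]) (fun u hu => ?_)
    (fun u => ?_)
  · rw [asg_gam_smul_left, asg_gam_smul_right] at key
    have h1 : aspGam a (aspW δ f) (aspW δ f) ≤ K / t ^ 2 := by
      rw [le_div_iff₀ (by positivity)]
      nlinarith
    have h2 : K / t ^ 2 = 10000 * K * r ^ 4 * M ^ 2 := by
      rw [ht]; field_simp
      ring
    rw [h2] at h1
    refine h1.trans ?_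
    have : K ≤ max K 0 := le_max_left _ _
    have hp : 0 ≤ r ^ 4 * M ^ 2 := by positivity
    nlinarith
  · -- support
    have hu' : aspW δ f u ≠ 0 := by
      intro hz
      rw [Finsupp.mem_support_iff, Finsupp.smul_apply, hz] at hu
      simp at hu
    rw [asg_W_apply hδ hf] at hu'
    obtain ⟨z, hz, hfz⟩ := asg_latW_supp hu'
    obtain ⟨s1, s2⟩ := hsupp z hfz
    have hd := asg_face_near hδ hz
    have hρ : ρ ≤ |ρ| := le_abs_self ρ
    refine asg_hs_latN (r := r) hδ ?_ ?_ ?_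
    · have := abs_sub_abs_le_abs_sub (asgPos δ u).1 z.1
      rw [abs_sub_comm] at this
      linarith [hd.1]
    · have := abs_sub_abs_le_abs_sub (asgPos δ u).2 z.2
      rw [abs_sub_comm] at this
      linarith [hd.2]
    · refine le_trans ?_ hN1
      rw [div_le_div_iff_of_pos_right hδ]
      linarith
  · rw [Finsupp.smul_apply, smul_eq_mul, abs_mul, abs_of_pos htpos, asg_W_apply hδ hf]
    have h1 := asg_latW_abs_le hδ hM u
    have h2 : t * |aspWt δ f u| ≤ t * (4 * δ ^ 2 * M) := mul_le_mul_of_nonneg_left h1 htpos.le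
    have h3 : t * (4 * δ ^ 2 * M) = δ ^ 2 / (25 * r ^ 2) := by
      rw [ht]; field_simp
      ring
    have h4 : δ ^ 2 / (25 * r ^ 2) ≤ 1 / (N : ℝ) ^ 2 := by
      rw [div_le_div_iff₀ (by positivity) (by positivity), one_mul]
      have h5 : (N : ℝ) * δ ≤ 5 * r := by
        have := mul_le_mul_of_nonneg_right hN2 hδ.le
        have e : 5 * (r / δ) * δ = 5 * r := by field_simp
        linarith
      have h6 : ((N : ℝ) * δ) ^ 2 ≤ (5 * r) ^ 2 := pow_le_pow_left₀ (by positivity) h5 2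
      nlinarith
    linarith

/-! ## I. the reflections of the four frames -/

theorem asg_rf_zero (y : ℝ) (z : ℝ × ℝ) : asgRf 0 y z = (z.1, 2 * y - z.2) := by
  simp only [asgRf, asgSig, asgVec, Prod.smul_mk, smul_eq_mul, Prod.mk_add_mk, mul_zero, add_zero]
  ext <;> (simp only; try ring)

theorem asg_rf_one (y : ℝ) (z : ℝ × ℝ) : asgRf 1 y z = (z.2 + -(Real.sqrt 2 * y), z.1 + Real.sqrt 2 * y) := by
  simp only [asgRf, asgSig, asgVec, Prod.smul_mk, smul_eq_mul, Prod.mk_add_mk]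
  ext <;> (simp only; try ring)

theorem asg_rf_two (y : ℝ) (z : ℝ × ℝ) : asgRf 2 y z = (-(2 * y) - z.1, z.2) := by
  simp only [asgRf, asgSig, asgVec, Prod.smul_mk, smul_eq_mul, Prod.mk_add_mk, mul_zero, add_zero]
  ext <;> (simp only; try ring)

theorem asg_rf_three (y : ℝ) (z : ℝ × ℝ) : asgRf 3 y z = (-(Real.sqrt 2 * y) - z.2, -(Real.sqrt 2 * y) - z.1) := by
  simp only [asgRf, asgSig, asgVec, Prod.smul_mk, smul_eq_mul, Prod.mk_add_mk]
  ext <;> (simp only; try ring)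

/-- a property of the four frames -/
theorem asg_fin4 {P : Fin 4 → Prop} (h0 : P 0) (h1 : P 1) (h2 : P 2) (h3 : P 3) (i : Fin 4) : P i := by
  fin_cases i
  · exact h0
  · exact h1
  · exact h2
  · exact h3

theorem asg_rf_rf (i : Fin 4) (y : ℝ) (z : ℝ × ℝ) : asgRf i y (asgRf i y z) = z := by
  revert i
  refine asg_fin4 ?_ ?_ ?_ ?_
  · simp only [asg_rf_zero]; ext <;> simp
  · simp only [asg_rf_one]; ext <;> simp
  · simp only [asg_rf_two]; ext <;> simp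
  · simp only [asg_rf_three]; ext <;> simp

theorem asg_rf_contDiff (i : Fin 4) (y : ℝ) : ContDiff ℝ ((⊤ : ℕ∞) : WithTop ℕ∞) (asgRf i y) := by
  revert i
  refine asg_fin4 ?_ ?_ ?_ ?_
  · rw [show asgRf 0 y = fun z => (z.1, 2 * y - z.2) from funext (asg_rf_zero y)]
    exact contDiff_fst.prodMk (contDiff_const.sub contDiff_snd)
  · rw [show asgRf 1 y = fun z => (z.2 + -(Real.sqrt 2 * y), z.1 + Real.sqrt 2 * y) from funext (asg_rf_one y)]
    exact (contDiff_snd.add contDiff_const).prodMk (contDiff_fst.add contDiff_const)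
  · rw [show asgRf 2 y = fun z => (-(2 * y) - z.1, z.2) from funext (asg_rf_two y)]
    exact (contDiff_const.sub contDiff_fst).prodMk contDiff_snd
  · rw [show asgRf 3 y = fun z => (-(Real.sqrt 2 * y) - z.2, -(Real.sqrt 2 * y) - z.1) from funext (asg_rf_three y)]
    exact (contDiff_const.sub contDiff_snd).prodMk (contDiff_const.sub contDiff_fst)

/-- the reflection as a homeomorphism -/
noncomputable def asgRfH (i : Fin 4) (y : ℝ) : ℝ × ℝ ≃ₜ ℝ × ℝ where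
  toFun := asgRf i y
  invFun := asgRf i y
  left_inv := asg_rf_rf i y
  right_inv := asg_rf_rf i y
  continuous_toFun := (asg_rf_contDiff i y).continuous
  continuous_invFun := (asg_rf_contDiff i y).continuous

theorem asg_abs_aux (a b c : ℝ) : |c - a - (c - b)| = |a - b| := by
  rw [← abs_neg]
  congr 1
  ring

/-- the reflections are isometries of the sup metric -/
theorem asg_rf_dist (i : Fin 4) (y : ℝ) (z w : ℝ × ℝ) : dist (asgRf i y z) (asgRf i y w) = dist z w := by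
  revert i
  refine asg_fin4 ?_ ?_ ?_ ?_
  · simp only [asg_rf_zero, Prod.dist_eq, Real.dist_eq, asg_abs_aux]
  · simp only [asg_rf_one, Prod.dist_eq, Real.dist_eq, add_sub_add_right_eq_sub]
    exact max_comm _ _
  · simp only [asg_rf_two, Prod.dist_eq, Real.dist_eq, asg_abs_aux]
  · simp only [asg_rf_three, Prod.dist_eq, Real.dist_eq, asg_abs_aux]
    exact max_comm _ _

theorem asg_sqrt2_le : Real.sqrt 2 ≤ 2 := by
  rw [Real.sqrt_le_left (by norm_num)]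
  norm_num

theorem asg_vec_norm (i : Fin 4) : ‖asgVec i‖ ≤ 2 := by
  have h2 := asg_sqrt2_le
  have h0 := Real.sqrt_nonneg 2
  revert i
  refine asg_fin4 ?_ ?_ ?_ ?_ <;> simp only [asgVec, Prod.norm_def, Real.norm_eq_abs, abs_neg, abs_zero, abs_two, abs_of_nonneg h0] <;>
    simp [h2]

/-- moving the line -/
theorem asg_rf_move (i : Fin 4) (y y0 : ℝ) (z : ℝ × ℝ) : dist (asgRf i y z) (asgRf i y0 z) ≤ 2 * |y - y0| := by
  unfold asgRf
  rw [dist_add_left, dist_eq_norm, ← sub_smul, norm_smul, Real.norm_eq_abs, mul_comm]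
  exact mul_le_mul_of_nonneg_right (asg_vec_norm i) (abs_nonneg _)

/-- a point whose image lies in a square lies in a slightly bigger square -/
theorem asg_rf_box (i : Fin 4) (t : ℝ) (z : ℝ × ℝ) {ρ : ℝ} (h1 : |(asgRf i t z).1| ≤ ρ) (h2 : |(asgRf i t z).2| ≤ ρ) :
    |z.1| ≤ ρ + 2 * |t| ∧ |z.2| ≤ ρ + 2 * |t| := by
  have a1 : dist (asgRf i t z) (asgRf i t (asgRf i t 0)) = dist z (asgRf i t 0) := asg_rf_dist i t _ _
  rw [asg_rf_rf, dist_zero_right] at a1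
  have a2 : ‖asgRf i t z‖ ≤ ρ := by
    rw [Prod.norm_def, Real.norm_eq_abs, Real.norm_eq_abs]
    exact max_le h1 h2
  have a3 : dist (asgRf i t 0) (asgRf i 0 0) ≤ 2 * |t - 0| := asg_rf_move i t 0 0
  have a4 : asgRf i 0 0 = 0 := by
    revert i
    refine asg_fin4 ?_ ?_ ?_ ?_ <;> intros <;> simp [asgRf, asgSig]
  rw [a4, dist_zero_right, sub_zero] at a3
  have a5 : ‖z‖ ≤ ρ + 2 * |t| := by
    calc ‖z‖ = dist z 0 := (dist_zero_right z).symm
      _ ≤ dist z (asgRf i t 0) + dist (asgRf i t 0) 0 := dist_triangle _ _ _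
      _ ≤ ρ + 2 * |t| := by
          rw [← a1, dist_zero_right]
          exact add_le_add a2 a3
  rw [Prod.norm_def, Real.norm_eq_abs, Real.norm_eq_abs] at a5
  exact ⟨(le_max_left _ _).trans a5, (le_max_right _ _).trans a5⟩

theorem asg_rf_mp (i : Fin 4) (y : ℝ) : MeasurePreserving (asgRf i y) volume volume := by
  have hsw : MeasurePreserving (Prod.swap : ℝ × ℝ → ℝ × ℝ) volume volume := Measure.measurePreserving_swap
  revert i
  refine asg_fin4 ?_ ?_ ?_ ?_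
  · rw [show asgRf 0 y = fun z => (z.1, 2 * y - z.2) from funext (asg_rf_zero y)]
    exact (MeasurePreserving.id (volume : Measure ℝ)).prod (Measure.measurePreserving_sub_left volume (2 * y))
  · rw [show asgRf 1 y = (Prod.map (fun t : ℝ => t + -(Real.sqrt 2 * y)) (fun t : ℝ => t + Real.sqrt 2 * y)) ∘ Prod.swap from
      funext (asg_rf_one y)]
    exact ((measurePreserving_add_right volume (-(Real.sqrt 2 * y))).prod (measurePreserving_add_right volume (Real.sqrt 2 * y))).comp hsw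
  · rw [show asgRf 2 y = fun z => (-(2 * y) - z.1, z.2) from funext (asg_rf_two y)]
    exact (Measure.measurePreserving_sub_left volume (-(2 * y))).prod (MeasurePreserving.id (volume : Measure ℝ))
  · rw [show asgRf 3 y = (Prod.map (fun t : ℝ => -(Real.sqrt 2 * y) - t) (fun t : ℝ => -(Real.sqrt 2 * y) - t)) ∘ Prod.swap from
      funext (asg_rf_three y)]
    exact ((Measure.measurePreserving_sub_left volume (-(Real.sqrt 2 * y))).prod
      (Measure.measurePreserving_sub_left volume (-(Real.sqrt 2 * y)))).comp hsw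

theorem asg_rf_emb (i : Fin 4) (y : ℝ) : MeasurableEmbedding (asgRf i y) := (asgRfH i y).measurableEmbedding

theorem asg_rf_test {f : ℝ × ℝ → ℝ} (hf : PcvT f) (i : Fin 4) (y : ℝ) : PcvT (fun z => f (asgRf i y z)) :=
  hf.comp_homeo (asgRfH i y)

theorem asg_row_invol (i : Fin 4) (j : ℤ) (u : AspG) : aspRow i j (aspRow i j u) = u := by
  revert i
  refine asg_fin4 ?_ ?_ ?_ ?_ <;> simp only [aspRow, Prod.ext_iff] <;> constructor <;> (first | trivial | ring)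

theorem asg_sqrt2_mul : Real.sqrt 2 * (1 / Real.sqrt 2) = 1 := by
  have : Real.sqrt 2 ≠ 0 := by positivity
  field_simp

/-- the reflections of the grid are the reflections of the plane -/
theorem asg_rf_pos (i : Fin 4) (δ : ℝ) (j : ℤ) (u : AspG) :
    asgPos δ (aspRow i j u) = asgRf i (aspStep i * δ * (j : ℝ)) (asgPos δ u) := by
  have hs := asg_sqrt2_mul
  revert i
  refine asg_fin4 ?_ ?_ ?_ ?_
  · simp only [asg_rf_zero, asgPos, aspRow, aspStep, Prod.ext_iff]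
    push_cast
    constructor <;> (first | trivial | ring)
  · have e : Real.sqrt 2 * (1 / Real.sqrt 2 * δ * (j : ℝ)) = δ * (j : ℝ) := by
      rw [← mul_assoc, ← mul_assoc, hs, one_mul]
    simp only [asg_rf_one, asgPos, aspRow, aspStep, Prod.ext_iff, e]
    push_cast
    constructor <;> (first | trivial | ring)
  · simp only [asg_rf_two, asgPos, aspRow, aspStep, Prod.ext_iff]
    push_cast
    constructor <;> (first | trivial | ring)
  · have e : Real.sqrt 2 * (1 / Real.sqrt 2 * δ * (j : ℝ)) = δ * (j : ℝ) := by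
      rw [← mul_assoc, ← mul_assoc, hs, one_mul]
    simp only [asg_rf_three, asgPos, aspRow, aspStep, Prod.ext_iff, e]
    push_cast
    constructor <;> (first | trivial | ring)

/-- a cell is a closed sup-ball up to a null set -/
theorem asg_cell_ae (δ : ℝ) (u : AspG) : aspCell δ u =ᵐ[volume] Metric.closedBall (asgPos δ u) (δ / 2) := by
  have e : Metric.closedBall (asgPos δ u) (δ / 2)
      = Set.Icc (δ * ((u.1 : ℝ) - 1 / 2)) (δ * ((u.1 : ℝ) + 1 / 2)) ×ˢ Set.Icc (δ * ((u.2 : ℝ) - 1 / 2)) (δ * ((u.2 : ℝ) + 1 / 2)) := by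
    unfold asgPos
    rw [← closedBall_prod_same, Real.closedBall_eq_Icc, Real.closedBall_eq_Icc]
    congr 2 <;> ring
  rw [e]
  unfold aspCell
  rw [Measure.volume_eq_prod]
  exact Measure.set_prod_ae_eq Ioc_ae_eq_Icc Ioc_ae_eq_Icc

theorem asg_rf_latW (i : Fin 4) (δ : ℝ) (f : ℝ × ℝ → ℝ) (j : ℤ) (u : AspG) :
    aspWt δ (fun z => f (asgRf i (aspStep i * δ * (j : ℝ)) z)) u = aspWt δ f (aspRow i j u) := by
  unfold aspWt
  rw [setIntegral_congr_set (asg_cell_ae δ u), setIntegral_congr_set (asg_cell_ae δ (aspRow i j u)),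
    ← (asg_rf_mp i (aspStep i * δ * (j : ℝ))).setIntegral_preimage_emb (asg_rf_emb i _) f
    (Metric.closedBall (asgPos δ (aspRow i j u)) (δ / 2))]
  congr 2
  ext z
  rw [Set.mem_preimage, Metric.mem_closedBall, Metric.mem_closedBall, asg_rf_pos, asg_rf_dist]

theorem asg_W_refl {δ : ℝ} (hδ : 0 < δ) {f : ℝ × ℝ → ℝ} (hf : PcvT f) (i : Fin 4) (j : ℤ) :
    aspMap (aspRow i j) (aspW δ f) = aspW δ (fun z => f (asgRf i (aspStep i * δ * (j : ℝ)) z)) := by
  ext u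
  have hinj : Function.Injective (aspRow i j) := (Function.LeftInverse.injective (asg_row_invol i j))
  have h1 : aspMap (aspRow i j) (aspW δ f) (aspRow i j (aspRow i j u)) = aspW δ f (aspRow i j u) :=
    Finsupp.mapDomain_apply hinj _ _
  rw [asg_row_invol] at h1
  rw [h1, asg_W_apply hδ hf, asg_W_apply hδ (asg_rf_test hf _ _), asg_rf_latW]

/-- second derivative of `t ↦ g (a - t)` -/
theorem asg_d2_sub (g : ℝ → ℝ) (a x : ℝ) :
    deriv (fun s => deriv (fun t => g (a - t)) s) x = deriv (fun s => deriv g s) (a - x) := by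
  have h2 : (fun s => deriv (fun t => g (a - t)) s) = fun s => - deriv g (a - s) :=
    funext fun s => deriv_comp_const_sub g a s
  rw [h2]
  have h3 := deriv_comp_const_sub (fun s => - deriv g s) a x
  rw [h3]
  simp [deriv.fun_neg]

/-- second derivative of `t ↦ g (t + a)` -/
theorem asg_d2_add (g : ℝ → ℝ) (a x : ℝ) :
    deriv (fun s => deriv (fun t => g (t + a)) s) x = deriv (fun s => deriv g s) (x + a) := by
  have h2 : (fun s => deriv (fun t => g (t + a)) s) = fun s => deriv g (s + a) :=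
    funext fun s => deriv_comp_add_const g a s
  rw [h2]
  exact deriv_comp_add_const (fun s => deriv g s) a x

/-- the Laplacian commutes with the reflections -/
theorem asg_lap_refl (i : Fin 4) (y : ℝ) (φ : ℝ × ℝ → ℝ) (z : ℝ × ℝ) :
    lap2 (fun w => φ (asgRf i y w)) z = lap2 φ (asgRf i y z) := by
  revert i
  refine asg_fin4 ?_ ?_ ?_ ?_
  · simp only [lap2, asg_rf_zero]
    rw [asg_d2_sub (fun t => φ (z.1, t))]
  · simp only [lap2, asg_rf_one]
    rw [asg_d2_add (fun t => φ (z.2 + -(Real.sqrt 2 * y), t)), asg_d2_add (fun t => φ (t, z.1 + Real.sqrt 2 * y)), add_comm]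
  · simp only [lap2, asg_rf_two]
    rw [asg_d2_sub (fun t => φ (t, z.2))]
  · simp only [lap2, asg_rf_three]
    rw [asg_d2_sub (fun t => φ (-(Real.sqrt 2 * y) - z.2, t)), asg_d2_sub (fun t => φ (t, -(Real.sqrt 2 * y) - z.1)), add_comm]

theorem asg_rf_smooth {φ : ℝ × ℝ → ℝ} (h : ContDiff ℝ ((⊤ : ℕ∞) : WithTop ℕ∞) φ) (i : Fin 4) (y : ℝ) :
    ContDiff ℝ ((⊤ : ℕ∞) : WithTop ℕ∞) (fun z => φ (asgRf i y z)) := h.comp (asg_rf_contDiff i y)

theorem asg_rf_compact {φ : ℝ × ℝ → ℝ} (h : HasCompactSupport φ) (i : Fin 4) (y : ℝ) :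
    HasCompactSupport (fun z => φ (asgRf i y z)) := h.comp_homeomorph (asgRfH i y)

/-- the reflected Laplacian is a Laplacian: continuous, compactly supported, of integral zero -/
theorem asg_rf_lap {φ : ℝ × ℝ → ℝ} (h : ContDiff ℝ ((⊤ : ℕ∞) : WithTop ℕ∞) φ) (hc : HasCompactSupport φ) (i : Fin 4) (y : ℝ) :
    PcvT (fun z => lap2 φ (asgRf i y z)) ∧ ∫ z, lap2 φ (asgRf i y z) = 0 := by
  have e : (fun z => lap2 φ (asgRf i y z)) = lap2 (fun w => φ (asgRf i y w)) := by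
    funext z
    exact (asg_lap_refl i y φ z).symm
  obtain ⟨a1, a2, a3⟩ := pcv_lap_test (asg_rf_smooth h i y) (asg_rf_compact hc i y)
  rw [e]
  exact ⟨⟨a1.continuous, a2⟩, a3⟩

/-- the normal coordinate of the reflected point -/
theorem asg_rf_nor (i : Fin 4) (y : ℝ) (z : ℝ × ℝ) : aspNorE i (asgRf i y z) = 2 * y - aspNorE i z := by
  have h2 : Real.sqrt 2 ≠ 0 := by positivity
  have hs : Real.sqrt 2 * Real.sqrt 2 = 2 := Real.mul_self_sqrt (by norm_num)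
  revert i
  refine asg_fin4 ?_ ?_ ?_ ?_
  · simp only [asg_rf_zero, aspNorE]
  · simp only [asg_rf_one, aspNorE]
    field_simp
    nlinarith
  · simp only [asg_rf_two, aspNorE]
    ring
  · simp only [asg_rf_three, aspNorE]
    field_simp
    nlinarith

/-- the error term of `asg_RN` -/
theorem asg_RN_err {a : AspG → ℝ} (h : AspIn a) (i : Fin 4) {φ : ℝ × ℝ → ℝ} (hφ : ContDiff ℝ ((⊤ : ℕ∞) : WithTop ℕ∞) φ)
    (hc : HasCompactSupport φ) (y0 : ℝ) :
    ∃ C : ℝ, 0 ≤ C ∧ ∀ δ : ℝ, 0 < δ → δ ≤ 1 → ∀ y : ℝ, |y - y0| ≤ 1 →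
      |aspGam a (aspW δ (fun z => lap2 φ (asgRf i y z) - lap2 φ (asgRf i y0 z))) (aspW δ (lap2 φ))| ≤ C * |y - y0| := by
  obtain ⟨s1, s2, s3⟩ := pcv_lap_test hφ hc
  have tF : PcvT (lap2 φ) := ⟨s1.continuous, s2⟩
  obtain ⟨ρ, hρ0, hρ⟩ := tF.box
  obtain ⟨MF, hMF⟩ := tF.cont.bounded_above_of_compact_support tF.comp
  obtain ⟨L, hL⟩ := (s1.of_le (by exact_mod_cast le_top : (1 : WithTop ℕ∞) ≤ _)).lipschitzWith_of_hasCompactSupport s2 one_ne_zero
  obtain ⟨K', hK0, hK⟩ := asg_sm h (ρ + 2 * |y0| + 2)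
  have hMF0 : 0 ≤ MF := (norm_nonneg _).trans (hMF 0)
  refine ⟨K' * (2 * L) * MF, by positivity, fun δ hδ hδ1 y hy => ?_⟩
  set D : ℝ × ℝ → ℝ := fun z => lap2 φ (asgRf i y z) - lap2 φ (asgRf i y0 z) with hD
  have t1 := asg_rf_lap hφ hc i y
  have t0 := asg_rf_lap hφ hc i y0
  have tD : PcvT D := PcvT.sub t1.1 t0.1
  have iD : ∫ z, D z = 0 := by
    rw [hD, integral_sub t1.1.integrable t0.1.integrable, t1.2, t0.2, sub_zero]
  have bD : ∀ z, |D z| ≤ 2 * L * |y - y0| := by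
    intro z
    have := hL.dist_le_mul (asgRf i y z) (asgRf i y0 z)
    rw [Real.dist_eq] at this
    refine this.trans ?_
    calc (L : ℝ) * dist (asgRf i y z) (asgRf i y0 z) ≤ L * (2 * |y - y0|) :=
          mul_le_mul_of_nonneg_left (asg_rf_move i y y0 z) L.2
      _ = 2 * L * |y - y0| := by ring
  have sD : ∀ z, D z ≠ 0 → |z.1| ≤ ρ + 2 * |y0| + 2 ∧ |z.2| ≤ ρ + 2 * |y0| + 2 := by
    intro z hz
    have hy' : |y| ≤ |y0| + 1 := by
      have := abs_sub_abs_le_abs_sub y y0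
      linarith
    have key : ∀ t : ℝ, |t| ≤ |y0| + 1 → lap2 φ (asgRf i t z) ≠ 0 → |z.1| ≤ ρ + 2 * |y0| + 2 ∧ |z.2| ≤ ρ + 2 * |y0| + 2 := by
      intro t ht h0
      obtain ⟨b1, b2⟩ := hρ _ h0
      obtain ⟨c1, c2⟩ := asg_rf_box i t z b1 b2
      exact ⟨by linarith, by linarith⟩
    by_cases h1 : lap2 φ (asgRf i y z) = 0
    · have h2 : lap2 φ (asgRf i y0 z) ≠ 0 := by
        intro h2
        apply hz
        simp only [hD, h1, h2, sub_zero]
      exact key y0 (by linarith) h2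
    · exact key y hy' h1
  have sF : ∀ z, lap2 φ z ≠ 0 → |z.1| ≤ ρ + 2 * |y0| + 2 ∧ |z.2| ≤ ρ + 2 * |y0| + 2 := by
    intro z hz
    obtain ⟨b1, b2⟩ := hρ z hz
    exact ⟨by linarith [abs_nonneg y0], by linarith [abs_nonneg y0]⟩
  have g1 := hK δ hδ hδ1 D (2 * L * |y - y0|) tD sD iD bD
  have g2 := hK δ hδ hδ1 (lap2 φ) MF tF sF s3 (fun z => by simpa using hMF z)
  have z1 : aspTot (aspW δ D) = 0 := by rw [asg_W_tot hδ tD, iD]
  have z2 : aspTot (aspW δ (lap2 φ)) = 0 := by rw [asg_W_tot hδ tF, s3]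
  have cs := asg_gam_cs h z1 z2
  have p2 := h.psd _ z2
  have hh : aspGam a (aspW δ D) (aspW δ (lap2 φ)) ^ 2 ≤ (K' * (2 * L) * MF * |y - y0|) ^ 2 := by
    calc aspGam a (aspW δ D) (aspW δ (lap2 φ)) ^ 2
        ≤ aspGam a (aspW δ D) (aspW δ D) * aspGam a (aspW δ (lap2 φ)) (aspW δ (lap2 φ)) := cs
      _ ≤ (K' * (2 * L * |y - y0|) ^ 2) * (K' * MF ^ 2) := mul_le_mul g1 g2 p2 (by positivity)
      _ = (K' * (2 * L) * MF * |y - y0|) ^ 2 := by ring
  exact abs_le_of_sq_le_sq hh (by positivity)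

/-- TEX[cor:reflection-null], four frames, both sides, moving rows -/
theorem asg_RN {a : AspG → ℝ} {v : ℝ} (h : AspIn a) (hv : AspPCF (aspGam a) v) : AspRN (aspGam a) := by
  intro i φ y0 m j ⟨hφ, hc⟩ hm hsup hj
  rw [asg_lap_eq]
  obtain ⟨s1, s2, s3⟩ := pcv_lap_test hφ hc
  have tF : PcvT (lap2 φ) := ⟨s1.continuous, s2⟩
  obtain ⟨C, hC0, hC⟩ := asg_RN_err h i hφ hc y0
  -- the main term
  have T1 := hv (fun z => φ (asgRf i y0 z)) (lap2 φ) ⟨asg_rf_smooth hφ i y0, asg_rf_compact hc i y0⟩ ⟨s1, s2⟩ s3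
  rw [asg_lap_eq] at T1
  have e0 : ∫ z, φ (asgRf i y0 z) * lap2 φ z = 0 := by
    have : ∀ z, φ (asgRf i y0 z) * lap2 φ z = 0 := by
      intro z
      by_contra hne
      have h1 : φ (asgRf i y0 z) ≠ 0 := left_ne_zero_of_mul hne
      have h2 : lap2 φ z ≠ 0 := right_ne_zero_of_mul hne
      rcases hsup with hsup | hsup
      · have a1 := hsup _ (subset_tsupport _ h1)
        have a2 := hsup _ (wkg_lap_tsupport φ (subset_tsupport _ h2))
        rw [asg_rf_nor] at a1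
        linarith
      · have a1 := hsup _ (subset_tsupport _ h1)
        have a2 := hsup _ (wkg_lap_tsupport φ (subset_tsupport _ h2))
        rw [asg_rf_nor] at a1
        linarith
    simp only [this, integral_zero]
  rw [e0, mul_zero] at T1
  have e1 : lap2 (fun w => φ (asgRf i y0 w)) = fun z => lap2 φ (asgRf i y0 z) := funext fun z => asg_lap_refl i y0 φ z
  rw [e1] at T1
  -- the error term
  have T2 : Tendsto (fun δ : ℝ => aspGam a (aspW δ (fun z => lap2 φ (asgRf i (aspStep i * δ * (j δ : ℝ)) z)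
      - lap2 φ (asgRf i y0 z))) (aspW δ (lap2 φ))) (𝓝[>] 0) (𝓝 0) := by
    have hz : Tendsto (fun δ : ℝ => C * |aspStep i * δ * (j δ : ℝ) - y0|) (𝓝[>] 0) (𝓝 0) := by
      have := ((hj.sub_const y0).abs).const_mul C
      simpa using this
    refine squeeze_zero_norm' ?_ hz
    have c1 : ∀ᶠ δ : ℝ in 𝓝[>] 0, |aspStep i * δ * (j δ : ℝ) - y0| ≤ 1 := by
      have := (hj.sub_const y0).abs
      rw [sub_self, abs_zero] at this
      exact (this.eventually (Iio_mem_nhds one_pos)).mono fun δ hδ => le_of_lt hδ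
    have c2 : ∀ᶠ δ : ℝ in 𝓝[>] 0, δ ≤ 1 := by
      filter_upwards [Ioo_mem_nhdsGT (one_pos : (0 : ℝ) < 1)] with δ hδ using hδ.2.le
    filter_upwards [c1, c2, self_mem_nhdsWithin] with δ h1 h2 h3
    rw [Real.norm_eq_abs]
    exact hC δ h3 h2 _ h1
  have T := T1.add T2
  rw [add_zero] at T
  refine T.congr' ?_
  filter_upwards [self_mem_nhdsWithin] with δ hδ
  have hδ' : 0 < δ := hδ
  rw [asg_W_refl hδ' tF, asg_W_sub hδ' (asg_rf_lap hφ hc i _).1 (asg_rf_lap hφ hc i y0).1, sub_eq_add_neg, asg_gam_add_left,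
    ← neg_one_smul ℝ (aspW δ fun z => lap2 φ (asgRf i y0 z)), asg_gam_smul_left]
  ring

/-- **B4** -/
theorem asg_main {a : AspG → ℝ} {Cf : Measure (ℝ × ℝ)} {K c : ℝ} (h : AspIn a) (hs : AspSpec a Cf K) (hc : 0 ≤ c)
    (hp : AspPS Cf c) : 0 < c ∧ AspPCF (aspGam a) ((2 * Real.pi) ^ 2 * c) ∧ AspRN (aspGam a) :=
  ⟨asg_pos h hs hc hp, asg_PC h hs hp, asg_RN h (asg_PC h hs hp)⟩

end Claimed.Agent.R292
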