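import Claimed.Agent.R292.Spec.Rp212
import Claimed.Agent.R292.Defs.SPECI
import Claimed.Agent.R292.Spec.Cov86
import Claimed.Agent.R292.Model.M3x201
import Claimed.Agent.R292.Rsw.MomSmear131

/-!
# Row 292, Spec/Fv212 : THE FOUR FINITE-VOLUME FACTS OF BOX B6      (helper212; prefix `rp2`)

Symmetry under the swap and the axial flip of `MdlS`, reflection positivity across the axial row and the antidiagonal row, for BOTH exhaustions:
* `mdlE c (mdlBox R) mdlRef`      (`rp2_box_symA`, `rp2_box_symB`, `rp2_box_rpA`, `rp2_box_rpD`)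
* `mdlFz c (rswBox 0 n)`      (`rp2_fz_symA`, `rp2_fz_symB`, `rp2_fz_rpA`, `rp2_fz_rpD`), the sequence which defines `mdlPln`.
-/

set_option autoImplicit false

namespace Claimed.Agent.R292

open Claims Claims.C0468

/-! ## 1. Transport of `mdlEQ` under an involutive symmetry of the lattice -/

open Classical in
theorem rp2_transport {θ L θP : MdlS → MdlS} (hinv : ∀ u, θ (θ u) = u) (hadd : ∀ u d, θ (u + d) = θ u + L d)
    (hdirs : ∀ d ∈ mdlDirs, L d ∈ mdlDirs) (hPinv : ∀ p, θP (θP p) = p)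
    (htyp : ∀ (h : MdlS → ℤ) (p : MdlS), MdlC (fun u => h (θ u)) p ↔ MdlC h (θP p))
    (c : ℝ) {Q A : Finset MdlS} (hA : ∀ u, θ u ∈ A ↔ u ∈ A) (hQ : ∀ p, θP p ∈ Q ↔ p ∈ Q)
    {b : MdlS → ℤ} (hb : ∀ u, b (θ u) = b u) (G : (MdlS → ℤ) → ℝ) :
    mdlEQ c Q A b (fun h => G (fun u => h (θ u))) = mdlEQ c Q A b G := by
  have hmem : ∀ g ∈ mdlCfg A b, (fun u => g (θ u)) ∈ mdlCfg A b := by
    intro g hg
    obtain ⟨g0, g1⟩ := rp2_adm_of_mem hg
    refine rp2_mem_of_adm hg ⟨fun u hu => ?_, fun u hu d hd => ?_⟩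
    · show g (θ u) = b u
      rw [g0 (θ u) (fun h => hu ((hA u).1 h)), hb]
    · show |g (θ (u + d)) - g (θ u)| = 1
      rw [hadd]
      exact g1 (θ u) ((hA u).2 hu) (L d) (hdirs d hd)
  have hwt : ∀ h : MdlS → ℤ, mdlWt c Q (fun u => h (θ u)) = mdlWt c Q h := by
    intro h
    rw [rp2_wt_prod, rp2_wt_prod]
    refine Finset.prod_nbij' θP θP (fun p hp => (hQ p).2 hp) (fun p hp => (hQ p).2 hp) (fun p _ => hPinv p) (fun p _ => hPinv p) ?_
    intro p _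
    simp only [htyp h p]
  unfold mdlEQ
  congr 1
  refine Finset.sum_nbij' (fun h u => h (θ u)) (fun h u => h (θ u)) hmem hmem ?_ ?_ ?_
  · intro h _
    funext u
    simp only [hinv]
  · intro h _
    funext u
    simp only [hinv]
  · intro h _
    rw [hwt]

/-- the swap of `MdlS` -/
def rp2Sw (u : MdlS) : MdlS := (u.2, u.1)

theorem rp2_sw_eqns_cite : True := by
  have := @rp2Sw.eq_1
  trivial

theorem rp2_sw_typ (h : MdlS → ℤ) (p : MdlS) : MdlC (fun u => h (rp2Sw u)) p ↔ MdlC h (rp2Sw p) := by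
  obtain ⟨a, b⟩ := p
  unfold MdlC MdlD1 MdlD2 rp2Sw
  simp only [Prod.mk_add_mk, add_zero]
  constructor
  · rintro ⟨h1, h2⟩; exact ⟨h1, h2.symm⟩
  · rintro ⟨h1, h2⟩; exact ⟨h1, h2.symm⟩

theorem rp2_sw_dirs : ∀ d ∈ mdlDirs, rp2Sw d ∈ mdlDirs := by
  intro d hd
  simp only [mdlDirs, Finset.mem_insert, Finset.mem_singleton] at hd ⊢
  rcases hd with rfl | rfl | rfl | rfl <;> simp [rp2Sw]

/-- invariance under the swap -/
theorem rp2_swap (c : ℝ) {Q A : Finset MdlS} (hA : ∀ u, rp2Sw u ∈ A ↔ u ∈ A) (hQ : ∀ p, rp2Sw p ∈ Q ↔ p ∈ Q)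
    {b : MdlS → ℤ} (hb : ∀ u, b (rp2Sw u) = b u) (G : (MdlS → ℤ) → ℝ) :
    mdlEQ c Q A b (fun h => G (fun u => h (rp2Sw u))) = mdlEQ c Q A b G :=
  rp2_transport (L := rp2Sw) (fun _ => rfl) (fun _ _ => rfl) rp2_sw_dirs (fun _ => rfl) rp2_sw_typ c hA hQ hb G

/-- invariance under the axial flip -/
theorem rp2_flip (c : ℝ) {Q A : Finset MdlS} (hA : ∀ u, rp2Ax u ∈ A ↔ u ∈ A) (hQ : ∀ p : MdlS, (p.1, -p.2 - 1) ∈ Q ↔ p ∈ Q)
    {b : MdlS → ℤ} (hb : ∀ u, b (rp2Ax u) = b u) (G : (MdlS → ℤ) → ℝ) :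
    mdlEQ c Q A b (fun h => G (fun u => h (rp2Ax u))) = mdlEQ c Q A b G :=
  rp2_transport rp2_ax_lat.inv rp2_ax_lat.add rp2_ax_lat.dirs rp2_ax_plq.inv rp2_ax_plq.typ c hA hQ hb G

/-- invariance under the diagonal flip -/
theorem rp2_dflip (c : ℝ) {Q A : Finset MdlS} (hA : ∀ u, rp2Dg u ∈ A ↔ u ∈ A) (hQ : ∀ p : MdlS, (-p.2 - 1, -p.1 - 1) ∈ Q ↔ p ∈ Q)
    {b : MdlS → ℤ} (hb : ∀ u, b (rp2Dg u) = b u) (G : (MdlS → ℤ) → ℝ) :
    mdlEQ c Q A b (fun h => G (fun u => h (rp2Dg u))) = mdlEQ c Q A b G :=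
  rp2_transport rp2_dg_lat.inv rp2_dg_lat.add rp2_dg_lat.dirs rp2_dg_plq.inv rp2_dg_plq.typ c hA hQ hb G

/-! ## 2. The reference height -/

theorem rp2_ref_sw (u : MdlS) : mdlRef (rp2Sw u) = mdlRef u := by
  unfold mdlRef rp2Sw
  simp only
  omega

theorem rp2_ref_ax (u : MdlS) : mdlRef (rp2Ax u) = mdlRef u := by
  unfold mdlRef rp2Ax
  simp only
  omega

theorem rp2_ref_dg (u : MdlS) : mdlRef (rp2Dg u) = mdlRef u := by
  unfold mdlRef rp2Dg
  simp only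
  omega

/-! ## 3. The turned boxes `mdlBox R` -/

theorem rp2_mem_box (R : ℕ) (u : MdlS) : u ∈ mdlBox R ↔ (-(R : ℤ) ≤ u.1 ∧ u.1 ≤ R) ∧ (-(R : ℤ) ≤ u.2 ∧ u.2 ≤ R) := by
  unfold mdlBox
  rw [Finset.mem_product, Finset.mem_Icc, Finset.mem_Icc]

theorem rp2_mem_pl (A : Finset MdlS) (p : MdlS) :
    p ∈ mdlPl A ↔ p ∈ A ∨ p + (1, 0) ∈ A ∨ p + (0, 1) ∈ A ∨ p + (1, 1) ∈ A := by
  unfold mdlPl
  simp only [Finset.mem_biUnion, Finset.mem_insert, Finset.mem_singleton]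
  constructor
  · rintro ⟨u, hu, rfl | rfl | rfl | rfl⟩
    · exact Or.inl hu
    · exact Or.inr (Or.inl (by simpa using hu))
    · exact Or.inr (Or.inr (Or.inl (by simpa using hu)))
    · exact Or.inr (Or.inr (Or.inr (by simpa using hu)))
  · rintro (h | h | h | h)
    · exact ⟨_, h, Or.inl rfl⟩
    · exact ⟨_, h, Or.inr (Or.inl (by simp))⟩
    · exact ⟨_, h, Or.inr (Or.inr (Or.inl (by simp)))⟩
    · exact ⟨_, h, Or.inr (Or.inr (Or.inr (by simp)))⟩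

theorem rp2_mem_plbox (R : ℕ) (p : MdlS) :
    p ∈ mdlPl (mdlBox R) ↔ (-(R : ℤ) - 1 ≤ p.1 ∧ p.1 ≤ R) ∧ (-(R : ℤ) - 1 ≤ p.2 ∧ p.2 ≤ R) := by
  rw [rp2_mem_pl]
  simp only [rp2_mem_box, Prod.fst_add, Prod.snd_add]
  omega

theorem rp2_box_symA (c : ℝ) (R : ℕ) (G : (MdlS → ℤ) → ℝ) :
    mdlE c (mdlBox R) mdlRef (fun h => G (fun u => h (u.2, u.1))) = mdlE c (mdlBox R) mdlRef G := by
  unfold mdlE
  refine rp2_swap c (fun u => ?_) (fun p => ?_) rp2_ref_sw G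
  · simp only [rp2_mem_box, rp2Sw]; omega
  · simp only [rp2_mem_plbox, rp2Sw]; omega

theorem rp2_box_symB (c : ℝ) (R : ℕ) (G : (MdlS → ℤ) → ℝ) :
    mdlE c (mdlBox R) mdlRef (fun h => G (fun u => h (u.1, -u.2))) = mdlE c (mdlBox R) mdlRef G := by
  unfold mdlE
  refine rp2_flip c (fun u => ?_) (fun p => ?_) rp2_ref_ax G
  · simp only [rp2_mem_box, rp2Ax]; omega
  · simp only [rp2_mem_plbox]; omega

theorem rp2_box_symD (c : ℝ) (R : ℕ) (G : (MdlS → ℤ) → ℝ) :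
    mdlE c (mdlBox R) mdlRef (fun h => G (fun u => h (-u.2, -u.1))) = mdlE c (mdlBox R) mdlRef G := by
  unfold mdlE
  refine rp2_dflip c (fun u => ?_) (fun p => ?_) rp2_ref_dg G
  · simp only [rp2_mem_box, rp2Dg]; omega
  · simp only [rp2_mem_plbox]; omega

theorem rp2_box_rpA {c : ℝ} (hc : 0 ≤ c) (R : ℕ) (F : (MdlS → ℤ) → ℝ)
    (hF : ∀ h h' : MdlS → ℤ, (∀ u : MdlS, 0 ≤ u.2 → h u = h' u) → F h = F h') :
    0 ≤ mdlE c (mdlBox R) mdlRef (fun h => F (fun u => h (u.1, -u.2)) * F h) := by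
  unfold mdlE
  refine rp2_axial hc (fun u => ?_) (fun p => ?_) rp2_ref_ax F hF
  · simp only [rp2_mem_box, rp2Ax]; omega
  · simp only [rp2_mem_plbox]; omega

theorem rp2_box_rpD {c : ℝ} (hc : 1 ≤ c) (R : ℕ) (F : (MdlS → ℤ) → ℝ)
    (hF : ∀ h h' : MdlS → ℤ, (∀ u : MdlS, 0 ≤ u.1 + u.2 → h u = h' u) → F h = F h') :
    0 ≤ mdlE c (mdlBox R) mdlRef (fun h => F (fun u => h (-u.2, -u.1)) * F h) := by
  unfold mdlE
  refine rp2_diag hc (fun u => ?_) (fun p => ?_) rp2_ref_dg F hF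
  · simp only [rp2_mem_box, rp2Dg]; omega
  · simp only [rp2_mem_plbox]; omega

/-! ## 4. The frozen law in the straight boxes of faces `rswBox 0 n` -/

theorem rp2_mem_rbox (n : ℕ) (f : ℤ × ℤ) : f ∈ rswBox 0 n ↔ (-(n : ℤ) ≤ f.1 ∧ f.1 < n) ∧ (-(n : ℤ) ≤ f.2 ∧ f.2 < n) := by
  unfold rswBox
  rw [Finset.mem_product, Finset.mem_Ico, Finset.mem_Ico]
  simp

open Classical in
theorem rp2_mem_dom (n : ℕ) (u : MdlS) :
    u ∈ mdlDom (rswBox 0 n) ↔ (-(2 * n : ℤ) < u.1 - u.2 ∧ u.1 - u.2 < 2 * n) ∧ (-(2 * n : ℤ) < u.1 + u.2 ∧ u.1 + u.2 < 2 * n) := by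
  unfold mdlDom
  rw [Finset.mem_union, Finset.mem_image, Finset.mem_image]
  constructor
  · rintro (⟨v, hv, rfl⟩ | ⟨f, hf, rfl⟩)
    · rw [Finset.mem_filter] at hv
      have h2 := hv.2
      unfold OnPolygon at h2
      rw [not_not] at h2
      simp only [rp2_mem_rbox] at h2
      simp only [mdlV]
      omega
    · rw [rp2_mem_rbox] at hf
      simp only [mdlF]
      omega
  · intro hu
    obtain ⟨a, b⟩ := u
    simp only at hu
    rcases Int.even_or_odd' (a + b) with ⟨k, hk | hk⟩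
    · left
      refine ⟨(a - k, k), ?_, ?_⟩
      · rw [Finset.mem_filter]
        refine ⟨?_, ?_⟩
        · unfold cornersOf
          rw [Finset.mem_biUnion]
          refine ⟨(a - k, k), ?_, by simp⟩
          rw [rp2_mem_rbox]
          simp only
          omega
        · unfold OnPolygon
          rw [not_not]
          simp only [rp2_mem_rbox]
          omega
      · simp only [mdlV, Prod.mk.injEq]
        omega
    · right
      refine ⟨(a - k - 1, k), ?_, ?_⟩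
      · rw [rp2_mem_rbox]
        simp only
        omega
      · simp only [mdlF, Prod.mk.injEq]
        omega

theorem rp2_mem_Q (n : ℕ) (p : MdlS) :
    p ∈ mdlQ (rswBox 0 n) ↔ (-(2 * n : ℤ) < p.1 - p.2 ∧ p.1 - p.2 < 2 * n) ∧ (-(2 * n : ℤ) < p.1 + p.2 + 1 ∧ p.1 + p.2 + 1 < 2 * n) := by
  unfold mdlQ
  rw [Finset.mem_union, Finset.mem_image, Finset.mem_image]
  constructor
  · rintro (⟨f, hf, rfl⟩ | ⟨f, hf, rfl⟩)
    · rw [Finset.mem_filter] at hf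
      simp only [rp2_mem_rbox] at hf
      simp only [mdlF]
      omega
    · rw [Finset.mem_filter] at hf
      simp only [rp2_mem_rbox] at hf
      simp only [mdlV]
      omega
  · intro hu
    obtain ⟨a, b⟩ := p
    simp only at hu
    rcases Int.even_or_odd' (a + b) with ⟨k, hk | hk⟩
    · right
      refine ⟨(a - k, k), ?_, ?_⟩
      · rw [Finset.mem_filter]
        simp only [rp2_mem_rbox]
        omega
      · simp only [mdlV, Prod.mk.injEq]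
        omega
    · left
      refine ⟨(a - k - 1, k), ?_, ?_⟩
      · rw [Finset.mem_filter]
        simp only [rp2_mem_rbox]
        omega
      · simp only [mdlF, Prod.mk.injEq]
        omega

theorem rp2_fz_symA (c : ℝ) (n : ℕ) (G : (MdlS → ℤ) → ℝ) :
    mdlFz c (rswBox 0 n) (fun h => G (fun u => h (u.2, u.1))) = mdlFz c (rswBox 0 n) G := by
  unfold mdlFz
  refine rp2_swap c (fun u => ?_) (fun p => ?_) rp2_ref_sw G
  · simp only [rp2_mem_dom, rp2Sw]; omega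
  · simp only [rp2_mem_Q, rp2Sw]; omega

theorem rp2_fz_symB (c : ℝ) (n : ℕ) (G : (MdlS → ℤ) → ℝ) :
    mdlFz c (rswBox 0 n) (fun h => G (fun u => h (u.1, -u.2))) = mdlFz c (rswBox 0 n) G := by
  unfold mdlFz
  refine rp2_flip c (fun u => ?_) (fun p => ?_) rp2_ref_ax G
  · simp only [rp2_mem_dom, rp2Ax]; omega
  · simp only [rp2_mem_Q]; omega

theorem rp2_fz_symD (c : ℝ) (n : ℕ) (G : (MdlS → ℤ) → ℝ) :
    mdlFz c (rswBox 0 n) (fun h => G (fun u => h (-u.2, -u.1))) = mdlFz c (rswBox 0 n) G := by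
  unfold mdlFz
  refine rp2_dflip c (fun u => ?_) (fun p => ?_) rp2_ref_dg G
  · simp only [rp2_mem_dom, rp2Dg]; omega
  · simp only [rp2_mem_Q]; omega

theorem rp2_fz_rpA {c : ℝ} (hc : 0 ≤ c) (n : ℕ) (F : (MdlS → ℤ) → ℝ)
    (hF : ∀ h h' : MdlS → ℤ, (∀ u : MdlS, 0 ≤ u.2 → h u = h' u) → F h = F h') :
    0 ≤ mdlFz c (rswBox 0 n) (fun h => F (fun u => h (u.1, -u.2)) * F h) := by
  unfold mdlFz
  refine rp2_axial hc (fun u => ?_) (fun p => ?_) rp2_ref_ax F hF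
  · simp only [rp2_mem_dom, rp2Ax]; omega
  · simp only [rp2_mem_Q]; omega

theorem rp2_fz_rpD {c : ℝ} (hc : 1 ≤ c) (n : ℕ) (F : (MdlS → ℤ) → ℝ)
    (hF : ∀ h h' : MdlS → ℤ, (∀ u : MdlS, 0 ≤ u.1 + u.2 → h u = h' u) → F h = F h') :
    0 ≤ mdlFz c (rswBox 0 n) (fun h => F (fun u => h (-u.2, -u.1)) * F h) := by
  unfold mdlFz
  refine rp2_diag hc (fun u => ?_) (fun p => ?_) rp2_ref_dg F hF
  · simp only [rp2_mem_dom, rp2Dg]; omega
  · simp only [rp2_mem_Q]; omega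

/-! ## 5. (P5) NONDEGENERACY: the variance lower bound from the protected switch      (212 = this block; 211 = the law side, `Rp2Switch`)

Primal boxes: `v ∈ mdlBox R` means `|v.1| ≤ R ∧ |v.2| ≤ R` for the PRIMAL vertex `v` (`AspG = MdlS = ℤ × ℤ`). -/

/-- **CONTRACT 212 ← 211** (twin of R291 `exit_dis_switch`): PROTECTED SWITCH, height only form, for the flat law in `rswBox 0 n`.
`M h h'` = total augmented weight of the configurations over `h` in the good event (two nested circuits of opposite colours in the collar) which the flip of the fair colour sends over `h'`.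
`M` is symmetric, sub-stochastic w.r.t. the height weight, carried by pairs which agree on the primal vertices off `mdlBox (C1 R)` and differ by ONE nonzero constant on `mdlBox R`, of total mass `≥ c2 Z`. -/
def Rp2Switch (c : ℝ) : Prop :=
  ∃ (c2 : ℝ) (R0 C0 C1 : ℕ), 0 < c2 ∧ ∀ n R : ℕ, R0 ≤ R → C0 * R ≤ n →
    ∃ M : (MdlS → ℤ) → (MdlS → ℤ) → ℝ, (∀ h h', 0 ≤ M h h') ∧ (∀ h h', M h h' = M h' h) ∧
      (∀ h ∈ mdlCfg (mdlDom (rswBox 0 n)) mdlRef, ∑ h' ∈ mdlCfg (mdlDom (rswBox 0 n)) mdlRef, M h h' ≤ mdlWt c (mdlQ (rswBox 0 n)) h) ∧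
      (∀ h h', M h h' ≠ 0 → (∀ v : AspG, v ∉ mdlBox (C1 * R) → h' (mdlV v) = h (mdlV v)) ∧
        ∃ k : ℤ, k ≠ 0 ∧ ∀ v ∈ mdlBox R, h' (mdlV v) = h (mdlV v) + k) ∧
      c2 * mdlZQ c (mdlQ (rswBox 0 n)) (mdlDom (rswBox 0 n)) mdlRef
        ≤ ∑ h ∈ mdlCfg (mdlDom (rswBox 0 n)) mdlRef, ∑ h' ∈ mdlCfg (mdlDom (rswBox 0 n)) mdlRef, M h h'

/-- twin of R291 `exit_mom_nondeg` in MODEL's vocabulary -/
def Rp2Nd (c : ℝ) : Prop :=
  ∃ (κ : ℝ) (R0 C0 C1 : ℕ), 0 < κ ∧ ∀ (n R : ℕ) (w : AspG →₀ ℝ), R0 ≤ R → C0 * R ≤ n →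
    (∀ u ∈ mdlBox (C1 * R), u ∉ mdlBox R → w u = 0) →
    κ * (∑ u ∈ mdlBox R, w u) ^ 2 ≤ mdlFz c (rswBox 0 n) (fun h => asiArr w h ^ 2)

theorem rp2_nd_eqns_cite : True := by
  have := @Rp2Switch.eq_1
  have := @Rp2Nd.eq_1
  trivial

theorem rp2_ref_ht : MdlHt mdlRef := by
  refine ⟨fun u d hd => ?_, fun u => ?_⟩
  · simp only [mdlDirs, Finset.mem_insert, Finset.mem_singleton] at hd
    unfold mdlRef
    rcases hd with rfl | rfl | rfl | rfl <;> simp only [Prod.fst_add, Prod.snd_add] <;> rw [abs_eq (by norm_num)] <;> omega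
  · unfold mdlRef
    omega

/-- the switch moves the statistic by `e / 2` times the mass of the inner box -/
theorem rp2_nd_diff {R R' : ℕ} {w : AspG →₀ ℝ} (hw : ∀ u ∈ mdlBox R', u ∉ mdlBox R → w u = 0) {h h' : MdlS → ℤ} {e : ℤ}
    (hoff : ∀ u : AspG, u ∉ mdlBox R' → h' (mdlV u) = h (mdlV u)) (hin : ∀ u ∈ mdlBox R, h' (mdlV u) = h (mdlV u) + e) :
    asiArr w h' - asiArr w h = (e : ℝ) / 2 * ∑ u ∈ mdlBox R, w u := by
  classical
  unfold asiArr Finsupp.sum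
  rw [← Finset.sum_sub_distrib]
  have e1 : ∀ u ∈ w.support, w u * ((h' (mdlV u) : ℝ) / 2) - w u * ((h (mdlV u) : ℝ) / 2) = if u ∈ mdlBox R then (e : ℝ) / 2 * w u else 0 := by
    intro u _
    by_cases h1 : u ∈ mdlBox R
    · rw [if_pos h1, hin u h1]; push_cast; ring
    · rw [if_neg h1]
      by_cases h3 : u ∈ mdlBox R'
      · rw [hw u h3 h1]; ring
      · rw [hoff u h3]; ring
  rw [Finset.sum_congr rfl e1, ← Finset.sum_filter, Finset.mul_sum]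
  refine Finset.sum_subset (fun u hu => (Finset.mem_filter.1 hu).2) (fun u hu hn => ?_)
  have : u ∉ w.support := fun hs => hn (Finset.mem_filter.2 ⟨hs, hu⟩)
  rw [Finsupp.notMem_support_iff.1 this, mul_zero]

/-- **the variance lower bound** (port of R291 `mom_nd_main`) -/
theorem rp2_nd_core {c : ℝ} (hc : 0 < c) (H : Rp2Switch c) : Rp2Nd c := by
  obtain ⟨c2, R0, C0, C1, hc2, H⟩ := H
  refine ⟨c2 / 16, R0, C0, C1, by positivity, ?_⟩
  intro n R w hR hn hw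
  obtain ⟨M, hM0, hMs, hMm, hMc, hMt⟩ := H n R hR hn
  set m := ∑ u ∈ mdlBox R, w u with hm
  set Ω := mdlCfg (mdlDom (rswBox 0 n)) mdlRef with hΩ
  set Q := mdlQ (rswBox 0 n) with hQ
  have hZ : 0 < mdlZQ c Q (mdlDom (rswBox 0 n)) mdlRef := mdl201_ZQ_pos hc _ _ rp2_ref_ht
  have hpt : ∀ h h', M h h' * (m ^ 2 / 4) ≤ M h h' * (2 * (asiArr w h) ^ 2 + 2 * (asiArr w h') ^ 2) := by
    intro h h'
    by_cases h0 : M h h' = 0
    · rw [h0, zero_mul, zero_mul]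
    · obtain ⟨hoff, k, hk, hcc⟩ := hMc h h' h0
      have hk1 : (1 : ℝ) ≤ (k : ℝ) ^ 2 := by
        have h2 : (1 : ℤ) ≤ k ^ 2 := by
          have : 0 < k ^ 2 := by positivity
          omega
        exact_mod_cast h2
      have hd : m ^ 2 / 4 ≤ (asiArr w h' - asiArr w h) ^ 2 := by
        rw [rp2_nd_diff hw hoff hcc, mul_pow, div_pow]
        nlinarith [sq_nonneg m]
      apply mul_le_mul_of_nonneg_left _ (hM0 h h')
      nlinarith [sq_nonneg (asiArr w h' + asiArr w h)]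
  have hs1 : ∑ h ∈ Ω, ∑ h' ∈ Ω, M h h' * (asiArr w h) ^ 2 ≤ ∑ h ∈ Ω, mdlWt c Q h * (asiArr w h) ^ 2 := by
    refine Finset.sum_le_sum fun h hh => ?_
    rw [← Finset.sum_mul]
    exact mul_le_mul_of_nonneg_right (hMm h hh) (sq_nonneg _)
  have hs2 : ∑ h ∈ Ω, ∑ h' ∈ Ω, M h h' * (asiArr w h') ^ 2 = ∑ h ∈ Ω, ∑ h' ∈ Ω, M h h' * (asiArr w h) ^ 2 := by
    rw [Finset.sum_comm]
    exact Finset.sum_congr rfl fun h _ => Finset.sum_congr rfl fun h' _ => by rw [hMs]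
  have hs3 : (∑ h ∈ Ω, ∑ h' ∈ Ω, M h h') * (m ^ 2 / 4) ≤ 4 * ∑ h ∈ Ω, mdlWt c Q h * (asiArr w h) ^ 2 := by
    calc (∑ h ∈ Ω, ∑ h' ∈ Ω, M h h') * (m ^ 2 / 4) = ∑ h ∈ Ω, ∑ h' ∈ Ω, M h h' * (m ^ 2 / 4) := by
          rw [Finset.sum_mul]; exact Finset.sum_congr rfl fun h _ => Finset.sum_mul _ _ _
      _ ≤ ∑ h ∈ Ω, ∑ h' ∈ Ω, M h h' * (2 * (asiArr w h) ^ 2 + 2 * (asiArr w h') ^ 2) :=
          Finset.sum_le_sum fun h _ => Finset.sum_le_sum fun h' _ => hpt h h'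
      _ = 2 * ∑ h ∈ Ω, ∑ h' ∈ Ω, M h h' * (asiArr w h) ^ 2 + 2 * ∑ h ∈ Ω, ∑ h' ∈ Ω, M h h' * (asiArr w h') ^ 2 := by
          simp_rw [Finset.mul_sum]
          rw [← Finset.sum_add_distrib]
          refine Finset.sum_congr rfl fun h _ => ?_
          rw [← Finset.sum_add_distrib]
          exact Finset.sum_congr rfl fun h' _ => by ring
      _ ≤ 4 * ∑ h ∈ Ω, mdlWt c Q h * (asiArr w h) ^ 2 := by rw [hs2]; linarith
  unfold mdlFz mdlEQ
  rw [le_div_iff₀ hZ]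
  have h5 : c2 * mdlZQ c Q (mdlDom (rswBox 0 n)) mdlRef * (m ^ 2 / 4) ≤ (∑ h ∈ Ω, ∑ h' ∈ Ω, M h h') * (m ^ 2 / 4) :=
    mul_le_mul_of_nonneg_right hMt (by positivity)
  nlinarith

/-! ## 6. (P5) the glue to `Spec/B6` (port of R291 `pli_nd`) -/

open MeasureTheory Filter Topology Claimed.Agent.R291

/-- the normalised bump in the square of half side `1 / 10` -/
noncomputable def rp2Bump : ℝ × ℝ → ℝ :=
  (⟨1 / 20, 1 / 10, by norm_num, by norm_num⟩ : ContDiffBump (0 : ℝ × ℝ)).normed volume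

theorem rp2_bump_eqns_cite : True := by
  have := @rp2Bump.eq_1
  trivial

theorem rp2_bump_smooth : ContDiff ℝ ((⊤ : ℕ∞) : WithTop ℕ∞) rp2Bump := ContDiffBump.contDiff_normed _

theorem rp2_bump_comp : HasCompactSupport rp2Bump := ContDiffBump.hasCompactSupport_normed _

theorem rp2_bump_int : ∫ z, rp2Bump z = 1 := ContDiffBump.integral_normed _

theorem rp2_bump_supp {z : ℝ × ℝ} (h : rp2Bump z ≠ 0) : |z.1| ≤ 1 / 10 ∧ |z.2| ≤ 1 / 10 := by
  have h1 : z ∈ Function.support rp2Bump := h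
  unfold rp2Bump at h1
  rw [ContDiffBump.support_normed_eq, mem_ball_zero_iff, Prod.norm_def] at h1
  simp only [Real.norm_eq_abs] at h1
  exact ⟨((le_max_left _ _).trans_lt h1).le, ((le_max_right _ _).trans_lt h1).le⟩

theorem rp2_bump_T : PcvT rp2Bump := ⟨rp2_bump_smooth.continuous, rp2_bump_comp⟩

/-- **(P5) = the statement of `asi_nd` of `Spec/B6`**, from the nondegeneracy contract.   `f = f₁ - f₂`, `f₁ = rp2Bump`, `f₂ = f₁ (· - (L, 0))`, `L = 2 (C1 + 1) + 2`; `R = ⌈1/δ⌉₊`. -/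
theorem rp2_nd_glue {c : ℝ} (H : Rp2Nd c) :
    ∃ f : ℝ × ℝ → ℝ, AspTest f ∧ ∫ z, f z = 0 ∧ ∃ κ : ℝ, 0 < κ ∧ ∀ᶠ δ in 𝓝[>] (0 : ℝ),
      ∀ᶠ R : ℕ in atTop, κ ≤ mdlFz c (rswBox 0 R) (fun h => asiArr (aspW δ f) h ^ 2) := by
  obtain ⟨κ, R0, C0, C1, hκ, H⟩ := H
  set L : ℝ := 2 * ((C1 : ℝ) + 1) + 2 with hL
  set w0 : ℝ × ℝ := (-L, 0) with hw0
  have hT2 : PcvT (fun z => rp2Bump (z + w0)) := rp2_bump_T.tr w0
  have hT : PcvT (fun z => rp2Bump z - rp2Bump (z + w0)) := rp2_bump_T.sub hT2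
  have hint : ∫ z, (rp2Bump z - rp2Bump (z + w0)) = 0 := by
    rw [integral_sub rp2_bump_T.integrable hT2.integrable, integral_add_right_eq_self, sub_self]
  refine ⟨fun z => rp2Bump z - rp2Bump (z + w0), ⟨?_, hT.comp⟩, hint, κ, hκ, ?_⟩
  · exact rp2_bump_smooth.sub (rp2_bump_smooth.comp (contDiff_id.add contDiff_const))
  have hpos : (0 : ℝ) < min (1 / 4) (1 / ((R0 : ℝ) + 1)) := lt_min (by norm_num) (by positivity)
  filter_upwards [Ioo_mem_nhdsGT hpos] with δ hδ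
  obtain ⟨hδ0, hδ1⟩ := hδ
  have hδ4 : δ ≤ 1 / 4 := hδ1.le.trans (min_le_left _ _)
  have hδR : δ ≤ 1 / ((R0 : ℝ) + 1) := hδ1.le.trans (min_le_right _ _)
  set R : ℕ := ⌈1 / δ⌉₊ with hR
  have hR1 : 1 ≤ δ * (R : ℝ) := by
    have : 1 / δ ≤ (R : ℝ) := Nat.le_ceil _
    rw [div_le_iff₀ hδ0] at this
    linarith
  have hR2 : δ * (R : ℝ) ≤ 2 := by
    have : (R : ℝ) < 1 / δ + 1 := Nat.ceil_lt_add_one (by positivity)
    have h2 : δ * (R : ℝ) < δ * (1 / δ + 1) := mul_lt_mul_of_pos_left this hδ0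
    have h3 : δ * (1 / δ + 1) = 1 + δ := by field_simp
    linarith
  have hR0 : R0 ≤ R := by
    have h1 : ((R0 : ℝ) + 1) * δ ≤ 1 := by
      rw [le_div_iff₀ (by positivity)] at hδR
      linarith
    have h2 : (R0 : ℝ) * δ ≤ (R : ℝ) * δ := by nlinarith
    exact_mod_cast le_of_mul_le_mul_right h2 hδ0
  set w := aspW δ (fun z => rp2Bump z - rp2Bump (z + w0)) with hw
  have hw1 : w = aspW δ rp2Bump - aspW δ (fun z => rp2Bump (z + w0)) := asg_W_sub hδ0 rp2_bump_T hT2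
  -- cells near the origin miss the second bump
  have far : ∀ u : AspG, u ∈ mdlBox ((C1 + 1) * R) → aspW δ (fun z => rp2Bump (z + w0)) u = 0 := by
    intro u hu
    rw [asg_W_apply hδ0 hT2]
    by_contra hcon
    obtain ⟨z, hz, hfz⟩ := asg_latW_supp hcon
    have h1 := (rp2_bump_supp hfz).1
    have h2 := (asg_face_near hδ0 hz).1
    rw [rp2_mem_box] at hu
    have h3 : (u.1 : ℝ) ≤ ((C1 : ℝ) + 1) * R := by exact_mod_cast hu.1.2
    have h4 : δ * (u.1 : ℝ) ≤ ((C1 : ℝ) + 1) * 2 := by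
      calc δ * (u.1 : ℝ) ≤ δ * (((C1 : ℝ) + 1) * R) := by gcongr
        _ = ((C1 : ℝ) + 1) * (δ * R) := by ring
        _ ≤ ((C1 : ℝ) + 1) * 2 := by gcongr
    rw [abs_le] at h1 h2
    simp only [hw0, Prod.fst_add, asgPos] at h1 h2
    linarith [h1.1, h2.2]
  -- cells meeting the first bump are in the box of radius `R`
  have near : ∀ u : AspG, u ∉ mdlBox R → aspW δ rp2Bump u = 0 := by
    intro u hu
    rw [asg_W_apply hδ0 rp2_bump_T]
    by_contra hcon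
    obtain ⟨z, hz, hfz⟩ := asg_latW_supp hcon
    obtain ⟨h1, h2⟩ := rp2_bump_supp hfz
    obtain ⟨h3, h4⟩ := asg_face_near hδ0 hz
    apply hu
    rw [abs_le] at h1 h2 h3 h4
    simp only [asgPos] at h3 h4
    have key : ∀ x : ℤ, δ * (x : ℝ) ≤ 1 → -1 ≤ δ * (x : ℝ) → -(R : ℤ) ≤ x ∧ x ≤ R := by
      intro x a1 a2
      constructor
      · have : δ * (-(R : ℝ)) ≤ δ * (x : ℝ) := by linarith
        exact_mod_cast le_of_mul_le_mul_left this hδ0
      · have : δ * (x : ℝ) ≤ δ * (R : ℝ) := by linarith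
        exact_mod_cast le_of_mul_le_mul_left this hδ0
    rw [rp2_mem_box]
    exact ⟨key u.1 (by linarith [h3.1, h1.2]) (by linarith [h3.2, h1.1]), key u.2 (by linarith [h4.1, h2.2]) (by linarith [h4.2, h2.1])⟩
  have hmono : ∀ {a b : ℕ}, a ≤ b → ∀ u : AspG, u ∈ mdlBox a → u ∈ mdlBox b := by
    intro a b hab u hu
    rw [rp2_mem_box] at hu ⊢
    have : (a : ℤ) ≤ b := by exact_mod_cast hab
    omega
  have collar : ∀ u ∈ mdlBox (C1 * R), u ∉ mdlBox R → w u = 0 := by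
    intro u hu hu'
    rw [hw1, Finsupp.sub_apply, near u hu', far u (hmono (Nat.mul_le_mul_right _ (Nat.le_succ _)) u hu), sub_zero]
  have mass : ∑ u ∈ mdlBox R, w u = 1 := by
    have e1 : ∑ u ∈ mdlBox R, w u = ∑ u ∈ mdlBox R, aspW δ rp2Bump u := by
      refine Finset.sum_congr rfl fun u hu => ?_
      rw [hw1, Finsupp.sub_apply, far u (hmono (Nat.le_mul_of_pos_left _ (Nat.succ_pos _)) u hu), sub_zero]
    rw [e1, ← rp2_bump_int, ← asg_W_tot hδ0 rp2_bump_T]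
    unfold aspTot Finsupp.sum
    refine (Finset.sum_subset ?_ ?_).symm
    · intro u hu
      by_contra hcon
      exact (Finsupp.mem_support_iff.1 hu) (near u hcon)
    · intro u _ hu
      exact Finsupp.notMem_support_iff.1 hu
  filter_upwards [eventually_ge_atTop (C0 * R)] with n hn
  have := H n R w hR0 hn collar
  rwa [mass, one_pow, mul_one] at this

/-- (P5) from the law side -/
theorem rp2_nd_of_switch {c : ℝ} (hc : 0 < c) (H : Rp2Switch c) :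
    ∃ f : ℝ × ℝ → ℝ, AspTest f ∧ ∫ z, f z = 0 ∧ ∃ κ : ℝ, 0 < κ ∧ ∀ᶠ δ in 𝓝[>] (0 : ℝ),
      ∀ᶠ R : ℕ in atTop, κ ≤ mdlFz c (rswBox 0 R) (fun h => asiArr (aspW δ f) h ^ 2) :=
  rp2_nd_glue (rp2_nd_core hc H)

/-! ## 7. (P5) the dictionary `mdlFz` ↔ `rswE` for array statistics (asked by 211; from `msm131_bE` of 131) -/

/-- on a configuration of the frozen law the primal heights vanish off the corners of `F` -/
theorem rp2_cfg_off {F : Finset (ℤ × ℤ)} {h : MdlS → ℤ} (hh : h ∈ mdlCfg (mdlDom F) mdlRef) {v : ℤ × ℤ} (hv : v ∉ cornersOf F) :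
    h (mdlV v) = 0 := by
  rw [(rp2_adm_of_mem hh).1 _ (fun hm => hv ((mdl21m_V_mem_dom v).1 hm).1), mdl21m_ref_V]

/-- **THE DICTIONARY** `mdlFz` ↔ `rswE` for functions of an array statistic (any array; the part off the corners of `F` does not count) -/
theorem rp2_fz_rsw {c : ℝ} (hc : 0 < c) {F : Finset (ℤ × ℤ)} (hex : Mdl21Ex F) (w : AspG →₀ ℝ) (ψ : ℝ → ℝ) :
    mdlFz c F (fun h => ψ (asiArr w h)) =
      rswE c⁻¹ F true (fun ω => ψ (rswArr (w.filter (fun v => v ∈ cornersOf F)) (rswH F ω))) := by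
  have hs : (w.filter (fun v => v ∈ cornersOf F)).support ⊆ cornersOf F := by
    intro v hv
    rw [Finsupp.support_filter, Finset.mem_filter] at hv
    exact hv.2
  rw [msm131_bE (inv_ne_zero hc.ne') hex (fun h => ψ (rswArr (w.filter (fun v => v ∈ cornersOf F)) h))
    (fun h h' hh => by rw [msm131_barr_loc hs hh]), inv_inv]
  unfold mdlFz mdlEQ
  congr 1
  refine Finset.sum_congr rfl fun h hh => ?_
  have key : asiArr w h = rswArr (w.filter (fun v => v ∈ cornersOf F)) (fun v => (h (mdlV v) : ℝ) / 2) := by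
    unfold asiArr rswArr Finsupp.sum
    rw [Finsupp.support_filter, Finset.sum_filter]
    refine Finset.sum_congr rfl fun v _ => ?_
    by_cases hv : v ∈ cornersOf F
    · rw [if_pos hv, Finsupp.filter_apply_pos _ _ hv]
    · rw [if_neg hv]
      show w v * ((h (mdlV v) : ℝ) / 2) = 0
      rw [rp2_cfg_off hh hv]
      simp
  show mdlWt c (mdlQ F) h * ψ (asiArr w h) = mdlWt c (mdlQ F) h * ψ (rswArr (w.filter (fun v => v ∈ cornersOf F)) (fun v => (h (mdlV v) : ℝ) / 2))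
  rw [key]

end Claimed.Agent.R292
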