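import Claimed.Agent.R292.Spec.Inst79
import Claimed.Agent.R292.Spec.Fv212
import Claimed.Agent.R292.Spec.Dict79
import Claimed.Agent.R292.Rsw.Nondeg211
import Claimed.Agent.R292.Exit.SPEC

/-!
# Row 292, Spec/B6 : THE INSTANCE OF SEC. 4      (typed helper79)

`exit_spec_at ⇐ exit_spec + asi_in`;      `asi_in`, `asi_cov_eq` = PROVED glue (Spec/Inst79, 0 sorry) from the three contracts below (+ `asi_fv` = 212, proved):
* `asi_ht` (P1 P2) = PROVED from `exit_rsw_plane` VERBATIM, `asi_sm` (P4) = PROVED from `exit_rsw_mom_plane` VERBATIM      (adapters: Spec/Dict79)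
* `asi_nd` (P5) = PROVED by 211 + 212 (Rsw/Nondeg211 `rnd_asi_nd`, Spec/Fv212) from (S1) `exit_mdl_circ`      THIS FILE HAS NO `sorry` OF ITS OWN
* `asi_fv`      finite volume symmetries + reflection positivity of the flat law in `rswBox 0 n`      OWNER: 212 (Spec/Rp212)
-/

set_option autoImplicit false

namespace Claimed.Agent.R292

open Claims Claims.C0468 MeasureTheory Filter Topology

/-- (P1)+(P2) [DKLM Thm 17.1 + Thm 2.2] in MODEL's vocabulary.      SUPPLIER: RSW / MODEL -/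
theorem asi_ht (c : ℝ) (hc1 : 1 < c) (hc2 : c ≤ 2) : AsiHt c := asd_ht c hc1 hc2

/-- (P4) TEX[eq:plane-neutral-moments], `m = 1`, finite volume form in MODEL's vocabulary.      SUPPLIER: RSW (`exit_rsw_mom_plane`, `p = 2`) -/
theorem asi_sm (c : ℝ) (hc1 : 1 < c) (hc2 : c ≤ 2) :
    ∃ K : ℝ, ∀ N : ℕ, 1 ≤ N → ∀ b : AspG →₀ ℝ, aspTot b = 0 → (∀ u ∈ b.support, |u.1| ≤ (N : ℤ) ∧ |u.2| ≤ (N : ℤ)) →
      (∀ u, |b u| ≤ 1 / (N : ℝ) ^ 2) → ∀ᶠ R : ℕ in atTop, mdlFz c (rswBox 0 R) (fun h => asiArr b h ^ 2) ≤ K :=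
  asd_sm c hc1 hc2

/-- (P5) last part of the proof of TEX[prop:plane-green]: uniform lower variance bound (two circuits of opposite colours + exact cut + fair colours).      SUPPLIER: RSW -/
theorem asi_nd (c : ℝ) (hc1 : 1 < c) (hc2 : c ≤ 2) :
    ∃ f : ℝ × ℝ → ℝ, AspTest f ∧ ∫ z, f z = 0 ∧ ∃ κ : ℝ, 0 < κ ∧ ∀ᶠ δ in 𝓝[>] (0 : ℝ),
      ∀ᶠ R : ℕ in atTop, κ ≤ mdlFz c (rswBox 0 R) (fun h => asiArr (aspW δ f) h ^ 2) :=
  rnd_asi_nd c hc1 hc2

/-- finite volume: two symmetries of the flat law, reflection positivity across the axial row and across the antidiagonal (212, Spec/Rp212 + Spec/Fv212) -/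
theorem asi_fv (c : ℝ) (hc : 1 ≤ c) : AsiFv c :=
  ⟨rp2_fz_symA c, rp2_fz_symB c, rp2_fz_rpA (by linarith), rp2_fz_rpD hc⟩

/-- the cells tile the plane (86, Spec/Cov86) -/
theorem asi_W_tot {δ : ℝ} (hδ : 0 < δ) {f : ℝ × ℝ → ℝ} (hf : AspTest f) : aspTot (aspW δ f) = ∫ z, f z :=
  asg_W_tot hδ ⟨hf.1.continuous, hf.2⟩

/-- the variogram of the plane law on the primal lattice satisfies the hypotheses of Sec. 4 -/
theorem asi_in (c : ℝ) (hc1 : 1 < c) (hc2 : c ≤ 2) : AspIn (asiVg c) := by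
  refine asi_in_of (by linarith) (asi_ht c hc1 hc2) (asi_fv c hc1.le) (asi_sm c hc1 hc2) ?_
  obtain ⟨f, hf, hf0, κ, hκ, H⟩ := asi_nd c hc1 hc2
  refine ⟨f, hf, hf0, κ, hκ, ?_⟩
  filter_upwards [H, self_mem_nhdsWithin] with δ hδ hpos
  exact ⟨by rw [asi_W_tot hpos hf, hf0], hδ⟩

/-- bilinearity + stationarity + polarisation -/
theorem asi_cov_eq (c : ℝ) (hc1 : 1 < c) (hc2 : c ≤ 2) (b b' : AspG →₀ ℝ) (hb : aspTot b = 0) (hb' : aspTot b' = 0) :
    asiCov c b b' = aspGam (asiVg c) b b' :=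
  asi_cov_eq_of (asi_ht c hc1 hc2) hb hb'

/-- **EXIT OF SEC. 4 FOR THE ASHKIN-TELLER PLANE LAW** (primal heights `H`, frozen coordinates) -/
theorem exit_spec_at (c : ℝ) (hc1 : 1 < c) (hc2 : c ≤ 2) :
    ∃ v : ℝ, 0 < v ∧ AspPCF (aspGam (asiVg c)) v ∧ AspRN (aspGam (asiVg c)) :=
  exit_spec (asi_in c hc1 hc2)

end Claimed.Agent.R292
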