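import Claimed.Agent.R292.Defs.SPEC
import Claimed.Agent.R291.Spec.Pois

/-!
# Row 292 (S0540), Spec/Mix222 : B2 = TEX[lem:cauchy-mixture], MODEL FREE, ALL FRAMES AT ONCE   (owner helper222; prefix `asp222`)

Port of R291 `Pln/Mix.lean` (helper94) to the square grid, for a GENERAL reflection frame:
`e` = tangent step, `n` = two-row normal step, `n1` = one-row step, `σ` = reflection in the site row through `0`
(`σ e = e`, `σ n = -n`, `n1 - σ n1 = n`).  Axial frame: `e = (1,0)`, `n = (0,2)`, `n1 = (0,1)`; diagonal frame: `e = (1,1)`, `n = (-1,1)`, `n1 = (0,1)`.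

The spectral input is `Asp222Spec a Cf e` (integrability and spectral representation of the covariance of the `e`-gradient).
Output `Asp222Mix Cf ν e n`, in ANGLE form: with `θ₁ = red (p · e)`, `θ₂ = red (p · n)` (reduction mod `2π` to `(-π, π]`), on `θ₁ ≠ 0` the image of `Cf` is the
`ν`-mixture of the laws of `(θ₁, 2 arctan (τ t))`, `t` standard Cauchy, `τ ∈ [0, 1]`.
-/

set_option autoImplicit false

namespace Claimed.Agent.R292

open Claims MeasureTheory Filter Topology Set
open Claimed.Agent.R291 (gsp_bh1 gsp_pois_box gspCau)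
open scoped ENNReal ComplexConjugate

/-! ## 1. the covariance form as a bilinear map -/

/-- the covariance form as a bilinear map -/
noncomputable def asp222GamL (a : AspG → ℝ) : (AspG →₀ ℝ) →ₗ[ℝ] (AspG →₀ ℝ) →ₗ[ℝ] ℝ :=
  Finsupp.lsum ℝ fun u => (LinearMap.lsmul ℝ ((AspG →₀ ℝ) →ₗ[ℝ] ℝ)).flip
    (Finsupp.lsum ℝ fun v => (LinearMap.lsmul ℝ ℝ).flip (-(1 / 2) * a (u - v)))

theorem asp222_gam_eq (a : AspG → ℝ) (b b' : AspG →₀ ℝ) : aspGam a b b' = asp222GamL a b b' := by
  unfold aspGam asp222GamL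
  simp only [Finsupp.lsum_apply, LinearMap.flip_apply, LinearMap.lsmul_apply, Finsupp.sum,
    LinearMap.sum_apply, LinearMap.smul_apply, smul_eq_mul, Finset.mul_sum]
  refine Finset.sum_congr rfl fun u _ => Finset.sum_congr rfl fun v _ => ?_
  ring

theorem asp222_gamL_single (a : AspG → ℝ) (u v : AspG) (x y : ℝ) :
    asp222GamL a (Finsupp.single u x) (Finsupp.single v y) = -(1 / 2) * (x * y * a (u - v)) := by
  rw [← asp222_gam_eq]
  unfold aspGam
  rw [Finsupp.sum_single_index (by simp)]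
  rw [Finsupp.sum_single_index (by simp)]

/-- two bilinear forms which agree on the basis agree -/
theorem asp222_bil_ext {B B' : (AspG →₀ ℝ) →ₗ[ℝ] (AspG →₀ ℝ) →ₗ[ℝ] ℝ}
    (h : ∀ u v, B (Finsupp.single u 1) (Finsupp.single v 1) = B' (Finsupp.single u 1) (Finsupp.single v 1)) : B = B' := by
  apply Finsupp.lhom_ext'
  intro u
  apply LinearMap.ext_ring
  apply Finsupp.lhom_ext'
  intro v
  apply LinearMap.ext_ring
  simpa using h u v

theorem asp222_gam_map (a : AspG → ℝ) (σ : AspG → AspG) (hσ : ∀ u v, a (σ u - σ v) = a (u - v)) (b b' : AspG →₀ ℝ) :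
    aspGam a (aspMap σ b) (aspMap σ b') = aspGam a b b' := by
  rw [asp222_gam_eq, asp222_gam_eq]
  have : ((asp222GamL a).compl₁₂ (Finsupp.lmapDomain ℝ ℝ σ) (Finsupp.lmapDomain ℝ ℝ σ)) = asp222GamL a := by
    apply asp222_bil_ext
    intro u v
    simp only [LinearMap.compl₁₂_apply, Finsupp.lmapDomain_apply, Finsupp.mapDomain_single, asp222_gamL_single, hσ]
  exact congrArg (fun B => B b b') this

theorem asp222_gam_symm (a : AspG → ℝ) (ha : ∀ u, a (-u) = a u) (b b' : AspG →₀ ℝ) : aspGam a b b' = aspGam a b' b := by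
  rw [asp222_gam_eq, asp222_gam_eq]
  have : asp222GamL a = (asp222GamL a).flip := by
    apply asp222_bil_ext
    intro u v
    simp only [LinearMap.flip_apply, asp222_gamL_single]
    rw [← ha (u - v), neg_sub]
  exact congrArg (fun B => B b b') this

theorem asp222_symY {a : AspG → ℝ} (h : AspIn a) (u : AspG) : a (u.1, -u.2) = a u := by
  have h1 := h.symS (u.1, -u.2)
  have h2 := h.symX (u.2, u.1)
  have h3 := h.symS u
  simp only at h1 h2 h3
  rw [← h1, h2, h3]

theorem asp222_even {a : AspG → ℝ} (h : AspIn a) (u : AspG) : a (-u) = a u := by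
  have h1 := h.symX (u.1, -u.2)
  have h2 := asp222_symY h u
  simp only at h1
  rw [← h2, ← h1]
  rfl

/-! ## 2. gradient arrays -/

/-- the gradient array `δ_u - δ_0` -/
noncomputable def asp222G (u : AspG) : AspG →₀ ℝ := Finsupp.single u 1 - Finsupp.single 0 1

theorem asp222_tr_single (w u : AspG) (x : ℝ) : aspTr w (Finsupp.single u x) = Finsupp.single (u + w) x := by
  unfold aspTr; rw [Finsupp.mapDomain_single]

theorem asp222_tr_G (w u : AspG) : aspTr w (asp222G u) = Finsupp.single (u + w) 1 - Finsupp.single w 1 := by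
  unfold aspTr asp222G
  rw [sub_eq_add_neg, Finsupp.mapDomain_add, ← Finsupp.single_neg, Finsupp.mapDomain_single, Finsupp.mapDomain_single,
    Finsupp.single_neg, zero_add, ← sub_eq_add_neg]

theorem asp222_tot_single (u : AspG) (x : ℝ) : aspTot (Finsupp.single u x) = x := by
  unfold aspTot; rw [Finsupp.sum_single_index rfl]

theorem asp222_tot_add (b b' : AspG →₀ ℝ) : aspTot (b + b') = aspTot b + aspTot b' := by
  unfold aspTot; exact Finsupp.sum_add_index' (fun _ => rfl) (fun _ _ _ => rfl)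

theorem asp222_tot_smul (c : ℝ) (b : AspG →₀ ℝ) : aspTot (c • b) = c * aspTot b := by
  unfold aspTot
  rw [Finsupp.sum_smul_index' (fun _ => rfl), Finsupp.mul_sum]
  rfl

theorem asp222_tot_tr_G (w u : AspG) : aspTot (aspTr w (asp222G u)) = 0 := by
  rw [asp222_tr_G, sub_eq_add_neg, ← Finsupp.single_neg, asp222_tot_add, asp222_tot_single, asp222_tot_single]; ring

theorem asp222_tot_sum {ι : Type*} (s : Finset ι) (f : ι → AspG →₀ ℝ) : aspTot (∑ i ∈ s, f i) = ∑ i ∈ s, aspTot (f i) := by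
  classical
  induction s using Finset.induction_on with
  | empty => simp [aspTot]
  | insert i s hi ih => rw [Finset.sum_insert hi, Finset.sum_insert hi, asp222_tot_add, ih]

/-- the gradient-gradient covariance: second difference of the variogram in the direction `e` -/
noncomputable def asp222F (a : AspG → ℝ) (e w : AspG) : ℝ := 1 / 2 * (a (w + e) + a (w - e) - 2 * a w)

theorem asp222_gam_GG {a : AspG → ℝ} (ha : ∀ u, a (-u) = a u) (e w w' : AspG) :
    aspGam a (aspTr w (asp222G e)) (aspTr w' (asp222G e)) = asp222F a e (w' - w) := by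
  rw [asp222_gam_eq, asp222_tr_G, asp222_tr_G]
  simp only [map_sub, LinearMap.sub_apply, asp222_gamL_single]
  unfold asp222F
  have e1 : e + w - (e + w') = -(w' - w) := by abel
  have e2 : e + w - w' = -(w' - w - e) := by abel
  have e3 : w - (e + w') = -(w' - w + e) := by abel
  have e4 : w - w' = -(w' - w) := by abel
  rw [e1, e2, e3, e4, ha, ha, ha]
  ring

theorem asp222_map_sum {ι : Type*} (σ : AspG → AspG) (s : Finset ι) (f : ι → AspG →₀ ℝ) :
    aspMap σ (∑ i ∈ s, f i) = ∑ i ∈ s, aspMap σ (f i) := by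
  unfold aspMap; exact Finsupp.mapDomain_finsetSum

theorem asp222_map_smul (σ : AspG → AspG) (c : ℝ) (b : AspG →₀ ℝ) : aspMap σ (c • b) = c • aspMap σ b := by
  unfold aspMap; exact Finsupp.mapDomain_smul c b

/-! ## 3. reflection frames -/

/-- a reflection frame of the grid for the variogram `a` -/
structure Asp222Frame (a : AspG → ℝ) (σ : AspG → AspG) (nor : AspG → ℤ) (e n n1 : AspG) : Prop where
  even : ∀ u, a (-u) = a u
  sadd : ∀ u v, σ (u + v) = σ u + σ v
  sa : ∀ u, a (σ u) = a u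
  se : σ e = e
  sn : σ n = -n
  sn1 : n1 - σ n1 = n
  nadd : ∀ u v, nor (u + v) = nor u + nor v
  ne : nor e = 0
  nn : 0 ≤ nor n
  nn1 : 0 ≤ nor n1
  rp : ∀ b : AspG →₀ ℝ, aspTot b = 0 → (∀ u ∈ b.support, 0 ≤ nor u) → 0 ≤ aspGam a (aspMap σ b) b

/-- the lattice vector `m e + j n` -/
def asp222Wv (e n : AspG) (m j : ℤ) : AspG := m • e + j • n

section frame

variable {a : AspG → ℝ} {σ : AspG → AspG} {nor : AspG → ℤ} {e n n1 : AspG}

theorem Asp222Frame.s_zsmul (h : Asp222Frame a σ nor e n n1) (k : ℤ) (u : AspG) : σ (k • u) = k • σ u :=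
  map_zsmul (AddMonoidHom.mk' σ h.sadd) k u

theorem Asp222Frame.s_neg (h : Asp222Frame a σ nor e n n1) (u : AspG) : σ (-u) = -σ u :=
  map_neg (AddMonoidHom.mk' σ h.sadd) u

theorem Asp222Frame.s_sub (h : Asp222Frame a σ nor e n n1) (u v : AspG) : σ (u - v) = σ u - σ v :=
  map_sub (AddMonoidHom.mk' σ h.sadd) u v

theorem Asp222Frame.n_zsmul (h : Asp222Frame a σ nor e n n1) (k : ℤ) (u : AspG) : nor (k • u) = k * nor u := by
  have := map_zsmul (AddMonoidHom.mk' nor h.nadd) k u
  simpa using this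

theorem Asp222Frame.s_wv (h : Asp222Frame a σ nor e n n1) (m j : ℤ) : σ (asp222Wv e n m j) = asp222Wv e n m (-j) := by
  unfold asp222Wv
  rw [h.sadd, h.s_zsmul, h.s_zsmul, h.se, h.sn, neg_smul, smul_neg]

theorem Asp222Frame.n_wv (h : Asp222Frame a σ nor e n n1) (m : ℤ) (j : ℕ) : 0 ≤ nor (asp222Wv e n m j) := by
  unfold asp222Wv
  rw [h.nadd, h.n_zsmul, h.n_zsmul, h.ne, mul_zero, zero_add]
  exact mul_nonneg (Int.natCast_nonneg j) h.nn

theorem Asp222Frame.map_tr_G (h : Asp222Frame a σ nor e n n1) (w : AspG) :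
    aspMap σ (aspTr w (asp222G e)) = aspTr (σ w) (asp222G e) := by
  rw [asp222_tr_G, asp222_tr_G]
  unfold aspMap
  rw [sub_eq_add_neg, Finsupp.mapDomain_add, ← Finsupp.single_neg, Finsupp.mapDomain_single, Finsupp.mapDomain_single,
    Finsupp.single_neg, ← sub_eq_add_neg, h.sadd, h.se]

/-- reflection positivity on combinations of translated `e`-gradients -/
theorem Asp222Frame.rp_sum (h : Asp222Frame a σ nor e n n1) {ι : Type*} (s : Finset ι) (x : ι → ℝ) (w : ι → AspG)
    (hw : ∀ i ∈ s, 0 ≤ nor (w i)) :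
    0 ≤ ∑ p ∈ s, ∑ q ∈ s, x p * x q * asp222F a e (w q - σ (w p)) := by
  classical
  set b : AspG →₀ ℝ := ∑ p ∈ s, x p • aspTr (w p) (asp222G e) with hb
  have h0 : aspTot b = 0 := by
    rw [hb, asp222_tot_sum]
    refine Finset.sum_eq_zero fun p _ => ?_
    rw [asp222_tot_smul, asp222_tot_tr_G, mul_zero]
  have h1 : ∀ u ∈ b.support, 0 ≤ nor u := by
    intro u hu
    have := Finsupp.support_finsetSum hu
    rw [Finset.mem_biUnion] at this
    obtain ⟨p, hp, hu⟩ := this
    have hu := Finsupp.support_smul hu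
    rw [asp222_tr_G] at hu
    have hu := Finsupp.support_sub hu
    rw [Finset.mem_union] at hu
    rcases hu with hu | hu
    · have := Finsupp.support_single_subset hu
      rw [Finset.mem_singleton] at this
      rw [this, h.nadd, h.ne, zero_add]
      exact hw p hp
    · have := Finsupp.support_single_subset hu
      rw [Finset.mem_singleton] at this
      rw [this]
      exact hw p hp
  have h2 := h.rp b h0 h1
  have h3 : aspGam a (aspMap σ b) b = ∑ p ∈ s, ∑ q ∈ s, x p * x q * asp222F a e (w q - σ (w p)) := by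
    rw [asp222_gam_eq]
    conv_lhs => rw [hb]
    rw [asp222_map_sum]
    simp only [map_sum, LinearMap.sum_apply, asp222_map_smul, map_smul, LinearMap.smul_apply, smul_eq_mul]
    simp only [Finset.mul_sum]
    rw [Finset.sum_comm]
    refine Finset.sum_congr rfl fun p _ => Finset.sum_congr rfl fun q _ => ?_
    rw [h.map_tr_G, ← asp222_gam_eq, asp222_gam_GG h.even]
    ring
  rw [← h3]; exact h2

/-- real symmetric kernels: complex positivity from real positivity -/
theorem asp222_complex_pd {ι : Type*} (s : Finset ι) (κ : ι → ι → ℝ)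
    (hκ : ∀ x : ι → ℝ, 0 ≤ ∑ p ∈ s, ∑ q ∈ s, x p * x q * κ p q) (c : ι → ℂ) :
    0 ≤ (∑ p ∈ s, ∑ q ∈ s, conj (c p) * c q * (κ p q : ℂ)).re := by
  have e : (∑ p ∈ s, ∑ q ∈ s, conj (c p) * c q * (κ p q : ℂ)).re =
      (∑ p ∈ s, ∑ q ∈ s, (c p).re * (c q).re * κ p q) + ∑ p ∈ s, ∑ q ∈ s, (c p).im * (c q).im * κ p q := by
    rw [Complex.re_sum, ← Finset.sum_add_distrib]
    refine Finset.sum_congr rfl fun p _ => ?_
    rw [Complex.re_sum, ← Finset.sum_add_distrib]
    refine Finset.sum_congr rfl fun q _ => ?_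
    simp only [Complex.mul_re, Complex.conj_re, Complex.conj_im, Complex.ofReal_re, Complex.ofReal_im, Complex.mul_im]
    ring
  rw [e]
  exact add_nonneg (hκ _) (hκ _)

/-- the function to which Bochner + Hausdorff is applied -/
noncomputable def asp222Phi (a : AspG → ℝ) (e n : AspG) (m : ℤ) (j : ℕ) : ℂ := ((asp222F a e (asp222Wv e n m j) : ℝ) : ℂ)

theorem Asp222Frame.phi_P0 (h : Asp222Frame a σ nor e n n1) (s : Finset (ℤ × ℕ)) (c : ℤ × ℕ → ℂ) :
    0 ≤ (∑ p ∈ s, ∑ q ∈ s, conj (c p) * c q * asp222Phi a e n (q.1 - p.1) (p.2 + q.2)).re := by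
  refine asp222_complex_pd s (fun p q => asp222F a e (asp222Wv e n (q.1 - p.1) ((p.2 + q.2 : ℕ) : ℤ))) (fun x => ?_) c
  have := h.rp_sum s x (fun p => asp222Wv e n p.1 p.2) (fun p _ => h.n_wv p.1 p.2)
  refine this.trans_eq (Finset.sum_congr rfl fun p _ => Finset.sum_congr rfl fun q _ => ?_)
  congr 2
  rw [h.s_wv]
  unfold asp222Wv
  push_cast
  module

theorem Asp222Frame.phi_P1 (h : Asp222Frame a σ nor e n n1) (s : Finset (ℤ × ℕ)) (c : ℤ × ℕ → ℂ) :
    0 ≤ (∑ p ∈ s, ∑ q ∈ s, conj (c p) * c q * asp222Phi a e n (q.1 - p.1) (p.2 + q.2 + 1)).re := by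
  refine asp222_complex_pd s (fun p q => asp222F a e (asp222Wv e n (q.1 - p.1) ((p.2 + q.2 + 1 : ℕ) : ℤ))) (fun x => ?_) c
  have := h.rp_sum s x (fun p => asp222Wv e n p.1 p.2 + n1) (fun p _ => by
    rw [h.nadd]; exact add_nonneg (h.n_wv p.1 p.2) h.nn1)
  refine this.trans_eq (Finset.sum_congr rfl fun p _ => Finset.sum_congr rfl fun q _ => ?_)
  congr 2
  rw [h.sadd, h.s_wv]
  have e1 : asp222Wv e n q.1 q.2 + n1 - (asp222Wv e n p.1 (-(p.2 : ℤ)) + σ n1)
      = asp222Wv e n q.1 q.2 - asp222Wv e n p.1 (-(p.2 : ℤ)) + (n1 - σ n1) := by abel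
  rw [e1, h.sn1]
  unfold asp222Wv
  push_cast
  module

theorem Asp222Frame.F_refl (h : Asp222Frame a σ nor e n n1) (w : AspG) : asp222F a e (σ w) = asp222F a e w := by
  unfold asp222F
  have e1 : σ w + e = σ (w + e) := by rw [h.sadd, h.se]
  have e2 : σ w - e = σ (w - e) := by rw [h.s_sub, h.se]
  rw [e1, e2, h.sa, h.sa, h.sa]

theorem asp222_F_neg (ha : ∀ u, a (-u) = a u) (e w : AspG) : asp222F a e (-w) = asp222F a e w := by
  unfold asp222F
  have e1 : -w + e = -(w - e) := by abel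
  have e2 : -w - e = -(w + e) := by abel
  rw [e1, e2, ha, ha, ha]
  ring

theorem Asp222Frame.phi_sym (h : Asp222Frame a σ nor e n n1) (m : ℤ) (j : ℕ) :
    asp222Phi a e n (-m) j = conj (asp222Phi a e n m j) := by
  unfold asp222Phi
  rw [Complex.conj_ofReal]
  congr 1
  rw [← asp222_F_neg h.even, ← h.F_refl]
  congr 1
  rw [h.s_neg, h.s_wv]
  unfold asp222Wv
  module

/-- evenness in the normal variable -/
theorem Asp222Frame.F_even_j (h : Asp222Frame a σ nor e n n1) (m j : ℤ) :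
    asp222F a e (asp222Wv e n m (-j)) = asp222F a e (asp222Wv e n m j) := by
  rw [← h.s_wv, h.F_refl]

end frame

/-! ## 4. the spectral side -/

/-- `p · u` -/
def asp222Ph (p : ℝ × ℝ) (u : AspG) : ℝ := p.1 * (u.1 : ℝ) + p.2 * (u.2 : ℝ)

/-- lattice Fourier transform of an array at the frequency `p` -/
noncomputable def asp222Hat (b : AspG →₀ ℝ) (p : ℝ × ℝ) : ℂ :=
  b.sum fun u x => (x : ℂ) * Complex.exp (Complex.I * (asp222Ph p u : ℂ))

/-- `|e^{ik} - 1|^2` -/
noncomputable def asp222Rho (k : ℝ) : ℝ := ‖Complex.exp (Complex.I * (k : ℂ)) - 1‖ ^ 2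

/-- the spectral input: integrability and spectral representation for the `e`-gradient -/
structure Asp222Spec (a : AspG → ℝ) (Cf : Measure (ℝ × ℝ)) (e : AspG) : Prop where
  int : Integrable (fun p => asp222Rho (asp222Ph p e)) Cf
  rep : ∀ w : AspG, ((asp222F a e w : ℝ) : ℂ) =
    ∫ p, Complex.exp (Complex.I * (asp222Ph p w : ℂ)) * ((asp222Rho (asp222Ph p e) : ℝ) : ℂ) ∂Cf

theorem asp222_ph_add (p : ℝ × ℝ) (u v : AspG) : asp222Ph p (u + v) = asp222Ph p u + asp222Ph p v := by
  unfold asp222Ph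
  simp only [Prod.fst_add, Prod.snd_add]
  push_cast
  ring

theorem asp222_ph_zsmul (p : ℝ × ℝ) (k : ℤ) (u : AspG) : asp222Ph p (k • u) = k * asp222Ph p u := by
  unfold asp222Ph
  simp only [Prod.smul_fst, Prod.smul_snd, smul_eq_mul]
  push_cast
  ring

theorem asp222_ph_wv (p : ℝ × ℝ) (e n : AspG) (m j : ℤ) :
    asp222Ph p (asp222Wv e n m j) = m * asp222Ph p e + j * asp222Ph p n := by
  unfold asp222Wv
  rw [asp222_ph_add, asp222_ph_zsmul, asp222_ph_zsmul]

theorem asp222_ph_zero (p : ℝ × ℝ) : asp222Ph p 0 = 0 := by simp [asp222Ph]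

theorem asp222_ph_measurable (u : AspG) : Measurable fun p : ℝ × ℝ => asp222Ph p u := by
  unfold asp222Ph
  fun_prop

theorem asp222_hat_single (u : AspG) (x : ℝ) (p : ℝ × ℝ) :
    asp222Hat (Finsupp.single u x) p = (x : ℂ) * Complex.exp (Complex.I * (asp222Ph p u : ℂ)) := by
  unfold asp222Hat; rw [Finsupp.sum_single_index (by simp)]

theorem asp222_hat_sub (b b' : AspG →₀ ℝ) (p : ℝ × ℝ) : asp222Hat (b - b') p = asp222Hat b p - asp222Hat b' p := by
  unfold asp222Hat
  exact Finsupp.sum_sub_index (fun u x y => by push_cast; ring)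

theorem asp222_hat_G (e : AspG) (p : ℝ × ℝ) :
    asp222Hat (asp222G e) p = Complex.exp (Complex.I * (asp222Ph p e : ℂ)) - 1 := by
  unfold asp222G
  rw [asp222_hat_sub, asp222_hat_single, asp222_hat_single, asp222_ph_zero]
  simp

theorem asp222_tr_zero (b : AspG →₀ ℝ) : aspTr 0 b = b := by
  unfold aspTr
  simp only [add_zero]
  exact Finsupp.mapDomain_id

theorem asp222_tot_G (u : AspG) : aspTot (asp222G u) = 0 := by
  have := asp222_tot_tr_G 0 u
  rwa [asp222_tr_zero] at this

/-- the spectral input from the general spectral representation of the covariance form (the form of B1) -/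
theorem asp222_spec_of_rep {a : AspG → ℝ} {Cf : Measure (ℝ × ℝ)} (ha : ∀ u, a (-u) = a u)
    (hint : ∀ b : AspG →₀ ℝ, aspTot b = 0 → Integrable (fun p => ‖asp222Hat b p‖ ^ 2) Cf)
    (hrep : ∀ (b : AspG →₀ ℝ) (w : AspG), aspTot b = 0 → ((aspGam a b (aspTr w b) : ℝ) : ℂ) =
      ∫ p, Complex.exp (Complex.I * (asp222Ph p w : ℂ)) * ((‖asp222Hat b p‖ ^ 2 : ℝ) : ℂ) ∂Cf) (e : AspG) :
    Asp222Spec a Cf e := by
  constructor
  · have := hint (asp222G e) (asp222_tot_G _)
    simp only [asp222_hat_G] at this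
    exact this
  · intro w
    have h1 := hrep (asp222G e) w (asp222_tot_G _)
    have h2 := asp222_gam_GG ha e 0 w
    rw [asp222_tr_zero, sub_zero] at h2
    rw [h2] at h1
    rw [h1]
    simp only [asp222_hat_G]
    rfl

theorem asp222_rho_nonneg (k : ℝ) : 0 ≤ asp222Rho k := by unfold asp222Rho; positivity

theorem Asp222Spec.F_bdd {a : AspG → ℝ} {Cf : Measure (ℝ × ℝ)} {e : AspG} (hs : Asp222Spec a Cf e) (w : AspG) :
    |asp222F a e w| ≤ asp222F a e 0 := by
  have h0 := hs.rep 0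
  have hw := hs.rep w
  have e0 : ((asp222F a e 0 : ℝ) : ℂ) = ((∫ p, asp222Rho (asp222Ph p e) ∂Cf : ℝ) : ℂ) := by
    rw [h0, ← integral_complex_ofReal]
    refine integral_congr_ae (Eventually.of_forall fun p => ?_)
    simp [asp222_ph_zero]
  have e0' : asp222F a e 0 = ∫ p, asp222Rho (asp222Ph p e) ∂Cf := by exact_mod_cast e0
  have : ‖((asp222F a e w : ℝ) : ℂ)‖ ≤ ∫ p, asp222Rho (asp222Ph p e) ∂Cf := by
    rw [hw]
    refine (norm_integral_le_integral_norm _).trans (le_of_eq ?_)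
    refine integral_congr_ae (Eventually.of_forall fun p => ?_)
    simp only [norm_mul]
    rw [mul_comm Complex.I, Complex.norm_exp_ofReal_mul_I, one_mul, Complex.norm_real, Real.norm_eq_abs,
      abs_of_nonneg (asp222_rho_nonneg _)]
  rw [Complex.norm_real, Real.norm_eq_abs] at this
  rw [e0']; exact this

/-! ## 5. reduction of angles -/

theorem asp222_two_pi_pos : (0 : ℝ) < 2 * Real.pi := by positivity

/-- reduction of an angle modulo `2π` to `(-π, π]` -/
noncomputable def asp222Red (θ : ℝ) : ℝ := toIocMod asp222_two_pi_pos (-Real.pi) θ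

theorem asp222_red_measurable : Measurable asp222Red := by
  unfold asp222Red
  have : (fun l : ℝ => toIocMod asp222_two_pi_pos (-Real.pi) l) =
      fun l => -Real.pi + 2 * Real.pi - Int.fract ((-Real.pi + 2 * Real.pi - l) / (2 * Real.pi)) * (2 * Real.pi) := by
    funext l
    exact toIocMod_eq_sub_fract_mul _ _ _
  rw [this]
  exact measurable_const.sub ((measurable_fract.comp ((measurable_const.sub measurable_id).div_const _)).mul_const _)

theorem asp222_red_mem (θ : ℝ) : asp222Red θ ∈ Ioc (-Real.pi) Real.pi := by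
  have h := toIocMod_mem_Ioc asp222_two_pi_pos (-Real.pi) θ
  have e : -Real.pi + 2 * Real.pi = Real.pi := by ring
  rw [e] at h
  exact h

theorem asp222_red_sub (θ : ℝ) : ∃ k : ℤ, θ = asp222Red θ + k * (2 * Real.pi) := by
  refine ⟨toIocDiv asp222_two_pi_pos (-Real.pi) θ, ?_⟩
  have h := self_sub_toIocMod asp222_two_pi_pos (-Real.pi) θ
  change θ - asp222Red θ = _ at h
  rw [zsmul_eq_mul] at h
  linarith

theorem asp222_red_of_mem {θ : ℝ} (h : θ ∈ Ioc (-Real.pi) Real.pi) : asp222Red θ = θ := by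
  unfold asp222Red
  rw [toIocMod_eq_self]
  have e : -Real.pi + 2 * Real.pi = Real.pi := by ring
  rw [e]
  exact h

theorem asp222_red_exp (m j : ℤ) (θ₁ θ₂ : ℝ) :
    Complex.exp (Complex.I * ((m : ℂ) * (asp222Red θ₁ : ℂ) + j * (asp222Red θ₂ : ℂ))) =
      Complex.exp (Complex.I * ((m : ℂ) * (θ₁ : ℂ) + j * (θ₂ : ℂ))) := by
  obtain ⟨k₁, h₁⟩ := asp222_red_sub θ₁
  obtain ⟨k₂, h₂⟩ := asp222_red_sub θ₂
  conv_rhs => rw [h₁, h₂]
  push_cast
  have : Complex.I * ((m : ℂ) * (asp222Red θ₁ + k₁ * (2 * Real.pi)) + j * (asp222Red θ₂ + k₂ * (2 * Real.pi))) =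
      Complex.I * ((m : ℂ) * asp222Red θ₁ + j * asp222Red θ₂) + ((m * k₁ + j * k₂ : ℤ) : ℂ) * (2 * Real.pi * Complex.I) := by
    push_cast; ring
  rw [this, Complex.exp_add, Complex.exp_int_mul_two_pi_mul_I, mul_one]

theorem asp222_rho_red (θ : ℝ) : asp222Rho (asp222Red θ) = asp222Rho θ := by
  unfold asp222Rho
  have := asp222_red_exp 1 0 θ 0
  simp only [Int.cast_one, one_mul, Int.cast_zero, zero_mul, add_zero] at this
  rw [this]

theorem asp222_rho_measurable : Measurable asp222Rho := by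
  unfold asp222Rho
  fun_prop

theorem asp222_rho_pos {k : ℝ} (hk : k ∈ Ioc (-Real.pi) Real.pi) (h0 : k ≠ 0) : 0 < asp222Rho k := by
  unfold asp222Rho
  have : Complex.exp (Complex.I * (k : ℂ)) - 1 ≠ 0 := by
    intro h
    rw [sub_eq_zero, Complex.exp_eq_one_iff] at h
    obtain ⟨n, hn⟩ := h
    have h1 : (k : ℂ) = n * (2 * Real.pi) := by
      have hI : Complex.I ≠ 0 := Complex.I_ne_zero
      apply mul_left_cancel₀ hI
      rw [hn]; ring
    have h2 : k = n * (2 * Real.pi) := by exact_mod_cast h1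
    have hpi := Real.pi_pos
    have hn0 : n = 0 := by
      by_contra hne
      rcases lt_or_gt_of_ne hne with hlt | hgt
      · have : (n : ℝ) ≤ -1 := by exact_mod_cast Int.le_sub_one_of_lt hlt
        have := hk.1
        nlinarith
      · have : (1 : ℝ) ≤ n := by exact_mod_cast hgt
        have := hk.2
        nlinarith
    rw [hn0] at h2
    exact h0 (by simpa using h2)
  positivity

/-! ## 6. the projected gradient measure -/

/-- the projection to the torus of the sublattice `ℤ e + ℤ n`, box chart -/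
noncomputable def asp222T (e n : AspG) (p : ℝ × ℝ) : ℝ × ℝ := (asp222Red (asp222Ph p e), asp222Red (asp222Ph p n))

theorem asp222_T_measurable (e n : AspG) : Measurable (asp222T e n) :=
  (asp222_red_measurable.comp (asp222_ph_measurable e)).prodMk (asp222_red_measurable.comp (asp222_ph_measurable n))

/-- the spectral measure of the `e`-gradient, projected -/
noncomputable def asp222Mu (Cf : Measure (ℝ × ℝ)) (e n : AspG) : Measure (ℝ × ℝ) :=
  (Cf.withDensity fun p => ENNReal.ofReal (asp222Rho (asp222Ph p e))).map (asp222T e n)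

theorem Asp222Spec.mu_fin {a : AspG → ℝ} {Cf : Measure (ℝ × ℝ)} {e : AspG} (hs : Asp222Spec a Cf e) (n : AspG) :
    IsFiniteMeasure (asp222Mu Cf e n) := by
  have h1 : IsFiniteMeasure (Cf.withDensity fun p => ENNReal.ofReal (asp222Rho (asp222Ph p e))) :=
    isFiniteMeasure_withDensity_ofReal hs.int.2
  unfold asp222Mu
  infer_instance

theorem asp222_mu_supp (Cf : Measure (ℝ × ℝ)) (e n : AspG) :
    asp222Mu Cf e n (Ioc (-Real.pi) Real.pi ×ˢ Ioc (-Real.pi) Real.pi)ᶜ = 0 := by
  unfold asp222Mu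
  rw [Measure.map_apply (asp222_T_measurable e n) (measurableSet_Ioc.prod measurableSet_Ioc).compl]
  have : (asp222T e n) ⁻¹' (Ioc (-Real.pi) Real.pi ×ˢ Ioc (-Real.pi) Real.pi)ᶜ = ∅ := by
    ext p
    simp only [mem_preimage, mem_compl_iff, mem_prod, mem_empty_iff_false, iff_false, not_not]
    exact ⟨asp222_red_mem _, asp222_red_mem _⟩
  rw [this, measure_empty]

theorem Asp222Spec.mu_coeff {a : AspG → ℝ} {Cf : Measure (ℝ × ℝ)} {e : AspG} (hs : Asp222Spec a Cf e) (n : AspG) (m j : ℤ) :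
    ∫ p, Complex.exp (Complex.I * (m * p.1 + j * p.2)) ∂(asp222Mu Cf e n) = ((asp222F a e (asp222Wv e n m j) : ℝ) : ℂ) := by
  unfold asp222Mu
  rw [integral_map (asp222_T_measurable e n).aemeasurable (by fun_prop)]
  rw [integral_withDensity_eq_integral_toReal_smul
    (by exact (asp222_rho_measurable.comp (asp222_ph_measurable e)).ennreal_ofReal)
    (Eventually.of_forall fun _ => ENNReal.ofReal_lt_top)]
  rw [hs.rep]
  refine integral_congr_ae (Eventually.of_forall fun p => ?_)
  simp only [asp222T]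
  rw [ENNReal.toReal_ofReal (asp222_rho_nonneg _)]
  rw [asp222_red_exp, asp222_ph_wv, Complex.real_smul, mul_comm]
  push_cast
  rfl

/-- the weight `1_{k ≠ 0} / |e^{ik} - 1|^2` -/
noncomputable def asp222Wt (k : ℝ) : ℝ≥0∞ := if k = 0 then 0 else ENNReal.ofReal (1 / asp222Rho k)

theorem asp222_wt_measurable : Measurable asp222Wt := by
  unfold asp222Wt
  refine Measurable.ite (measurableSet_singleton 0) measurable_const ?_
  exact (measurable_const.div asp222_rho_measurable).ennreal_ofReal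

theorem asp222_wt_mul {k : ℝ} (hk : k ∈ Ioc (-Real.pi) Real.pi) (h0 : k ≠ 0) : ENNReal.ofReal (asp222Rho k) * asp222Wt k = 1 := by
  unfold asp222Wt
  rw [if_neg h0, ← ENNReal.ofReal_mul (asp222_rho_pos hk h0).le, mul_one_div_cancel (asp222_rho_pos hk h0).ne', ENNReal.ofReal_one]

/-- the change of the mixing variable `(k, λ) ↦ (k, (1-λ)/(1+λ))` -/
noncomputable def asp222S (q : ℝ × ℝ) : ℝ × ℝ := (q.1, (1 - q.2) / (1 + q.2))

theorem asp222_S_measurable : Measurable asp222S := by
  unfold asp222S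
  exact measurable_fst.prodMk ((measurable_const.sub measurable_snd).div (measurable_const.add measurable_snd))

/-- the mixing measure -/
noncomputable def asp222Nu (γ : Measure (ℝ × ℝ)) : Measure (ℝ × ℝ) := (γ.withDensity fun q => asp222Wt q.1).map asp222S

/-- **TEX[lem:cauchy-mixture]**, angle form, in the frame `(e, n)` -/
structure Asp222Mix (Cf ν : Measure (ℝ × ℝ)) (e n : AspG) : Prop where
  sfin : SFinite ν
  supp : ν {q | ¬ (q.1 ≠ 0 ∧ q.1 ∈ Set.Ioc (-Real.pi) Real.pi ∧ 0 ≤ q.2 ∧ q.2 ≤ 1)} = 0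
  mix : ∀ G : ℝ × ℝ → ℝ≥0∞, Measurable G →
    ∫⁻ p in {p | asp222Red (asp222Ph p e) ≠ 0}, G (asp222Red (asp222Ph p e), asp222Red (asp222Ph p n)) ∂Cf =
      ∫⁻ q, ∫⁻ t, G (q.1, 2 * Real.arctan (q.2 * t)) ∂gspCau ∂ν

instance asp222_cau_sfinite : SFinite gspCau := by unfold gspCau; infer_instance

/-- **B2, general frame.** -/
theorem asp222_mix_main {a : AspG → ℝ} {σ : AspG → AspG} {nor : AspG → ℤ} {e n n1 : AspG} {Cf : Measure (ℝ × ℝ)}
    (h : Asp222Frame a σ nor e n n1) (hs : Asp222Spec a Cf e) :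
    ∃ ν : Measure (ℝ × ℝ), Asp222Mix Cf ν e n := by
  obtain ⟨γ, hγf, hγs, hγ⟩ := gsp_bh1 (asp222Phi a e n) h.phi_sym h.phi_P0 h.phi_P1 (K := asp222F a e 0)
    (fun j => by
      unfold asp222Phi
      rw [Complex.norm_real, Real.norm_eq_abs]
      exact hs.F_bdd _)
  have := hγf
  have := hs.mu_fin n
  have hP := fun G hG => gsp_pois_box (γ := γ) (μ := asp222Mu Cf e n) hγs (asp222_mu_supp Cf e n) (fun m j => by
    rw [hs.mu_coeff n, hγ]
    unfold asp222Phi
    have : asp222F a e (asp222Wv e n m j) = asp222F a e (asp222Wv e n m (j.natAbs : ℤ)) := by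
      rcases Int.natAbs_eq j with hj | hj
      · rw [← hj]
      · conv_lhs => rw [hj]
        exact h.F_even_j m _
    rw [this]) G hG
  refine ⟨asp222Nu γ, ?_, ?_, ?_⟩
  · unfold asp222Nu; infer_instance
  · have hms : MeasurableSet {q : ℝ × ℝ | q.1 ≠ 0 ∧ q.1 ∈ Set.Ioc (-Real.pi) Real.pi ∧ 0 ≤ q.2 ∧ q.2 ≤ 1} := by
      refine ((measurableSet_singleton (0 : ℝ)).compl.preimage measurable_fst).inter
        ((measurableSet_Ioc.preimage measurable_fst).inter ((measurableSet_Ici.preimage measurable_snd).inter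
          (measurableSet_Iic.preimage measurable_snd)))
    have : ∀ᵐ q ∂(asp222Nu γ), q.1 ≠ 0 ∧ q.1 ∈ Set.Ioc (-Real.pi) Real.pi ∧ 0 ≤ q.2 ∧ q.2 ≤ 1 := by
      unfold asp222Nu
      rw [ae_map_iff asp222_S_measurable.aemeasurable hms]
      rw [ae_withDensity_iff (show Measurable fun q : ℝ × ℝ => asp222Wt q.1 from asp222_wt_measurable.comp measurable_fst)]
      have hae : ∀ᵐ q ∂γ, q ∈ Ioc (-Real.pi) Real.pi ×ˢ Icc (0 : ℝ) 1 := by
        rw [ae_iff]; exact hγs
      filter_upwards [hae] with q hq hw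
      refine ⟨fun h0 => hw (by simp [asp222Wt, asp222S] at h0 ⊢; simp [h0]), hq.1, ?_, ?_⟩
      · exact div_nonneg (by linarith [hq.2.2]) (by linarith [hq.2.1])
      · simp only [asp222S]
        rw [div_le_one (by linarith [hq.2.1])]; linarith [hq.2.1]
    exact this
  · intro G hG
    set G' : ℝ × ℝ → ℝ≥0∞ := fun z => asp222Wt z.1 * G z with hG'
    have hG'm : Measurable G' := (asp222_wt_measurable.comp measurable_fst).mul hG
    have h1 := hP G' hG'm
    have hL : ∫⁻ p, G' p ∂(asp222Mu Cf e n) =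
        ∫⁻ p in {p | asp222Red (asp222Ph p e) ≠ 0}, G (asp222Red (asp222Ph p e), asp222Red (asp222Ph p n)) ∂Cf := by
      unfold asp222Mu
      rw [lintegral_map hG'm (asp222_T_measurable e n)]
      rw [lintegral_withDensity_eq_lintegral_mul _
        (show Measurable fun p : ℝ × ℝ => ENNReal.ofReal (asp222Rho (asp222Ph p e)) from
          (asp222_rho_measurable.comp (asp222_ph_measurable e)).ennreal_ofReal)
        (show Measurable fun p => G' (asp222T e n p) from hG'm.comp (asp222_T_measurable e n))]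
      have hset : MeasurableSet {p : ℝ × ℝ | asp222Red (asp222Ph p e) ≠ 0} :=
        (measurableSet_singleton (0 : ℝ)).compl.preimage (asp222_red_measurable.comp (asp222_ph_measurable e))
      rw [← lintegral_indicator hset]
      refine lintegral_congr fun p => ?_
      simp only [Pi.mul_apply, hG', asp222T]
      by_cases h0 : asp222Red (asp222Ph p e) = 0
      · rw [indicator_of_notMem (by simpa using h0)]
        simp [asp222Wt, h0]
      · rw [indicator_of_mem (by simpa using h0), ← mul_assoc, ← asp222_rho_red, asp222_wt_mul (asp222_red_mem _) h0, one_mul]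
    have hR : ∫⁻ q, ∫⁻ t, G (q.1, 2 * Real.arctan (q.2 * t)) ∂gspCau ∂(asp222Nu γ) =
        ∫⁻ q, ∫⁻ t, G' (q.1, 2 * Real.arctan ((1 - q.2) / (1 + q.2) * t)) ∂gspCau ∂γ := by
      have hm : Measurable fun q : ℝ × ℝ => ∫⁻ t, G (q.1, 2 * Real.arctan (q.2 * t)) ∂gspCau := by
        refine Measurable.lintegral_prod_right' (f := fun z : (ℝ × ℝ) × ℝ => G (z.1.1, 2 * Real.arctan (z.1.2 * z.2))) ?_
        exact hG.comp ((measurable_fst.comp measurable_fst).prodMk
          ((Real.measurable_arctan.comp ((measurable_snd.comp measurable_fst).mul measurable_snd)).const_mul _))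
      unfold asp222Nu
      rw [lintegral_map hm asp222_S_measurable]
      rw [lintegral_withDensity_eq_lintegral_mul _
        (show Measurable fun q : ℝ × ℝ => asp222Wt q.1 from asp222_wt_measurable.comp measurable_fst)
        (show Measurable fun q : ℝ × ℝ => ∫⁻ t, G ((asp222S q).1, 2 * Real.arctan ((asp222S q).2 * t)) ∂gspCau from
          hm.comp asp222_S_measurable)]
      refine lintegral_congr fun q => ?_
      simp only [Pi.mul_apply, hG', asp222S]
      rw [← lintegral_const_mul' _ _ (by unfold asp222Wt; split_ifs <;> simp)]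
    rw [← hL, hR, h1]

/-! ## 7. the four frames of the square grid -/

theorem asp222_tot_map (σ : AspG → AspG) (b : AspG →₀ ℝ) : aspTot (aspMap σ b) = aspTot b := by
  unfold aspTot aspMap
  exact Finsupp.sum_mapDomain_index (fun _ => rfl) (fun _ _ _ => rfl)

theorem asp222_map_map (σ τ : AspG → AspG) (b : AspG →₀ ℝ) : aspMap σ (aspMap τ b) = aspMap (σ ∘ τ) b := by
  unfold aspMap
  exact Finsupp.mapDomain_comp.symm

/-- transport of reflection positivity by a symmetry `R` of the variogram -/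
theorem asp222_rp_conj {a : AspG → ℝ} {R σ σ' : AspG → AspG} {nor nor' : AspG → ℤ}
    (hR : ∀ u v, a (R u - R v) = a (u - v)) (hσ : ∀ u, σ (R u) = R (σ' u)) (hnor : ∀ u, nor (R u) = nor' u)
    (rp : ∀ b : AspG →₀ ℝ, aspTot b = 0 → (∀ u ∈ b.support, 0 ≤ nor u) → 0 ≤ aspGam a (aspMap σ b) b)
    (b : AspG →₀ ℝ) (h0 : aspTot b = 0) (hb : ∀ u ∈ b.support, 0 ≤ nor' u) : 0 ≤ aspGam a (aspMap σ' b) b := by
  classical
  have h1 := rp (aspMap R b) (by rw [asp222_tot_map, h0]) (fun u hu => by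
    have := Finsupp.mapDomain_support hu
    rw [Finset.mem_image] at this
    obtain ⟨v, hv, rfl⟩ := this
    rw [hnor]
    exact hb v hv)
  have e1 : aspMap σ (aspMap R b) = aspMap R (aspMap σ' b) := by
    rw [asp222_map_map, asp222_map_map]
    congr 1
    funext u
    exact hσ u
  rw [e1, asp222_gam_map a R hR] at h1
  exact h1

/-- the rotation by `-π/2` of the grid -/
def asp222R (u : AspG) : AspG := (u.2, -u.1)

theorem asp222_R_inv {a : AspG → ℝ} (h : AspIn a) (u v : AspG) : a (asp222R u - asp222R v) = a (u - v) := by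
  have h1 := h.symS (u - v)
  have h2 := asp222_symY h ((u - v).2, (u - v).1)
  simp only at h2
  rw [← h1, ← h2]
  congr 1
  refine Prod.ext ?_ ?_ <;> simp [asp222R] <;> ring

/-- tangent step of the frame `i` -/
def asp222E (i : Fin 4) : AspG :=
  match i with
  | 0 => (1, 0)
  | 1 => (1, 1)
  | 2 => (0, 1)
  | 3 => (-1, 1)

/-- two-row normal step of the frame `i` -/
def asp222N (i : Fin 4) : AspG :=
  match i with
  | 0 => (0, 2)
  | 1 => (-1, 1)
  | 2 => (-2, 0)
  | 3 => (-1, -1)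

/-- one-row step of the frame `i` -/
def asp222N1 (i : Fin 4) : AspG :=
  match i with
  | 0 => (0, 1)
  | 1 => (0, 1)
  | 2 => (-1, 0)
  | 3 => (-1, 0)

theorem asp222_frame0 {a : AspG → ℝ} (h : AspIn a) :
    Asp222Frame a (aspRow 0 0) (aspNor 0) (asp222E 0) (asp222N 0) (asp222N1 0) where
  even := asp222_even h
  sadd := fun u v => by refine Prod.ext ?_ ?_ <;> simp [aspRow] <;> ring
  sa := fun u => by
    have := asp222_symY h u
    rw [← this]
    congr 1
    simp [aspRow]
  se := by simp [aspRow, asp222E]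
  sn := by simp [aspRow, asp222N]
  sn1 := by simp [aspRow, asp222N, asp222N1]
  nadd := fun u v => by simp [aspNor]
  ne := by simp [aspNor, asp222E]
  nn := by simp [aspNor, asp222N]
  nn1 := by simp [aspNor, asp222N1]
  rp := h.rp0

theorem asp222_frame1 {a : AspG → ℝ} (h : AspIn a) :
    Asp222Frame a (aspRow 1 0) (aspNor 1) (asp222E 1) (asp222N 1) (asp222N1 1) where
  even := asp222_even h
  sadd := fun u v => by refine Prod.ext ?_ ?_ <;> simp [aspRow] <;> ring
  sa := fun u => by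
    have := h.symS u
    rw [← this]
    congr 1
    simp [aspRow]
  se := by simp [aspRow, asp222E]
  sn := by simp [aspRow, asp222N]
  sn1 := by simp [aspRow, asp222N, asp222N1]
  nadd := fun u v => by simp only [aspNor, Prod.fst_add, Prod.snd_add]; ring
  ne := by simp [aspNor, asp222E]
  nn := by simp [aspNor, asp222N]
  nn1 := by simp [aspNor, asp222N1]
  rp := h.rp1

theorem asp222_frame2 {a : AspG → ℝ} (h : AspIn a) :
    Asp222Frame a (aspRow 2 0) (aspNor 2) (asp222E 2) (asp222N 2) (asp222N1 2) where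
  even := asp222_even h
  sadd := fun u v => by refine Prod.ext ?_ ?_ <;> simp [aspRow] <;> ring
  sa := fun u => by
    have := h.symX u
    rw [← this]
    congr 1
    simp [aspRow]
  se := by simp [aspRow, asp222E]
  sn := by simp [aspRow, asp222N]
  sn1 := by simp [aspRow, asp222N, asp222N1]
  nadd := fun u v => by simp only [aspNor, Prod.fst_add]; ring
  ne := by simp [aspNor, asp222E]
  nn := by simp [aspNor, asp222N]
  nn1 := by simp [aspNor, asp222N1]
  rp := asp222_rp_conj (R := asp222R) (σ := aspRow 0 0) (nor := aspNor 0) (asp222_R_inv h)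
    (fun u => by simp [aspRow, asp222R]) (fun u => by simp [aspNor, asp222R]) h.rp0

theorem asp222_frame3 {a : AspG → ℝ} (h : AspIn a) :
    Asp222Frame a (aspRow 3 0) (aspNor 3) (asp222E 3) (asp222N 3) (asp222N1 3) where
  even := asp222_even h
  sadd := fun u v => by refine Prod.ext ?_ ?_ <;> simp [aspRow] <;> ring
  sa := fun u => by
    have h1 := h.symS u
    have h2 := asp222_even h (u.2, u.1)
    rw [← h1, ← h2]
    congr 1
    simp [aspRow]
  se := by simp [aspRow, asp222E]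
  sn := by simp [aspRow, asp222N]
  sn1 := by simp [aspRow, asp222N, asp222N1]
  nadd := fun u v => by simp only [aspNor, Prod.fst_add, Prod.snd_add]; ring
  ne := by simp [aspNor, asp222E]
  nn := by simp [aspNor, asp222N]
  nn1 := by simp [aspNor, asp222N1]
  rp := asp222_rp_conj (R := asp222R) (σ := aspRow 1 0) (nor := aspNor 1) (asp222_R_inv h)
    (fun u => by simp [aspRow, asp222R]) (fun u => by simp only [aspNor, asp222R]) h.rp1

theorem asp222_frame {a : AspG → ℝ} (h : AspIn a) (i : Fin 4) :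
    Asp222Frame a (aspRow i 0) (aspNor i) (asp222E i) (asp222N i) (asp222N1 i) := by
  fin_cases i
  · exact asp222_frame0 h
  · exact asp222_frame1 h
  · exact asp222_frame2 h
  · exact asp222_frame3 h

/-- **B2**: the Cauchy mixture in each of the four frames, angle form -/
theorem asp222_mix {a : AspG → ℝ} {Cf : Measure (ℝ × ℝ)} (h : AspIn a)
    (hint : ∀ b : AspG →₀ ℝ, aspTot b = 0 → Integrable (fun p => ‖asp222Hat b p‖ ^ 2) Cf)
    (hrep : ∀ (b : AspG →₀ ℝ) (w : AspG), aspTot b = 0 → ((aspGam a b (aspTr w b) : ℝ) : ℂ) =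
      ∫ p, Complex.exp (Complex.I * (asp222Ph p w : ℂ)) * ((‖asp222Hat b p‖ ^ 2 : ℝ) : ℂ) ∂Cf) (i : Fin 4) :
    ∃ ν : Measure (ℝ × ℝ), Asp222Mix Cf ν (asp222E i) (asp222N i) :=
  asp222_mix_main (asp222_frame h i) (asp222_spec_of_rep (asp222_even h) hint hrep _)

/-! ## 8. Euclidean form -/

/-- **TEX[lem:cauchy-mixture]**, Euclidean form: tangential period `ℓ`, two-row spacing `d`; `k = θ₁ / ℓ`, `l = θ₂ / d`, `s = 2 τ / d`,
and `Q_s` is the law of `(2/d) arctan ((d/2) s t)`, `t` standard Cauchy (Cayley form of the periodised Cauchy law) -/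
structure Asp222MixE (Cf ν : Measure (ℝ × ℝ)) (e n : AspG) (ℓ d : ℝ) : Prop where
  sfin : SFinite ν
  supp : ν {q | ¬ (q.1 ≠ 0 ∧ q.1 ∈ Set.Ioc (-(Real.pi / ℓ)) (Real.pi / ℓ) ∧ 0 ≤ q.2 ∧ q.2 ≤ 2 / d)} = 0
  mix : ∀ G : ℝ × ℝ → ℝ≥0∞, Measurable G →
    ∫⁻ p in {p | asp222Red (asp222Ph p e) ≠ 0}, G (asp222Red (asp222Ph p e) / ℓ, asp222Red (asp222Ph p n) / d) ∂Cf =
      ∫⁻ q, ∫⁻ t, G (q.1, 2 / d * Real.arctan (d / 2 * (q.2 * t))) ∂gspCau ∂ν

theorem Asp222Mix.euclid {Cf ν : Measure (ℝ × ℝ)} {e n : AspG} (hm : Asp222Mix Cf ν e n) {ℓ d : ℝ} (hℓ : 0 < ℓ) (hd : 0 < d) :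
    Asp222MixE Cf (ν.map fun q => (q.1 / ℓ, 2 / d * q.2)) e n ℓ d := by
  have := hm.sfin
  have hΦ : Measurable fun q : ℝ × ℝ => (q.1 / ℓ, 2 / d * q.2) :=
    (measurable_fst.div_const _).prodMk (measurable_snd.const_mul _)
  refine ⟨inferInstance, ?_, ?_⟩
  · have hms : MeasurableSet {q : ℝ × ℝ | q.1 ≠ 0 ∧ q.1 ∈ Set.Ioc (-(Real.pi / ℓ)) (Real.pi / ℓ) ∧ 0 ≤ q.2 ∧ q.2 ≤ 2 / d} := by
      refine ((measurableSet_singleton (0 : ℝ)).compl.preimage measurable_fst).inter
        ((measurableSet_Ioc.preimage measurable_fst).inter ((measurableSet_Ici.preimage measurable_snd).inter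
          (measurableSet_Iic.preimage measurable_snd)))
    have : ∀ᵐ q ∂(ν.map fun q => (q.1 / ℓ, 2 / d * q.2)),
        q.1 ≠ 0 ∧ q.1 ∈ Set.Ioc (-(Real.pi / ℓ)) (Real.pi / ℓ) ∧ 0 ≤ q.2 ∧ q.2 ≤ 2 / d := by
      rw [ae_map_iff hΦ.aemeasurable hms]
      have hae : ∀ᵐ q ∂ν, q.1 ≠ 0 ∧ q.1 ∈ Set.Ioc (-Real.pi) Real.pi ∧ 0 ≤ q.2 ∧ q.2 ≤ 1 := by
        rw [ae_iff]; exact hm.supp
      filter_upwards [hae] with q hq
      refine ⟨div_ne_zero hq.1 hℓ.ne', ⟨?_, ?_⟩, ?_, ?_⟩
      · rw [← neg_div]; exact div_lt_div_of_pos_right hq.2.1.1 hℓ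
      · exact div_le_div_of_nonneg_right hq.2.1.2 hℓ.le
      · have := hq.2.2.1; positivity
      · calc 2 / d * q.2 ≤ 2 / d * 1 := by gcongr; exact hq.2.2.2
          _ = 2 / d := mul_one _
    exact this
  · intro G hG
    have h1 := hm.mix (fun z => G (z.1 / ℓ, z.2 / d)) (hG.comp ((measurable_fst.div_const _).prodMk (measurable_snd.div_const _)))
    rw [h1]
    have hmeas : Measurable fun q : ℝ × ℝ => ∫⁻ t, G (q.1, 2 / d * Real.arctan (d / 2 * (q.2 * t))) ∂gspCau := by
      refine Measurable.lintegral_prod_right'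
        (f := fun z : (ℝ × ℝ) × ℝ => G (z.1.1, 2 / d * Real.arctan (d / 2 * (z.1.2 * z.2)))) ?_
      exact hG.comp ((measurable_fst.comp measurable_fst).prodMk
        ((Real.measurable_arctan.comp (((measurable_snd.comp measurable_fst).mul measurable_snd).const_mul _)).const_mul _))
    rw [lintegral_map hmeas hΦ]
    refine lintegral_congr fun q => lintegral_congr fun t => ?_
    congr 2
    have : d / 2 * (2 / d * q.2 * t) = q.2 * t := by field_simp
    rw [this]
    ring

/-! ## 9. the contract B2 in the vocabulary of `Defs/SPEC` -/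

theorem asp222_red_scale {q : ℝ} (hq : 0 < q) (x : ℝ) : aspRed q x = asp222Red (q * x) / q := by
  have hp : 0 < 2 * Real.pi / q := by positivity
  unfold aspRed
  rw [dif_pos hp, toIocMod_eq_iff]
  have hm := asp222_red_mem (q * x)
  obtain ⟨z, hz⟩ := asp222_red_sub (q * x)
  refine ⟨⟨?_, ?_⟩, z, ?_⟩
  · rw [← neg_div]; exact div_lt_div_of_pos_right hm.1 hq
  · have e : -(Real.pi / q) + 2 * Real.pi / q = Real.pi / q := by ring
    rw [e]; exact div_le_div_of_nonneg_right hm.2 hq.le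
  · rw [zsmul_eq_mul]
    have : x = (q * x) / q := by field_simp
    conv_lhs => rw [this, hz]
    ring

theorem asp222_ph_E (i : Fin 4) (p : ℝ × ℝ) : asp222Ph p (asp222E i) = aspTanP i * (aspFr i p).1 := by
  have h2 : Real.sqrt 2 ≠ 0 := by positivity
  fin_cases i
  · simp [asp222Ph, asp222E, aspTanP, aspFr]
  · simp only [asp222Ph, asp222E, aspTanP, aspFr]
    field_simp
    push_cast
    ring
  · simp [asp222Ph, asp222E, aspTanP, aspFr]
  · simp only [asp222Ph, asp222E, aspTanP, aspFr]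
    field_simp
    push_cast
    ring

theorem asp222_ph_N (i : Fin 4) (p : ℝ × ℝ) : asp222Ph p (asp222N i) = aspNorP i * (aspFr i p).2 := by
  have h2 : Real.sqrt 2 ≠ 0 := by positivity
  fin_cases i
  · simp [asp222Ph, asp222N, aspNorP, aspFr, mul_comm]
  · simp only [asp222Ph, asp222N, aspNorP, aspFr]
    field_simp
    push_cast
    ring
  · simp only [asp222Ph, asp222N, aspNorP, aspFr]
    push_cast
    ring
  · simp only [asp222Ph, asp222N, aspNorP, aspFr]
    field_simp
    push_cast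
    ring

theorem asp222_frR (i : Fin 4) (p : ℝ × ℝ) :
    aspFrR i p = (asp222Red (asp222Ph p (asp222E i)) / aspTanP i, asp222Red (asp222Ph p (asp222N i)) / aspNorP i) := by
  unfold aspFrR
  rw [asp222_red_scale (asp_tanP_pos i), asp222_red_scale (asp_norP_pos i), asp222_ph_E, asp222_ph_N]

theorem Asp222MixE.toAspMix {Cf ν : Measure (ℝ × ℝ)} {i : Fin 4}
    (hm : Asp222MixE Cf ν (asp222E i) (asp222N i) (aspTanP i) (aspNorP i)) : AspMix i Cf ν := by
  refine ⟨hm.sfin, hm.supp, fun G hG => ?_⟩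
  have h1 := hm.mix G hG
  have hset : {p : ℝ × ℝ | (aspFrR i p).1 ≠ 0} = {p | asp222Red (asp222Ph p (asp222E i)) ≠ 0} := by
    ext p
    simp only [mem_setOf_eq, asp222_frR]
    rw [Ne, div_eq_zero_iff, not_or]
    exact ⟨fun h => h.1, fun h => ⟨h, (asp_tanP_pos i).ne'⟩⟩
  rw [hset]
  simp only [asp222_frR]
  exact h1

/-- **CONTRACT B2** (`asp_mix` of `Spec/B2.lean`) -/
theorem asp222_mix_box {a : AspG → ℝ} {Cf : Measure (ℝ × ℝ)} {K : ℝ} (h : AspIn a) (hs : AspSpec a Cf K) (i : Fin 4) :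
    ∃ ν : Measure (ℝ × ℝ), AspMix i Cf ν := by
  obtain ⟨ν, hν⟩ := asp222_mix h hs.int hs.rep i
  exact ⟨_, (hν.euclid (asp_tanP_pos i) (asp_norP_pos i)).toAspMix⟩

end Claimed.Agent.R292
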