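import Claimed.Agent.R292.Defs.SPECI
import Claimed.Agent.R292.Spec.Mix222

/-!
# Row 292 (S0540), Spec/Inst79 : THE INSTANCE OF SEC. 4, PLANE LEVEL      (owner helper79; prefix `asi`)      port of R291 Pln/Inst

From `AsiHt c` (existence of the plane limits + even translations), `AsiFv c` (four finite volume facts: two symmetries of the flat law in the straight boxes `rswBox 0 n`, reflection positivity across the
axial row `s.2 = 0` and across the antidiagonal `s.1 + s.2 = 0` of the turned corner lattice; supplier 212), the smeared second moment and the lower variance bound: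
* `asi_cov_eq_of : aspTot b = 0 → aspTot b' = 0 → asiCov c b b' = aspGam (asiVg c) b b'`      (bilinearity + stationarity + polarisation)
* `asi_in_of : AspIn (asiVg c)`
-/

set_option autoImplicit false

namespace Claimed.Agent.R292

open Claims Claims.C0468 MeasureTheory Filter Topology Set

/-- the four finite volume facts (supplier: 212, Spec/Rp212) -/
structure AsiFv (c : ℝ) : Prop where
  symA : ∀ (R : ℕ) (G : (MdlS → ℤ) → ℝ),
    mdlFz c (rswBox 0 R) (fun h => G (fun u => h (u.2, u.1))) = mdlFz c (rswBox 0 R) G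
  symB : ∀ (R : ℕ) (G : (MdlS → ℤ) → ℝ),
    mdlFz c (rswBox 0 R) (fun h => G (fun u => h (u.1, -u.2))) = mdlFz c (rswBox 0 R) G
  rpA : ∀ (R : ℕ) (F : (MdlS → ℤ) → ℝ), (∀ h h' : MdlS → ℤ, (∀ u : MdlS, 0 ≤ u.2 → h u = h' u) → F h = F h') →
    0 ≤ mdlFz c (rswBox 0 R) (fun h => F (fun u => h (u.1, -u.2)) * F h)
  rpD : ∀ (R : ℕ) (F : (MdlS → ℤ) → ℝ), (∀ h h' : MdlS → ℤ, (∀ u : MdlS, 0 ≤ u.1 + u.2 → h u = h' u) → F h = F h') →
    0 ≤ mdlFz c (rswBox 0 R) (fun h => F (fun u => h (-u.2, -u.1)) * F h)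

/-! ### 0. linearity and positivity of `mdlFz` -/

theorem asi_E_add (c : ℝ) (F : Finset (ℤ × ℤ)) (G G' : (MdlS → ℤ) → ℝ) :
    mdlFz c F (fun h => G h + G' h) = mdlFz c F G + mdlFz c F G' := by
  unfold mdlFz mdlEQ
  rw [← add_div, ← Finset.sum_add_distrib]
  congr 1
  exact Finset.sum_congr rfl fun h _ => by ring

theorem asi_E_smul (c : ℝ) (F : Finset (ℤ × ℤ)) (r : ℝ) (G : (MdlS → ℤ) → ℝ) :
    mdlFz c F (fun h => r * G h) = r * mdlFz c F G := by
  unfold mdlFz mdlEQ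
  rw [← mul_div_assoc, Finset.mul_sum]
  congr 1
  exact Finset.sum_congr rfl fun h _ => by ring

theorem asi_E_nonneg {c : ℝ} (hc : 0 ≤ c) (F : Finset (ℤ × ℤ)) {G : (MdlS → ℤ) → ℝ} (hG : ∀ h, 0 ≤ G h) :
    0 ≤ mdlFz c F G := by
  unfold mdlFz mdlEQ mdlZQ mdlWt
  exact div_nonneg (Finset.sum_nonneg fun h _ => mul_nonneg (pow_nonneg hc _) (hG h))
    (Finset.sum_nonneg fun h _ => pow_nonneg hc _)

theorem asi_E_zero (c : ℝ) (F : Finset (ℤ × ℤ)) : mdlFz c F (fun _ => 0) = 0 := by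
  unfold mdlFz mdlEQ
  simp

/-! ### A. the pairing `asiArr` -/

theorem asi_V_add (u v : AspG) : mdlV (u + v) = mdlV u + mdlV v := by
  unfold mdlV
  ext <;> simp <;> ring

theorem asi_V_zero : mdlV 0 = 0 := by
  unfold mdlV; simp

theorem asi_V_even (w : AspG) : ((mdlV w).1 + (mdlV w).2) % 2 = 0 := by
  unfold mdlV
  simp only
  omega

theorem asi_arr_add (a a' : AspG →₀ ℝ) (h : MdlS → ℤ) : asiArr (a + a') h = asiArr a h + asiArr a' h := by
  unfold asiArr
  exact Finsupp.sum_add_index' (fun _ => by simp) (fun _ _ _ => by ring)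

theorem asi_arr_smul (r : ℝ) (a : AspG →₀ ℝ) (h : MdlS → ℤ) : asiArr (r • a) h = r * asiArr a h := by
  unfold asiArr
  rw [Finsupp.sum_smul_index' (fun _ => by simp), Finsupp.mul_sum]
  refine Finsupp.sum_congr fun u _ => ?_
  simp only [smul_eq_mul]; ring

theorem asi_arr_zero (h : MdlS → ℤ) : asiArr 0 h = 0 := by
  unfold asiArr; simp

theorem asi_arr_single (u : AspG) (r : ℝ) (h : MdlS → ℤ) : asiArr (Finsupp.single u r) h = r * ((h (mdlV u) : ℝ) / 2) := by
  unfold asiArr; rw [Finsupp.sum_single_index (by simp)]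

/-- transport: `σ` on the primal lattice, `σ'` on the corner lattice, intertwined by `mdlV` -/
theorem asi_arr_map (σ : AspG → AspG) (σ' : MdlS → MdlS) (hσ : ∀ v, mdlV (σ v) = σ' (mdlV v)) (b : AspG →₀ ℝ) (h : MdlS → ℤ) :
    asiArr (aspMap σ b) h = asiArr b (fun u => h (σ' u)) := by
  unfold asiArr aspMap
  rw [Finsupp.sum_mapDomain_index (fun _ => by simp) (fun _ _ _ => by ring)]
  exact Finsupp.sum_congr fun v _ => by rw [hσ]

theorem asi_arr_tr (w : AspG) (b : AspG →₀ ℝ) (h : MdlS → ℤ) : asiArr (aspTr w b) h = asiArr b (fun u => h (u + mdlV w)) :=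
  asi_arr_map (· + w) (· + mdlV w) (fun v => asi_V_add v w) b h

theorem asi_arr_shift (b : AspG →₀ ℝ) (h : MdlS → ℤ) (k : ℤ) : asiArr b (fun u => h u + k) = asiArr b h + k / 2 * aspTot b := by
  unfold asiArr aspTot
  rw [Finsupp.mul_sum, ← Finsupp.sum_add]
  refine Finsupp.sum_congr fun u _ => ?_
  push_cast; ring

theorem asi_arr_loc (b : AspG →₀ ℝ) {S : Set MdlS} (hS : ∀ v ∈ b.support, mdlV v ∈ S) {h h' : MdlS → ℤ} (hh : ∀ u ∈ S, h u = h' u) :
    asiArr b h = asiArr b h' := by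
  unfold asiArr
  exact Finsupp.sum_congr fun v hv => by rw [hh _ (hS v hv)]

theorem asi_GG_loc (b b' : AspG →₀ ℝ) : MdlLoc ((b.support ∪ b'.support).image mdlV) (fun h => asiArr b h * asiArr b' h) := by
  intro h h' hh
  show asiArr b h * asiArr b' h = asiArr b h' * asiArr b' h'
  rw [asi_arr_loc b (S := ↑((b.support ∪ b'.support).image mdlV))
      (fun v hv => Finset.mem_coe.2 (Finset.mem_image_of_mem _ (Finset.mem_union_left _ hv))) (fun u hu => hh u hu),
    asi_arr_loc b' (S := ↑((b.support ∪ b'.support).image mdlV))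
      (fun v hv => Finset.mem_coe.2 (Finset.mem_image_of_mem _ (Finset.mem_union_right _ hv))) (fun u hu => hh u hu)]

theorem asi_GG_grad {b b' : AspG →₀ ℝ} (hb : aspTot b = 0) (hb' : aspTot b' = 0) : MdlGrad (fun h => asiArr b h * asiArr b' h) := by
  intro h k
  show asiArr b (fun u => h u + k) * asiArr b' (fun u => h u + k) = _
  rw [asi_arr_shift, asi_arr_shift, hb, hb']; simp

/-! ### B. the plane covariance form -/

theorem asi_cov_tendsto {c : ℝ} (hP : AsiHt c) {b b' : AspG →₀ ℝ} (hb : aspTot b = 0) (hb' : aspTot b' = 0) :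
    Tendsto (fun R : ℕ => mdlFz c (rswBox 0 R) (fun h => asiArr b h * asiArr b' h)) atTop (𝓝 (asiCov c b b')) :=
  hP.lim _ _ (asi_GG_loc b b') (asi_GG_grad hb hb')

theorem asi_cov_add {c : ℝ} (hP : AsiHt c) {b1 b2 b' : AspG →₀ ℝ} (h1 : aspTot b1 = 0) (h2 : aspTot b2 = 0) (hb' : aspTot b' = 0) :
    asiCov c (b1 + b2) b' = asiCov c b1 b' + asiCov c b2 b' := by
  have h12 : aspTot (b1 + b2) = 0 := by rw [asp222_tot_add, h1, h2, add_zero]
  refine tendsto_nhds_unique (asi_cov_tendsto hP h12 hb') ?_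
  refine ((asi_cov_tendsto hP h1 hb').add (asi_cov_tendsto hP h2 hb')).congr (fun R => ?_)
  rw [← asi_E_add]
  congr 1
  funext h
  rw [asi_arr_add]; ring

theorem asi_cov_smul {c : ℝ} (hP : AsiHt c) (r : ℝ) {b b' : AspG →₀ ℝ} (hb : aspTot b = 0) (hb' : aspTot b' = 0) :
    asiCov c (r • b) b' = r * asiCov c b b' := by
  have hc : aspTot (r • b) = 0 := by rw [asp222_tot_smul, hb, mul_zero]
  refine tendsto_nhds_unique (asi_cov_tendsto hP hc hb') ?_
  refine ((asi_cov_tendsto hP hb hb').const_mul r).congr (fun R => ?_)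
  rw [← asi_E_smul]
  congr 1
  funext h
  rw [asi_arr_smul]; ring

theorem asi_cov_symm (c : ℝ) (b b' : AspG →₀ ℝ) : asiCov c b b' = asiCov c b' b := by
  unfold asiCov
  congr 1
  funext h
  exact mul_comm _ _

theorem asi_cov_psd {c : ℝ} (hc : 0 ≤ c) (hP : AsiHt c) {b : AspG →₀ ℝ} (hb : aspTot b = 0) : 0 ≤ asiCov c b b :=
  ge_of_tendsto' (asi_cov_tendsto hP hb hb) (fun _ => asi_E_nonneg hc _ (fun _ => mul_self_nonneg _))

theorem asi_cov_tr {c : ℝ} (hP : AsiHt c) (w : AspG) {b b' : AspG →₀ ℝ} (hb : aspTot b = 0) (hb' : aspTot b' = 0) :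
    asiCov c (aspTr w b) (aspTr w b') = asiCov c b b' := by
  have := hP.trans _ _ (mdlV w) (asi_V_even w) (asi_GG_loc b b') (asi_GG_grad hb hb')
  unfold asiCov
  rw [← this]
  congr 1
  funext h
  rw [asi_arr_tr, asi_arr_tr]

/-- primal `(x, y) ↦ (-x, y)` is the swap of the corner lattice -/
theorem asi_cov_symX {c : ℝ} (hF : AsiFv c) (b b' : AspG →₀ ℝ) :
    asiCov c (aspMap (fun u => (-u.1, u.2)) b) (aspMap (fun u => (-u.1, u.2)) b') = asiCov c b b' := by
  unfold asiCov mdlPln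
  congr 1
  funext R
  rw [← hF.symA R (fun h => asiArr b h * asiArr b' h)]
  congr 1
  funext h
  have e : ∀ v : AspG, mdlV ((fun u : AspG => (-u.1, u.2)) v) = (fun u : MdlS => (u.2, u.1)) (mdlV v) := by
    intro v
    unfold mdlV
    ext <;> simp <;> ring
  rw [asi_arr_map _ (fun u : MdlS => (u.2, u.1)) e, asi_arr_map _ (fun u : MdlS => (u.2, u.1)) e]

/-- primal `(x, y) ↦ (y, x)` is `s ↦ (s.1, -s.2)` -/
theorem asi_cov_symS {c : ℝ} (hF : AsiFv c) (b b' : AspG →₀ ℝ) :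
    asiCov c (aspMap (fun u => (u.2, u.1)) b) (aspMap (fun u => (u.2, u.1)) b') = asiCov c b b' := by
  unfold asiCov mdlPln
  congr 1
  funext R
  rw [← hF.symB R (fun h => asiArr b h * asiArr b' h)]
  congr 1
  funext h
  have e : ∀ v : AspG, mdlV ((fun u : AspG => (u.2, u.1)) v) = (fun u : MdlS => (u.1, -u.2)) (mdlV v) := by
    intro v
    unfold mdlV
    ext <;> simp <;> ring
  rw [asi_arr_map _ (fun u : MdlS => (u.1, -u.2)) e, asi_arr_map _ (fun u : MdlS => (u.1, -u.2)) e]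

theorem asi_vg_eq (c : ℝ) (v : AspG) : asiVg c v = asiCov c (asp222G v) (asp222G v) := by
  unfold asiVg asiCov
  congr 1
  funext h
  have : asiArr (asp222G v) h = ((h (mdlV v) : ℝ) - (h (mdlV 0) : ℝ)) / 2 := by
    unfold asp222G
    rw [sub_eq_add_neg, ← Finsupp.single_neg, asi_arr_add, asi_arr_single, asi_arr_single]
    ring
  rw [this]; ring

/-! ### C. `asiCov = aspGam` on zero-total arrays -/

/-- total mass as a linear map -/
noncomputable def asiTotL : (AspG →₀ ℝ) →ₗ[ℝ] ℝ := Finsupp.lsum ℝ fun _ => LinearMap.id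

theorem asi_totL (b : AspG →₀ ℝ) : asiTotL b = aspTot b := by
  unfold asiTotL aspTot
  simp only [Finsupp.lsum_apply, LinearMap.id_coe]
  rfl

/-- the projection `b ↦ b - (total b) δ_0` on the zero-total arrays -/
noncomputable def asiPr : (AspG →₀ ℝ) →ₗ[ℝ] (AspG →₀ ℝ) := LinearMap.id - asiTotL.smulRight (Finsupp.single 0 1)

theorem asi_pr_apply (b : AspG →₀ ℝ) : asiPr b = b - aspTot b • Finsupp.single 0 1 := by
  unfold asiPr
  simp [asi_totL]

theorem asi_pr_tot (b : AspG →₀ ℝ) : aspTot (asiPr b) = 0 := by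
  rw [asi_pr_apply, sub_eq_add_neg, ← neg_smul, asp222_tot_add, asp222_tot_smul, asp222_tot_single]; ring

theorem asi_pr_of_tot {b : AspG →₀ ℝ} (hb : aspTot b = 0) : asiPr b = b := by
  rw [asi_pr_apply, hb]; simp

theorem asi_pr_single (u : AspG) : asiPr (Finsupp.single u 1) = asp222G u := by
  rw [asi_pr_apply, asp222_tot_single, one_smul]; rfl

theorem asi_cov_add_right {c : ℝ} (hP : AsiHt c) {b b1 b2 : AspG →₀ ℝ} (hb : aspTot b = 0) (h1 : aspTot b1 = 0) (h2 : aspTot b2 = 0) :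
    asiCov c b (b1 + b2) = asiCov c b b1 + asiCov c b b2 := by
  rw [asi_cov_symm, asi_cov_add hP h1 h2 hb, asi_cov_symm c b1, asi_cov_symm c b2]

theorem asi_cov_smul_right {c : ℝ} (hP : AsiHt c) (r : ℝ) {b b' : AspG →₀ ℝ} (hb : aspTot b = 0) (hb' : aspTot b' = 0) :
    asiCov c b (r • b') = r * asiCov c b b' := by
  rw [asi_cov_symm, asi_cov_smul hP r hb' hb, asi_cov_symm]

/-- the plane covariance as a bilinear map (through the projection) -/
noncomputable def asiB {c : ℝ} (hP : AsiHt c) : (AspG →₀ ℝ) →ₗ[ℝ] (AspG →₀ ℝ) →ₗ[ℝ] ℝ :=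
  LinearMap.mk₂ ℝ (fun b b' => asiCov c (asiPr b) (asiPr b'))
    (fun b1 b2 b' => by rw [map_add]; exact asi_cov_add hP (asi_pr_tot _) (asi_pr_tot _) (asi_pr_tot _))
    (fun r b b' => by rw [map_smul]; exact asi_cov_smul hP r (asi_pr_tot _) (asi_pr_tot _))
    (fun b b1 b2 => by rw [map_add]; exact asi_cov_add_right hP (asi_pr_tot _) (asi_pr_tot _) (asi_pr_tot _))
    (fun r b b' => by rw [map_smul]; exact asi_cov_smul_right hP r (asi_pr_tot _) (asi_pr_tot _))

theorem asi_B_apply {c : ℝ} (hP : AsiHt c) (b b' : AspG →₀ ℝ) : asiB hP b b' = asiCov c (asiPr b) (asiPr b') := rfl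

theorem asi_G_zero : asp222G 0 = 0 := by unfold asp222G; simp

theorem asi_vg_zero (c : ℝ) : asiVg c 0 = 0 := by
  unfold asiVg mdlPln
  have e : (fun R : ℕ => mdlFz c (rswBox 0 R) fun h => (((h (mdlV 0) : ℝ) - (h (mdlV 0) : ℝ)) / 2) ^ 2) = fun _ => 0 := by
    funext R
    rw [← asi_E_zero c (rswBox 0 R)]
    congr 1
    funext h
    simp
  rw [e]
  exact tendsto_const_nhds.limUnder_eq

theorem asi_G_sub (u v : AspG) : asp222G u - asp222G v = aspTr v (asp222G (u - v)) := by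
  rw [asp222_tr_G, sub_add_cancel]
  unfold asp222G
  abel

/-- polarisation -/
theorem asi_cov_GG {c : ℝ} (hP : AsiHt c) (u v : AspG) :
    asiCov c (asp222G u) (asp222G v) = 1 / 2 * (asiVg c u + asiVg c v - asiVg c (u - v)) := by
  have hu := asp222_tot_G u
  have hv := asp222_tot_G v
  have hnv : aspTot ((-1 : ℝ) • asp222G v) = 0 := by rw [asp222_tot_smul, hv, mul_zero]
  have h1 : asiCov c (asp222G u - asp222G v) (asp222G u - asp222G v) = asiVg c (u - v) := by
    rw [asi_G_sub, asi_cov_tr hP v (asp222_tot_G _) (asp222_tot_G _), asi_vg_eq]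
  have e : asp222G u - asp222G v = asp222G u + (-1 : ℝ) • asp222G v := by rw [neg_one_smul, sub_eq_add_neg]
  have hs : aspTot (asp222G u + (-1 : ℝ) • asp222G v) = 0 := by rw [asp222_tot_add, hu, hnv, add_zero]
  rw [e, asi_cov_add hP hu hnv hs, asi_cov_add_right hP hu hu hnv, asi_cov_smul hP _ hv hs,
    asi_cov_add_right hP hv hu hnv, asi_cov_smul_right hP _ hu hv, asi_cov_smul_right hP _ hv hv,
    asi_cov_symm c (asp222G v) (asp222G u)] at h1
  rw [asi_vg_eq c u, asi_vg_eq c v]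
  linarith

theorem asi_vg_even {c : ℝ} (hP : AsiHt c) (u : AspG) : asiVg c (-u) = asiVg c u := by
  have h := asi_cov_GG hP 0 u
  have hz : asiCov c (asp222G 0) (asp222G u) = 0 := by
    have := asi_cov_smul hP 0 (asp222_tot_G 0) (asp222_tot_G u)
    rw [zero_smul, zero_mul] at this
    rw [asi_G_zero]; exact this
  rw [hz, asi_vg_zero, zero_sub] at h
  linarith

/-- **the plane covariance is the covariance form of its variogram** -/
theorem asi_cov_eq_of {c : ℝ} (hP : AsiHt c) {b b' : AspG →₀ ℝ} (hb : aspTot b = 0) (hb' : aspTot b' = 0) :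
    asiCov c b b' = aspGam (asiVg c) b b' := by
  have key : asiB hP = (asp222GamL (asiVg c)).compl₁₂ asiPr asiPr := by
    apply asp222_bil_ext
    intro u v
    rw [asi_B_apply, LinearMap.compl₁₂_apply, asi_pr_single, asi_pr_single, asi_cov_GG hP]
    unfold asp222G
    simp only [map_sub, LinearMap.sub_apply, asp222_gamL_single, sub_zero, zero_sub, asi_vg_zero, asi_vg_even hP]
    ring
  have := congrArg (fun B => B b b') key
  simp only [asi_B_apply, LinearMap.compl₁₂_apply, asi_pr_of_tot hb, asi_pr_of_tot hb'] at this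
  rw [this, asp222_gam_eq]

/-! ### D. the fields of `AspIn (asiVg c)` -/

theorem asi_map_G {σ : AspG → AspG} (h0 : σ 0 = 0) (u : AspG) : aspMap σ (asp222G u) = asp222G (σ u) := by
  unfold aspMap asp222G
  rw [sub_eq_add_neg, Finsupp.mapDomain_add, ← Finsupp.single_neg, Finsupp.mapDomain_single, Finsupp.mapDomain_single,
    Finsupp.single_neg, ← sub_eq_add_neg, h0]

theorem asi_vg_symX {c : ℝ} (hF : AsiFv c) (u : AspG) : asiVg c (-u.1, u.2) = asiVg c u := by
  rw [asi_vg_eq, asi_vg_eq, ← asi_cov_symX hF (asp222G u) (asp222G u), asi_map_G (σ := fun u : AspG => (-u.1, u.2)) (by simp)]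

theorem asi_vg_symS {c : ℝ} (hF : AsiFv c) (u : AspG) : asiVg c (u.2, u.1) = asiVg c u := by
  rw [asi_vg_eq, asi_vg_eq, ← asi_cov_symS hF (asp222G u) (asp222G u), asi_map_G (σ := fun u : AspG => (u.2, u.1)) (by simp)]

theorem asi_rp0 {c : ℝ} (hP : AsiHt c) (hF : AsiFv c) {b : AspG →₀ ℝ} (hb : aspTot b = 0) (hs : ∀ u ∈ b.support, 0 ≤ aspNor 0 u) :
    0 ≤ asiCov c (aspMap (aspRow 0 0) b) b := by
  have hb' : aspTot (aspMap (aspRow 0 0) b) = 0 := by rw [asp222_tot_map, hb]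
  refine ge_of_tendsto' (asi_cov_tendsto hP hb' hb) (fun R => ?_)
  have := hF.rpD R (asiArr b)
    (fun h h' hh => asi_arr_loc b (S := {u : MdlS | 0 ≤ u.1 + u.2}) (fun v hv => by
      have := hs v hv
      simp only [aspNor] at this
      simp only [mdlV, Set.mem_ofPred_eq]
      omega) (fun u hu => hh u hu))
  refine this.trans_eq ?_
  congr 1
  funext h
  have e : ∀ v : AspG, mdlV (aspRow 0 0 v) = (fun u : MdlS => (-u.2, -u.1)) (mdlV v) := by
    intro v
    simp only [aspRow, mdlV]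
    ext <;> simp <;> ring
  rw [asi_arr_map _ (fun u : MdlS => (-u.2, -u.1)) e]

theorem asi_rp1 {c : ℝ} (hP : AsiHt c) (hF : AsiFv c) {b : AspG →₀ ℝ} (hb : aspTot b = 0) (hs : ∀ u ∈ b.support, 0 ≤ aspNor 1 u) :
    0 ≤ asiCov c (aspMap (aspRow 1 0) b) b := by
  have hb' : aspTot (aspMap (aspRow 1 0) b) = 0 := by rw [asp222_tot_map, hb]
  refine ge_of_tendsto' (asi_cov_tendsto hP hb' hb) (fun R => ?_)
  have := hF.rpA R (asiArr b)
    (fun h h' hh => asi_arr_loc b (S := {u : MdlS | 0 ≤ u.2}) (fun v hv => by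
      have := hs v hv
      simp only [aspNor] at this
      simp only [mdlV, Set.mem_ofPred_eq]
      omega) (fun u hu => hh u hu))
  refine this.trans_eq ?_
  congr 1
  funext h
  have e : ∀ v : AspG, mdlV (aspRow 1 0 v) = (fun u : MdlS => (u.1, -u.2)) (mdlV v) := by
    intro v
    simp only [aspRow, mdlV]
    ext <;> simp <;> ring
  rw [asi_arr_map _ (fun u : MdlS => (u.1, -u.2)) e]

/-- **the instance** -/
theorem asi_in_of {c : ℝ} (hc : 0 ≤ c) (hP : AsiHt c) (hF : AsiFv c)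
    (hsm : ∃ K : ℝ, ∀ N : ℕ, 1 ≤ N → ∀ b : AspG →₀ ℝ, aspTot b = 0 → (∀ u ∈ b.support, |u.1| ≤ (N : ℤ) ∧ |u.2| ≤ (N : ℤ)) →
      (∀ u, |b u| ≤ 1 / (N : ℝ) ^ 2) → ∀ᶠ R : ℕ in atTop, mdlFz c (rswBox 0 R) (fun h => asiArr b h ^ 2) ≤ K)
    (hnd : ∃ f : ℝ × ℝ → ℝ, AspTest f ∧ ∫ z, f z = 0 ∧ ∃ κ : ℝ, 0 < κ ∧ ∀ᶠ δ in 𝓝[>] (0 : ℝ), aspTot (aspW δ f) = 0 ∧
      ∀ᶠ R : ℕ in atTop, κ ≤ mdlFz c (rswBox 0 R) (fun h => asiArr (aspW δ f) h ^ 2)) :
    AspIn (asiVg c) := by
  have hsq : ∀ (b : AspG →₀ ℝ), (fun h : MdlS → ℤ => asiArr b h ^ 2) = fun h => asiArr b h * asiArr b h := by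
    intro b; funext h; ring
  refine ⟨asi_vg_zero c, fun b hb => ?_, asi_vg_symX hF, asi_vg_symS hF, fun b hb hs => ?_, fun b hb hs => ?_, ?_, ?_⟩
  · rw [← asi_cov_eq_of hP hb hb]; exact asi_cov_psd hc hP hb
  · rw [← asi_cov_eq_of hP (by rw [asp222_tot_map, hb]) hb]; exact asi_rp0 hP hF hb hs
  · rw [← asi_cov_eq_of hP (by rw [asp222_tot_map, hb]) hb]; exact asi_rp1 hP hF hb hs
  · obtain ⟨K, hK⟩ := hsm
    refine ⟨K, fun N hN b hb h1 h2 => ?_⟩
    rw [← asi_cov_eq_of hP hb hb]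
    refine le_of_tendsto (asi_cov_tendsto hP hb hb) ?_
    filter_upwards [hK N hN b hb h1 h2] with R hR
    rwa [hsq] at hR
  · obtain ⟨f, hf, hf0, κ, hκ, H⟩ := hnd
    refine ⟨f, hf, hf0, κ, hκ, ?_⟩
    filter_upwards [H] with δ hδ
    obtain ⟨ht, hR⟩ := hδ
    rw [← asi_cov_eq_of hP ht ht]
    refine ge_of_tendsto (asi_cov_tendsto hP ht ht) ?_
    filter_upwards [hR] with R hR
    rwa [hsq] at hR

end Claimed.Agent.R292
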