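import Claimed.Agent.R292.Spec.Core102
import Claimed.Agent.R291.Pln.PncCoef

/-!
# Row 292 (S0540), unit SPEC, B3 : uniqueness of the coefficient (two-frame cutoff identity) and the FULL spectral limit      (helper102; prefix `asq`)

Port of R291 `Pln/PncCoef.lean` (helper140; TEX[Triangular Lemma 4.8]) to the contract `AsqIn` of `Spec/Core102.lean` (two frames at angle `π/4`).
The AT paper has only a subsequential coefficient in TEX[prop:plane-green]; here the limit is FULL: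
* `J(h) = ∫ χ (q0(|p|/h) - q0(k/h)) dC0 = Jr(h) + [tangential half]`;  the tangential half has a full limit in each frame (`asq_J_lim`: `mix` + `pnc_ang` + three dominated convergences);
  the radial halves of the two frames are opposite (`asq_Jr_swap`, `χ ∘ asqR = -χ`);
* `J(h) - c_h ∫ Ξ → 0` in each frame (`asq_J_asymp`), `∫ Ξ = -π/2` (R291 `pnc_IXi`), `c_h - c'_h → 0` (`asq_c_diff`);  hence `c_h` converges (`asq_c_lim`).
* `asq_main` : `Λ_δ Ψ → c ∫ Ψ`;   `asq_fam` : the same for `δ`-dependent families with decay `(1+|ζ|)⁻³`.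
-/

set_option autoImplicit false

namespace Claimed.Agent.R292

open MeasureTheory Filter Topology
open scoped ENNReal Real
open Claimed.Agent.R291

/-- the cutoff functional -/
noncomputable def asqJ (I : AsqIn) (h : ℝ) : ℝ := ∫ p, pncChi p * (pncq0 (pncN p / h) - pncq0 (p.1 / h)) ∂I.C0

/-- its radial half -/
noncomputable def asqJr (I : AsqIn) (h : ℝ) : ℝ := ∫ p, pncChi p * (pncq0 (pncN p / h) - 1) ∂I.C0

variable (I : AsqIn)


/-- the radial half of `J` changes sign in the other frame -/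
theorem asq_Jr_swap (h : ℝ) : asqJr I.swap h = -asqJr I h := by
  unfold asqJr
  set F : ℝ × ℝ → ℝ := fun p => pncChi p * (pncq0 (pncN p / h) - 1) with hF
  have hFm : Measurable F := pnc_chi_measurable.mul
    ((pnc_q0_continuous.comp (pnc_N_continuous.div_const h)).sub continuous_const).measurable
  show ∫ p, F p ∂I.C1 = _
  rw [← asq_rot_integral I hFm, ← integral_neg]
  refine integral_congr_ae ?_
  filter_upwards [asq_ae_disc I] with p hp
  have hp0 : p ≠ 0 := by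
    rintro rfl
    have := hp.1
    simp [pncN, pncQ] at this
  simp only [hF, asq_N_R]
  rw [asq_chi_R p hp0, neg_mul]

/-- the exact formula for the tangential half of `J` -/
theorem asq_J_split {h : ℝ} (hh : 0 < h) :
    asqJ I h - asqJr I h = ∫ x, pncD x * (1 - pncq0 (x.1 / h)) ∂I.nu - ∫ x, pncChi x * (1 - pncq0 (x.1 / h)) ∂I.E
      - ∫ p, (pncChi (asqCh I.d p) - pncChi p) * (1 - pncq0 (p.1 / h)) ∂I.C0 := by
  have hh2 : 0 < h / 2 := by positivity
  -- the test function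
  have hGm : Measurable fun x : ℝ × ℝ => (1 - pncq0 (x.1 / h)) * pncChi x := (pnc_q0_meas_fst h).mul pnc_chi_measurable
  have hGb : ∀ x : ℝ × ℝ, |(1 - pncq0 (x.1 / h)) * pncChi x| ≤ 1 := by
    intro x
    rw [abs_mul]
    exact mul_le_one₀ (pnc_q0_one_sub_abs _) (abs_nonneg _) (pnc_chi_abs_le x)
  have hG0 : ∀ x : ℝ × ℝ, |x.1| < h / 2 → (1 - pncq0 (x.1 / h)) * pncChi x = 0 := by
    intro x hx
    rw [pnc_q0_fst_zero hh hx, zero_mul]
  obtain ⟨_, i2, e⟩ := asq_mix_real I hGm hh2 hGb hG0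
  have i3 : Integrable (fun p : ℝ × ℝ => (1 - pncq0 (p.1 / h)) * pncChi p) I.C0 :=
    asq_int_far I hGm hh2 hGb fun p hp => hG0 p ((pnc_abs_fst_le p).trans_lt hp)
  have i1 : Integrable (fun p : ℝ × ℝ => pncChi p * (pncq0 (pncN p / h) - 1)) I.C0 := by
    refine asq_int_far I (M := 1) ?_ hh2 ?_ ?_
    · exact pnc_chi_measurable.mul
        ((pnc_q0_continuous.comp (pnc_N_continuous.div_const h)).sub continuous_const).measurable
    · intro p
      rw [abs_mul, ← abs_neg (pncq0 (pncN p / h) - 1), neg_sub]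
      exact mul_le_one₀ (pnc_chi_abs_le p) (abs_nonneg _) (pnc_q0_one_sub_abs _)
    · intro p hp
      rw [pnc_q0_one, sub_self, mul_zero]
      rw [abs_div, abs_of_nonneg (pnc_N_nonneg p), abs_of_pos hh, div_le_iff₀ hh]
      linarith
  have e1 : ∫ x, pncPr (fun x : ℝ × ℝ => (1 - pncq0 (x.1 / h)) * pncChi x) x ∂I.nu = ∫ x, pncD x * (1 - pncq0 (x.1 / h)) ∂I.nu := by
    refine integral_congr_ae ?_
    filter_upwards [asq_ae_nu I] with x hx
    rw [pnc_Pr_fst_mul (fun k => 1 - pncq0 (k / h)) pncChi x, pnc_ang hx.1 hx.2, mul_comm]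
  have e2 : ∫ x, (1 - pncq0 (x.1 / h)) * pncChi x ∂I.E = ∫ x, pncChi x * (1 - pncq0 (x.1 / h)) ∂I.E := by
    simp only [mul_comm]
  have e3 : asqJ I h = asqJr I h + ∫ p : ℝ × ℝ, (1 - pncq0 (p.1 / h)) * pncChi p ∂I.C0 := by
    unfold asqJr
    rw [← integral_add i1 i3]
    unfold asqJ
    refine integral_congr_ae (Eventually.of_forall fun p => ?_)
    simp only
    ring
  have e4 : ∫ p, (pncChi (asqCh I.d p) - pncChi p) * (1 - pncq0 (p.1 / h)) ∂I.C0
      = ∫ p, (1 - pncq0 ((asqCh I.d p).1 / h)) * pncChi (asqCh I.d p) ∂I.C0 - ∫ p : ℝ × ℝ, (1 - pncq0 (p.1 / h)) * pncChi p ∂I.C0 := by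
    rw [← integral_sub i2 i3]
    refine integral_congr_ae (Eventually.of_forall fun p => ?_)
    simp only [asqCh]
    ring
  rw [e3, e4, ← e1, ← e2, e]
  ring

theorem asq_J_lim1 : Tendsto (fun h : ℝ => ∫ x, pncD x * (1 - pncq0 (x.1 / h)) ∂I.nu) (𝓝[>] 0) (𝓝 (∫ x, pncD x ∂I.nu)) := by
  refine tendsto_integral_filter_of_dominated_convergence (fun x => pncD x) ?_ ?_ (asq_D_integrable I) ?_
  · exact Eventually.of_forall fun h => (pnc_D_measurable.mul (pnc_q0_meas_fst h)).aestronglyMeasurable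
  · refine Eventually.of_forall fun h => Eventually.of_forall fun x => ?_
    rw [Real.norm_eq_abs, abs_mul, abs_of_nonneg (pnc_D_nonneg x)]
    exact mul_le_of_le_one_right (pnc_D_nonneg x) (pnc_q0_one_sub_abs _)
  · filter_upwards [asq_ae_nu I] with x hx
    have := ((pnc_q0_tendsto hx.1).const_sub 1).const_mul (pncD x)
    simpa using this

theorem asq_J_lim2 : Tendsto (fun h : ℝ => ∫ x, pncChi x * (1 - pncq0 (x.1 / h)) ∂I.E) (𝓝[>] 0) (𝓝 (∫ x, pncChi x ∂I.E)) := by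
  have := I.Efin
  refine tendsto_integral_filter_of_dominated_convergence (fun _ => (1 : ℝ)) ?_ ?_ (integrable_const _) ?_
  · exact Eventually.of_forall fun h => (pnc_chi_measurable.mul (pnc_q0_meas_fst h)).aestronglyMeasurable
  · refine Eventually.of_forall fun h => Eventually.of_forall fun x => ?_
    rw [Real.norm_eq_abs, abs_mul]
    exact mul_le_one₀ (pnc_chi_abs_le x) (abs_nonneg _) (pnc_q0_one_sub_abs _)
  · filter_upwards [asq_ae_E I] with x hx
    have := ((pnc_q0_tendsto hx).const_sub 1).const_mul (pncChi x)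
    simpa using this

theorem asq_J_lim3 : Tendsto (fun h : ℝ => ∫ p, (pncChi (asqCh I.d p) - pncChi p) * (1 - pncq0 (p.1 / h)) ∂I.C0) (𝓝[>] 0)
    (𝓝 (∫ p in {p : ℝ × ℝ | p.1 ≠ 0}, (pncChi (asqCh I.d p) - pncChi p) ∂I.C0)) := by
  have hS : MeasurableSet {p : ℝ × ℝ | p.1 ≠ 0} := (measurableSet_eq_fun measurable_fst measurable_const).compl
  rw [← integral_indicator hS]
  have hm : Measurable fun p : ℝ × ℝ => pncChi (asqCh I.d p) - pncChi p :=
    (pnc_chi_measurable.comp (asq_ch_measurable I.d)).sub pnc_chi_measurable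
  refine tendsto_integral_filter_of_dominated_convergence (fun p => 12 * pncQ p) ?_ ?_ ((asq_Q_integrable I).const_mul 12) ?_
  · exact Eventually.of_forall fun h => (hm.mul (pnc_q0_meas_fst h)).aestronglyMeasurable
  · refine Eventually.of_forall fun h => ?_
    filter_upwards [asr_ae_half I] with p hp
    rw [Real.norm_eq_abs, abs_mul]
    calc |pncChi (asqCh I.d p) - pncChi p| * |1 - pncq0 (p.1 / h)| ≤ |pncChi (asqCh I.d p) - pncChi p| * 1 :=
          mul_le_mul_of_nonneg_left (pnc_q0_one_sub_abs _) (abs_nonneg _)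
      _ ≤ 12 * pncQ p := by rw [mul_one]; exact asq_chi_dist I hp
  · refine Eventually.of_forall fun p => ?_
    by_cases hp : p.1 = 0
    · have h1 : Set.indicator {p : ℝ × ℝ | p.1 ≠ 0} (fun p => pncChi (asqCh I.d p) - pncChi p) p = 0 :=
        Set.indicator_of_notMem (by simpa using hp) _
      rw [h1]
      refine tendsto_const_nhds.congr fun h => ?_
      rw [hp, zero_div, pnc_q0_one (by norm_num), sub_self, mul_zero]
    · have h1 : Set.indicator {p : ℝ × ℝ | p.1 ≠ 0} (fun p => pncChi (asqCh I.d p) - pncChi p) p = pncChi (asqCh I.d p) - pncChi p :=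
        Set.indicator_of_mem (by simpa using hp) _
      rw [h1]
      have := ((pnc_q0_tendsto hp).const_sub 1).const_mul (pncChi (asqCh I.d p) - pncChi p)
      simpa using this

/-- **the tangential half of the cutoff functional has a full limit** -/
theorem asq_J_lim : ∃ L : ℝ, Tendsto (fun h => asqJ I h - asqJr I h) (𝓝[>] 0) (𝓝 L) := by
  refine ⟨_, (((asq_J_lim1 I).sub (asq_J_lim2 I)).sub (asq_J_lim3 I)).congr' ?_⟩
  filter_upwards [self_mem_nhdsWithin] with h hh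
  exact (asq_J_split I hh).symm

/-- `J(h) = Λ_h(Ξ)` -/
theorem asq_J_eq_Lam {h : ℝ} (hh : 0 < h) : asqJ I h = asqLam I h pncXi := by
  unfold asqJ asqLam
  simp only [pnc_Xi_sc_mul_Q hh]

/-- the tail of `Λ_h(Ξ)` is `O(1/R)` uniformly in `h` (`asq_cap_tail`) -/
theorem asq_XiR_Lam : ∃ M : ℝ, ∀ R h : ℝ, 20 < R → 0 < h → |asqLam I h pncXi - asqLam I h (pncXiR R)| ≤ M / R := by
  obtain ⟨K5, hK5⟩ := asq_cap_tail I
  refine ⟨max K5 0, fun R h hR hh => ?_⟩
  have hR0 : 0 < R := by linarith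
  have hh2 : 0 < h / 2 := by positivity
  set S : Set (ℝ × ℝ) := {p | R * h ≤ pncN p ∧ |p.1| ≤ h} with hS
  have hSm : MeasurableSet S :=
    (measurableSet_le measurable_const pnc_N_continuous.measurable).inter
      (measurableSet_le (continuous_fst.abs).measurable measurable_const)
  have hSle := hK5 R h hR hh
  have hSfin : I.C0 S < ∞ := hSle.trans_lt ENNReal.ofReal_lt_top
  have hFm : Measurable fun p : ℝ × ℝ => pncChi p * (pncq0 (pncN p / h) - pncq0 (p.1 / h)) :=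
    pnc_chi_measurable.mul ((pnc_q0_continuous.comp (pnc_N_continuous.div_const h)).sub
      (pnc_q0_continuous.comp (continuous_fst.div_const h))).measurable
  have hFb : ∀ p : ℝ × ℝ, |pncChi p * (pncq0 (pncN p / h) - pncq0 (p.1 / h))| ≤ 1 := by
    intro p
    rw [abs_mul]
    refine mul_le_one₀ (pnc_chi_abs_le p) (abs_nonneg _) ?_
    rw [abs_le]
    constructor <;>
      linarith [pnc_q0_nonneg (pncN p / h), pnc_q0_le_one (pncN p / h), pnc_q0_nonneg (p.1 / h), pnc_q0_le_one (p.1 / h)]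
  have hF0 : ∀ p : ℝ × ℝ, pncN p < h / 2 → pncChi p * (pncq0 (pncN p / h) - pncq0 (p.1 / h)) = 0 := by
    intro p hp
    rw [pnc_q0_one, pnc_q0_one, sub_self, mul_zero]
    · rw [abs_div, abs_of_pos hh, div_le_iff₀ hh]
      linarith [pnc_abs_fst_le p]
    · rw [abs_div, abs_of_nonneg (pnc_N_nonneg p), abs_of_pos hh, div_le_iff₀ hh]
      linarith
  have hqm : Measurable fun p : ℝ × ℝ => pncq0 (pncN p / h / (2 * R)) :=
    (pnc_q0_continuous.comp ((pnc_N_continuous.div_const h).div_const (2 * R))).measurable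
  have i1 : Integrable (fun p : ℝ × ℝ => pncChi p * (pncq0 (pncN p / h) - pncq0 (p.1 / h))) I.C0 :=
    asq_int_far I hFm hh2 hFb hF0
  have i2 : Integrable (fun p : ℝ × ℝ => pncChi p * (pncq0 (pncN p / h) - pncq0 (p.1 / h)) * pncq0 (pncN p / h / (2 * R))) I.C0 := by
    refine asq_int_far I (hFm.mul hqm) hh2 (M := 1) ?_ ?_
    · intro p
      rw [abs_mul]
      refine mul_le_one₀ (hFb p) (abs_nonneg _) ?_
      rw [abs_of_nonneg (pnc_q0_nonneg _)]
      exact pnc_q0_le_one _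
    · intro p hp
      rw [hF0 p hp, zero_mul]
  have e1 : asqLam I h pncXi = ∫ p, pncChi p * (pncq0 (pncN p / h) - pncq0 (p.1 / h)) ∂I.C0 := by
    unfold asqLam
    simp only [pnc_Xi_sc_mul_Q hh]
  have e2 : asqLam I h (pncXiR R)
      = ∫ p, pncChi p * (pncq0 (pncN p / h) - pncq0 (p.1 / h)) * pncq0 (pncN p / h / (2 * R)) ∂I.C0 := by
    unfold asqLam pncXiR
    refine integral_congr_ae (Eventually.of_forall fun p => ?_)
    simp only
    rw [mul_right_comm, pnc_Xi_sc_mul_Q hh, pnc_N_sc hh]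
  rw [e1, e2, ← integral_sub i1 i2, ← Real.norm_eq_abs]
  have ig : Integrable (S.indicator fun _ => (1 : ℝ)) I.C0 :=
    (integrable_indicator_iff hSm).2 (integrableOn_const hSfin.ne)
  refine (norm_integral_le_of_norm_le ig (Eventually.of_forall fun p => ?_)).trans ?_
  · by_cases hp : p ∈ S
    · rw [Set.indicator_of_mem hp, ← mul_one_sub, Real.norm_eq_abs, abs_mul]
      exact mul_le_one₀ (hFb p) (abs_nonneg _) (pnc_q0_one_sub_abs _)
    · rw [Set.indicator_of_notMem hp, ← mul_one_sub]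
      refine le_of_eq (norm_eq_zero.2 ?_)
      rw [hS, Set.mem_ofPred_eq, not_and_or, not_le, not_le] at hp
      rcases hp with hp | hp
      · rw [pnc_q0_one (x := pncN p / h / (2 * R)), sub_self, mul_zero]
        rw [abs_div, abs_div, abs_of_nonneg (pnc_N_nonneg p), abs_of_pos hh, abs_of_pos (by positivity : 0 < 2 * R),
          div_div, div_le_iff₀ (by positivity)]
        nlinarith
      · rw [pnc_q0_zero, pnc_q0_zero, sub_self, mul_zero, zero_mul]
        · rw [abs_div, abs_of_pos hh, le_div_iff₀ hh]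
          linarith
        · rw [abs_div, abs_of_nonneg (pnc_N_nonneg p), abs_of_pos hh, le_div_iff₀ hh]
          linarith [pnc_abs_fst_le p]
  · rw [integral_indicator_const _ hSm, smul_eq_mul, mul_one]
    refine ENNReal.toReal_le_of_le_ofReal (by positivity) (hSle.trans (ENNReal.ofReal_le_ofReal ?_))
    exact div_le_div_of_nonneg_right (le_max_left _ _) hR0.le

/-- `J(h) - c_h ∫ Ξ → 0`.      TEX[04-plane l.636-652] -/
theorem asq_J_asymp : Tendsto (fun h : ℝ => asqJ I h - asqc I h * ∫ z, pncXi z) (𝓝[>] 0) (𝓝 0) := by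
  obtain ⟨M1, hM1⟩ := asq_XiR_Lam I
  obtain ⟨M2, hM2⟩ := pnc_XiR_vol
  obtain ⟨Mc, hMc⟩ := asq_c_bdd I
  rw [Metric.tendsto_nhds]
  intro η hη
  set B : ℝ := |M1| + |Mc| * |M2| + 1 with hB
  have hBpos : 0 < B := by positivity
  set R : ℝ := max 21 (2 * B / η) with hR
  have hR20 : 20 < R := lt_of_lt_of_le (by norm_num) (le_max_left _ _)
  have hR0 : 0 < R := by linarith
  have hR2 : B / R ≤ η / 2 := by
    have : 2 * B / η ≤ R := le_max_right _ _
    rw [div_le_iff₀ hR0]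
    rw [div_le_iff₀ hη] at this
    linarith
  obtain ⟨hc, hs⟩ := pnc_XiR_cont hR0
  have h3 := asq_lam I hc hs
  rw [Metric.tendsto_nhds] at h3
  filter_upwards [h3 (η / 2) (by positivity), self_mem_nhdsWithin] with δ hδ hδ0
  have hδ0 : 0 < δ := hδ0
  rw [Real.dist_eq, sub_zero] at hδ ⊢
  have a1 := hM1 R δ hR20 hδ0
  have a2 := hM2 R hR20
  have a3 := hMc δ hδ0
  rw [asq_J_eq_Lam I hδ0]
  have e : asqLam I δ pncXi - asqc I δ * ∫ z, pncXi z
      = (asqLam I δ pncXi - asqLam I δ (pncXiR R)) + (asqLam I δ (pncXiR R) - asqc I δ * ∫ z, pncXiR R z)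
        - asqc I δ * ((∫ z, pncXi z) - ∫ z, pncXiR R z) := by ring
  rw [e]
  have b1 : |asqc I δ * ((∫ z, pncXi z) - ∫ z, pncXiR R z)| ≤ |Mc| * |M2| / R := by
    rw [abs_mul]
    calc |asqc I δ| * |(∫ z, pncXi z) - ∫ z, pncXiR R z| ≤ |Mc| * (|M2| / R) := by
          refine mul_le_mul (a3.trans (le_abs_self _)) (a2.trans ?_) (abs_nonneg _) (abs_nonneg _)
          exact div_le_div_of_nonneg_right (le_abs_self _) hR0.le
      _ = |Mc| * |M2| / R := by ring
  have b2 : |asqLam I δ pncXi - asqLam I δ (pncXiR R)| ≤ |M1| / R :=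
    a1.trans (div_le_div_of_nonneg_right (le_abs_self _) hR0.le)
  have b3 : |M1| / R + |Mc| * |M2| / R ≤ B / R := by
    rw [← add_div]
    exact div_le_div_of_nonneg_right (by rw [hB]; linarith) hR0.le
  calc _ ≤ |asqLam I δ pncXi - asqLam I δ (pncXiR R)| + |asqLam I δ (pncXiR R) - asqc I δ * ∫ z, pncXiR R z|
        + |asqc I δ * ((∫ z, pncXi z) - ∫ z, pncXiR R z)| := by
        refine (abs_sub _ _).trans ?_
        gcongr
        exact abs_add_le _ _
    _ < η := by linarith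

/-! ### the number -/

/-- the running coefficients of the two frames have the same asymptotics (`asq_prod` at `a = b = b0`) -/
theorem asq_c_diff : Tendsto (fun δ : ℝ => asqc I δ - asqc I.swap δ) (𝓝[>] 0) (𝓝 0) := by
  have h := (asq_prod I pnc_b0_T1 pnc_b0_T1).const_mul (-π⁻¹)
  simp only [pnc_b0_integral, mul_one, mul_zero] at h
  refine h.congr fun δ => ?_
  unfold asqc
  show _ = asqNn I.swap δ pncb0 / π - asqNn I δ pncb0 / π
  ring

/-- **the running coefficient converges** (two frames: the radial halves of the two `J` cancel).      Port of TEX[Triangular Lemma 4.8] -/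
theorem asq_c_lim : ∃ c : ℝ, 0 ≤ c ∧ Tendsto (asqc I) (𝓝[>] 0) (𝓝 c) := by
  obtain ⟨L, hL⟩ := asq_J_lim I
  obtain ⟨L', hL'⟩ := asq_J_lim I.swap
  simp only [asq_Jr_swap] at hL'
  have h1 := ((hL.add hL').sub ((asq_J_asymp I).add (asq_J_asymp I.swap))).add ((asq_c_diff I).mul_const (-(π / 2)))
  simp only [pnc_IXi] at h1
  have hne : (-π) ≠ 0 := by
    have := Real.pi_pos
    intro h0
    linarith
  have h2 : Tendsto (asqc I) (𝓝[>] 0) (𝓝 ((L + L' - (0 + 0) + 0 * (-(π / 2))) * (-π)⁻¹)) := by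
    refine (h1.mul_const ((-π)⁻¹)).congr fun h => ?_
    field_simp
    ring
  refine ⟨_, ?_, h2⟩
  refine ge_of_tendsto h2 ?_
  filter_upwards [self_mem_nhdsWithin] with h hh
  exact asq_c_nonneg I hh

/-- the coefficient of the contract -/
noncomputable def asqC (I : AsqIn) : ℝ := (asq_c_lim I).choose

theorem asq_C_nonneg : 0 ≤ asqC I := (asq_c_lim I).choose_spec.1

theorem asq_C_tendsto : Tendsto (asqc I) (𝓝[>] 0) (𝓝 (asqC I)) := (asq_c_lim I).choose_spec.2

/-- **the full spectral scaling limit**: `|p|² C0` rescaled converges vaguely to `c · Lebesgue`.      TEX[04-plane Lemma 4.8] -/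
theorem asq_main {Ψ : ℝ × ℝ → ℝ} (hc : Continuous Ψ) (hs : HasCompactSupport Ψ) :
    Tendsto (fun δ : ℝ => asqLam I δ Ψ) (𝓝[>] 0) (𝓝 (asqC I * ∫ z, Ψ z)) := by
  have h := (asq_lam I hc hs).add ((asq_C_tendsto I).mul_const (∫ z, Ψ z))
  simpa using h

/-- uniform bound of `Λ_δ` on balls and on tails of decay `(1+|ζ|)⁻³` (dyadic sums of `I.ann`) -/
theorem asq_Lam_ball : ∃ M : ℝ, ∀ R δ : ℝ, 0 < R → 0 < δ →
    ∫⁻ p in {p | pncN p ≤ R * δ}, ENNReal.ofReal (pncQ (pncSc δ p)) ∂I.C0 ≤ ENNReal.ofReal (M * R ^ 2) := by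
  refine ⟨2 * I.K, fun R δ hR hδ => ?_⟩
  have e : ∀ p, ENNReal.ofReal (pncQ (pncSc δ p)) = ENNReal.ofReal (1 / δ ^ 2) * ENNReal.ofReal (pncQ p) := by
    intro p
    rw [pnc_Q_sc, ← ENNReal.ofReal_mul (by positivity)]
    congr 1
    ring
  simp_rw [e]
  rw [lintegral_const_mul' _ _ ENNReal.ofReal_ne_top]
  calc _ ≤ ENNReal.ofReal (1 / δ ^ 2) * ENNReal.ofReal (2 * I.K * (R * δ) ^ 2) := by
        gcongr
        exact asq_ball_Q I (by positivity)
    _ = _ := by
        rw [← ENNReal.ofReal_mul (by positivity)]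
        congr 1
        field_simp

theorem asq_Lam_tail : ∃ M : ℝ, ∀ R δ : ℝ, 1 ≤ R → 0 < δ →
    ∫⁻ p in {p | R * δ ≤ pncN p}, ENNReal.ofReal (pncQ (pncSc δ p) / (1 + pncN (pncSc δ p)) ^ 3) ∂I.C0 ≤ ENNReal.ofReal (M / R) := by
  refine ⟨2 * I.K, fun R δ hR hδ => ?_⟩
  have hR0 : 0 < R := by linarith
  refine (asq_dyadic_up I _ (mul_pos hR0 hδ) (fun j => ENNReal.ofReal (1 / R) * (1 / 2 : ℝ≥0∞) ^ j) fun j p h1 _ => ?_).trans ?_
  · have e : (1 / 2 : ℝ≥0∞) ^ j = ENNReal.ofReal ((1 / 2) ^ j) := by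
      rw [ENNReal.ofReal_pow (by norm_num)]
      congr 1
      rw [ENNReal.ofReal_div_of_pos (by norm_num)]
      simp
    rw [e, ← ENNReal.ofReal_mul (by positivity)]
    refine ENNReal.ofReal_le_ofReal ?_
    rw [← pnc_N_sq, pnc_N_sc hδ]
    set n : ℝ := pncN p / δ with hn
    have hj : (0 : ℝ) < 2 ^ j := by positivity
    have hn1 : R * 2 ^ j ≤ n := by
      rw [hn, le_div_iff₀ hδ]
      linarith
    have hn0 : 0 < n := lt_of_lt_of_le (by positivity) hn1
    calc n ^ 2 / (1 + n) ^ 3 ≤ n ^ 2 / n ^ 3 := by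
          refine div_le_div_of_nonneg_left (by positivity) (by positivity) ?_
          exact pow_le_pow_left₀ hn0.le (by linarith) 3
      _ = 1 / n := by field_simp
      _ ≤ 1 / (R * 2 ^ j) := one_div_le_one_div_of_le (by positivity) hn1
      _ = 1 / R * (1 / 2) ^ j := by
          rw [one_div_pow, one_div_mul_one_div]
  · have e0 : ∀ j : ℕ, ENNReal.ofReal (1 / R) * (1 / 2 : ℝ≥0∞) ^ j * ENNReal.ofReal I.K
        = ENNReal.ofReal (1 / R) * (ENNReal.ofReal I.K * (1 / 2 : ℝ≥0∞) ^ j) := fun j => by ring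
    simp_rw [e0]
    rw [ENNReal.tsum_mul_left, ENNReal.tsum_mul_left, ENNReal.tsum_geometric]
    have e : (1 - 1 / 2 : ℝ≥0∞)⁻¹ = 2 := by
      rw [one_div, ENNReal.one_sub_inv_two, inv_inv]
    rw [e, show 2 * I.K / R = 1 / R * (2 * I.K) by ring, ENNReal.ofReal_mul (by positivity), ENNReal.ofReal_mul (by norm_num)]
    simp [mul_comm]

/-- three-region bound for `Λ_δ` : ball, annulus, tail -/
theorem asq_fam_err : ∃ B : ℝ, 0 ≤ B ∧ ∀ (F : ℝ × ℝ → ℝ) (M η ε R δ : ℝ), 0 ≤ M → 0 ≤ η → 0 < ε → 1 ≤ R → 0 < δ →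
    (∀ z, pncN z ≤ ε → |F z| ≤ M) → (∀ z, ε ≤ pncN z → pncN z ≤ R → |F z| ≤ η) →
    (∀ z, R ≤ pncN z → |F z| ≤ M / (1 + pncN z) ^ 3) →
    |asqLam I δ F| ≤ B * (M * ε ^ 2 + η * R ^ 2 + M / R) := by
  obtain ⟨Mb, hMb⟩ := asq_Lam_ball I
  obtain ⟨Mt, hMt⟩ := asq_Lam_tail I
  refine ⟨max Mb 0 + max Mt 0, by positivity, fun F M η ε R δ hM hη hε hR hδ h1 h2 h3 => ?_⟩
  have hR0 : 0 < R := by linarith
  unfold asqLam
  rw [← Real.norm_eq_abs]
  refine (norm_integral_le_lintegral_norm _).trans ?_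
  have hQm : Measurable fun p : ℝ × ℝ => ENNReal.ofReal (pncQ (pncSc δ p)) :=
    (pnc_Q_continuous.comp (pnc_sc_continuous δ)).measurable.ennreal_ofReal
  have hTm : Measurable fun p : ℝ × ℝ => ENNReal.ofReal (pncQ (pncSc δ p) / (1 + pncN (pncSc δ p)) ^ 3) :=
    ((pnc_Q_continuous.comp (pnc_sc_continuous δ)).measurable.div
      ((continuous_const.add (pnc_N_continuous.comp (pnc_sc_continuous δ))).pow 3).measurable).ennreal_ofReal
  have mA : ∀ r : ℝ, MeasurableSet {p : ℝ × ℝ | pncN p ≤ r} := fun r =>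
    measurableSet_le pnc_N_continuous.measurable measurable_const
  have mC : MeasurableSet {p : ℝ × ℝ | R * δ ≤ pncN p} := measurableSet_le measurable_const pnc_N_continuous.measurable
  have key : ∀ p, ENNReal.ofReal ‖F (pncSc δ p) * pncQ (pncSc δ p)‖ ≤
      Set.indicator {p : ℝ × ℝ | pncN p ≤ ε * δ} (fun p => ENNReal.ofReal M * ENNReal.ofReal (pncQ (pncSc δ p))) p
      + (Set.indicator {p : ℝ × ℝ | pncN p ≤ R * δ} (fun p => ENNReal.ofReal η * ENNReal.ofReal (pncQ (pncSc δ p))) p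
      + Set.indicator {p : ℝ × ℝ | R * δ ≤ pncN p}
          (fun p => ENNReal.ofReal M * ENNReal.ofReal (pncQ (pncSc δ p) / (1 + pncN (pncSc δ p)) ^ 3)) p) := by
    intro p
    have hN : pncN (pncSc δ p) = pncN p / δ := pnc_N_sc hδ p
    have hQ0 := pnc_Q_nonneg (pncSc δ p)
    rw [Real.norm_eq_abs, abs_mul, abs_of_nonneg hQ0]
    by_cases c1 : pncN p ≤ ε * δ
    · refine le_trans ?_ le_self_add
      rw [Set.indicator_of_mem (show p ∈ {p : ℝ × ℝ | pncN p ≤ ε * δ} from c1), ← ENNReal.ofReal_mul hM]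
      refine ENNReal.ofReal_le_ofReal (mul_le_mul_of_nonneg_right (h1 _ ?_) hQ0)
      rw [hN, div_le_iff₀ hδ]
      exact c1
    · rw [not_le] at c1
      refine le_trans ?_ le_add_self
      by_cases c2 : pncN p ≤ R * δ
      · refine le_trans ?_ le_self_add
        rw [Set.indicator_of_mem (show p ∈ {p : ℝ × ℝ | pncN p ≤ R * δ} from c2), ← ENNReal.ofReal_mul hη]
        refine ENNReal.ofReal_le_ofReal (mul_le_mul_of_nonneg_right (h2 _ ?_ ?_) hQ0)
        · rw [hN, le_div_iff₀ hδ]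
          exact c1.le
        · rw [hN, div_le_iff₀ hδ]
          exact c2
      · rw [not_le] at c2
        refine le_trans ?_ le_add_self
        rw [Set.indicator_of_mem (show p ∈ {p : ℝ × ℝ | R * δ ≤ pncN p} from c2.le), ← ENNReal.ofReal_mul hM]
        refine ENNReal.ofReal_le_ofReal ?_
        have h4 := h3 (pncSc δ p) (by rw [hN, le_div_iff₀ hδ]; exact c2.le)
        calc |F (pncSc δ p)| * pncQ (pncSc δ p) ≤ M / (1 + pncN (pncSc δ p)) ^ 3 * pncQ (pncSc δ p) :=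
              mul_le_mul_of_nonneg_right h4 hQ0
          _ = M * (pncQ (pncSc δ p) / (1 + pncN (pncSc δ p)) ^ 3) := by ring
  refine ENNReal.toReal_le_of_le_ofReal (by positivity) ((lintegral_mono key).trans ?_)
  rw [lintegral_add_left ((hQm.const_mul _).indicator (mA _)), lintegral_add_left ((hQm.const_mul _).indicator (mA _)),
    lintegral_indicator (mA _), lintegral_indicator (mA _), lintegral_indicator mC,
    lintegral_const_mul' _ _ ENNReal.ofReal_ne_top, lintegral_const_mul' _ _ ENNReal.ofReal_ne_top,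
    lintegral_const_mul' _ _ ENNReal.ofReal_ne_top]
  have a1 : ENNReal.ofReal M * ∫⁻ p in {p | pncN p ≤ ε * δ}, ENNReal.ofReal (pncQ (pncSc δ p)) ∂I.C0
      ≤ ENNReal.ofReal (M * (max Mb 0 * ε ^ 2)) := by
    rw [ENNReal.ofReal_mul hM]
    gcongr
    refine (hMb ε δ hε hδ).trans (ENNReal.ofReal_le_ofReal ?_)
    gcongr
    exact le_max_left _ _
  have a2 : ENNReal.ofReal η * ∫⁻ p in {p | pncN p ≤ R * δ}, ENNReal.ofReal (pncQ (pncSc δ p)) ∂I.C0
      ≤ ENNReal.ofReal (η * (max Mb 0 * R ^ 2)) := by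
    rw [ENNReal.ofReal_mul hη]
    gcongr
    refine (hMb R δ hR0 hδ).trans (ENNReal.ofReal_le_ofReal ?_)
    gcongr
    exact le_max_left _ _
  have a3 : ENNReal.ofReal M * ∫⁻ p in {p | R * δ ≤ pncN p}, ENNReal.ofReal (pncQ (pncSc δ p) / (1 + pncN (pncSc δ p)) ^ 3) ∂I.C0
      ≤ ENNReal.ofReal (M * (max Mt 0 / R)) := by
    rw [ENNReal.ofReal_mul hM]
    gcongr
    refine (hMt R δ hR hδ).trans (ENNReal.ofReal_le_ofReal ?_)
    gcongr
    exact le_max_left _ _
  refine (add_le_add a1 (add_le_add a2 a3)).trans ?_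
  rw [← ENNReal.ofReal_add (by positivity) (by positivity), ← ENNReal.ofReal_add (by positivity) (by positivity)]
  refine ENNReal.ofReal_le_ofReal ?_
  have p1 : 0 ≤ max Mt 0 * (M * ε ^ 2 + η * R ^ 2) := by positivity
  have p2 : 0 ≤ max Mb 0 * (M / R) := by positivity
  have e : (max Mb 0 + max Mt 0) * (M * ε ^ 2 + η * R ^ 2 + M / R)
      = M * (max Mb 0 * ε ^ 2) + (η * (max Mb 0 * R ^ 2) + M * (max Mt 0 / R))
        + max Mt 0 * (M * ε ^ 2 + η * R ^ 2) + max Mb 0 * (M / R) := by ring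
  rw [e]
  linarith

/-- **the limit for `δ`-dependent families**: `Ψ δ → Ψ0` uniformly on `ε ≤ |ζ| ≤ R`, common decay `M (1+|ζ|)⁻³`, `Ψ0` continuous off the origin.      TEX[04-plane l.735-748] -/
theorem asq_fam {Ψ : ℝ → ℝ × ℝ → ℝ} {Ψ0 : ℝ × ℝ → ℝ} {M : ℝ} (hm : ∀ δ, Measurable (Ψ δ)) (hb : ∀ δ z, |Ψ δ z| ≤ M / (1 + pncN z) ^ 3)
    (h0c : ContinuousOn Ψ0 {0}ᶜ) (h0b : ∀ z, |Ψ0 z| ≤ M / (1 + pncN z) ^ 3)
    (hu : ∀ ε R η : ℝ, 0 < ε → 0 < η → ∀ᶠ δ in 𝓝[>] (0 : ℝ), ∀ z, ε ≤ pncN z → pncN z ≤ R → |Ψ δ z - Ψ0 z| ≤ η) :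
    Tendsto (fun δ : ℝ => asqLam I δ (Ψ δ)) (𝓝[>] 0) (𝓝 (asqC I * ∫ z, Ψ0 z)) := by
  obtain ⟨B, hB0, hB⟩ := asq_fam_err I
  have hM : 0 ≤ M := by
    have h := (abs_nonneg _).trans (h0b 0)
    have hpos : 0 < (1 + pncN (0 : ℝ × ℝ)) ^ 3 := by
      have := pnc_N_nonneg (0 : ℝ × ℝ)
      positivity
    rw [le_div_iff₀ hpos, zero_mul] at h
    exact h
  -- the truncation error tends to zero
  have hT := pnc_fam_vol h0c h0b
  have hε : Tendsto (fun n : ℕ => 1 / ((n : ℝ) + 1)) atTop (𝓝 0) := tendsto_one_div_add_atTop_nhds_zero_nat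
  have he : Tendsto (fun n : ℕ => B * (2 * M * (1 / ((n : ℝ) + 1)) ^ 2 + 2 * M * (1 / ((n : ℝ) + 1)))
      + |asqC I| * |(∫ z, Ψ0 z * ((1 - pncq0 (pncN z / (1 / ((n : ℝ) + 1)))) * pncq0 (pncN z / (2 * ((n : ℝ) + 1))))) - ∫ z, Ψ0 z|)
      atTop (𝓝 0) := by
    have h1 := ((((hε.pow 2).const_mul (2 * M)).add (hε.const_mul (2 * M))).const_mul B).add
      (((hT.sub_const (∫ z, Ψ0 z)).abs).const_mul |asqC I|)
    simpa using h1
  rw [Metric.tendsto_nhds]
  intro η0 hη0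
  obtain ⟨n, hn⟩ := (he.eventually_lt_const (show (0 : ℝ) < η0 / 3 by positivity)).exists
  set ε : ℝ := 1 / ((n : ℝ) + 1) with hεd
  set R : ℝ := (n : ℝ) + 1 with hRd
  have hε0 : 0 < ε := by positivity
  have hR1 : 1 ≤ R := by
    rw [hRd]
    have : (0 : ℝ) ≤ n := Nat.cast_nonneg n
    linarith
  have hR0 : 0 < R := by linarith
  set θ : ℝ × ℝ → ℝ := fun z => (1 - pncq0 (pncN z / ε)) * pncq0 (pncN z / (2 * R)) with hθ
  obtain ⟨hc, hs⟩ := pnc_fam_cut h0c hε0 hR0
  have h3 := asq_main I hc hs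
  rw [Metric.tendsto_nhds] at h3
  set η' : ℝ := η0 / (3 * (B + 1) * R ^ 2) with hη'
  have hη'0 : 0 < η' := by positivity
  have hBη : B * (η' * R ^ 2) ≤ η0 / 3 := by
    have e : B * (η' * R ^ 2) = η0 / 3 * (B / (B + 1)) := by
      rw [hη']
      field_simp
    rw [e]
    refine mul_le_of_le_one_right (by positivity) ?_
    rw [div_le_one (by positivity)]
    linarith
  filter_upwards [h3 (η0 / 3) (by positivity), hu ε R η' hε0 hη'0, self_mem_nhdsWithin] with δ hδ3 hδu hδ0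
  have hδ0 : 0 < δ := hδ0
  rw [Real.dist_eq] at hδ3 ⊢
  -- linearity
  have i1 : Integrable (fun p => Ψ δ (pncSc δ p) * pncQ (pncSc δ p)) I.C0 := by
    refine Integrable.mono' ((asq_Q_integrable I).const_mul (M / δ ^ 2)) ?_ (Eventually.of_forall fun p => ?_)
    · exact (((hm δ).comp (pnc_sc_continuous δ).measurable).mul
        (pnc_Q_continuous.comp (pnc_sc_continuous δ)).measurable).aestronglyMeasurable
    · have hQ0 := pnc_Q_nonneg (pncSc δ p)
      have hN0 := pnc_N_nonneg (pncSc δ p)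
      rw [Real.norm_eq_abs, abs_mul, abs_of_nonneg hQ0]
      have h1 : |Ψ δ (pncSc δ p)| ≤ M := by
        refine (hb δ _).trans (div_le_self hM ?_)
        exact one_le_pow₀ (by linarith)
      calc |Ψ δ (pncSc δ p)| * pncQ (pncSc δ p) ≤ M * pncQ (pncSc δ p) := mul_le_mul_of_nonneg_right h1 hQ0
        _ = M / δ ^ 2 * pncQ p := by rw [pnc_Q_sc]; ring
  have i2 := asq_Lam_integrable I hc hs hδ0
  have elin : asqLam I δ (Ψ δ) - asqLam I δ (fun z => Ψ0 z * θ z) = asqLam I δ (fun z => Ψ δ z - Ψ0 z * θ z) := by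
    unfold asqLam
    rw [← integral_sub i1 i2]
    refine integral_congr_ae (Eventually.of_forall fun p => ?_)
    simp only
    ring
  have hgen : ∀ z, |Ψ δ z - Ψ0 z * θ z| ≤ 2 * M / (1 + pncN z) ^ 3 := by
    intro z
    have a1 : |Ψ0 z * θ z| ≤ M / (1 + pncN z) ^ 3 := by
      rw [abs_mul]
      exact (mul_le_of_le_one_right (abs_nonneg _) (pnc_fam_cut_abs _ _ z)).trans (h0b z)
    calc |Ψ δ z - Ψ0 z * θ z| ≤ |Ψ δ z| + |Ψ0 z * θ z| := abs_sub _ _
      _ ≤ M / (1 + pncN z) ^ 3 + M / (1 + pncN z) ^ 3 := add_le_add (hb δ z) a1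
      _ = 2 * M / (1 + pncN z) ^ 3 := by ring
  have herr := hB (fun z => Ψ δ z - Ψ0 z * θ z) (2 * M) η' ε R δ (by positivity) hη'0.le hε0 hR1 hδ0
    (fun z _ => (hgen z).trans (div_le_self (by positivity) (one_le_pow₀ (by linarith [pnc_N_nonneg z]))))
    (fun z h1 h2 => by
      simp only [hθ]
      rw [pnc_fam_cut_one hε0 hR0 h1 h2, mul_one]
      exact hδu z h1 h2)
    (fun z _ => hgen z)
  rw [← elin] at herr
  have e : asqLam I δ (Ψ δ) - asqC I * ∫ z, Ψ0 z
      = (asqLam I δ (Ψ δ) - asqLam I δ (fun z => Ψ0 z * θ z)) + (asqLam I δ (fun z => Ψ0 z * θ z) - asqC I * ∫ z, Ψ0 z * θ z)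
        + asqC I * ((∫ z, Ψ0 z * θ z) - ∫ z, Ψ0 z) := by ring
  rw [e]
  have e2 : B * (2 * M * ε ^ 2 + η' * R ^ 2 + 2 * M / R) = B * (2 * M * ε ^ 2 + 2 * M * ε) + B * (η' * R ^ 2) := by
    rw [hεd]
    ring
  rw [e2] at herr
  calc _ ≤ |asqLam I δ (Ψ δ) - asqLam I δ (fun z => Ψ0 z * θ z)| + |asqLam I δ (fun z => Ψ0 z * θ z) - asqC I * ∫ z, Ψ0 z * θ z|
        + |asqC I * ((∫ z, Ψ0 z * θ z) - ∫ z, Ψ0 z)| := abs_add_three _ _ _
    _ < η0 := by
        rw [abs_mul (asqC I)]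
        linarith

theorem asq_coef_eqns_cite : True := by
  have := @asqJ.eq_1
  have := @asqJr.eq_1
  have := @asqC.eq_1
  trivial

end Claimed.Agent.R292
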