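import Claimed.Agent.R292.Defs.SPEC
import Claimed.Agent.R292.Spec.Coef102
import Claimed.Agent.R291.Exit.PlnCore

/-!
# Row 292 (S0540), unit SPEC, box B3 : THE ADAPTER `AspSpec + AspMix 0, 1 → AsqIn`      (helper202; prefix `asa`)

Port of the adapter `pnca*` of R291 `Exit/PlnCore.lean`, GENERIC IN THE FRAME `i : Fin 4` (one lemma serves both frames of `AsqIn`).

* `asaD` = punctured disc `0 < |p| < 1/4`;   `asaF i` = the rest of the torus off the tangential zero line of the frame `i` (aliases included);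
  `asaPhi i p = (k, lt l)`, `(k, l) = aspFrR i p` the reduced frame coordinates, `lt = asqLt d_i` the Cayley variable.
* `asa_frR_eq` : on the disc the reduced frame coordinates are the frame coordinates;   `asa_F_fin` : `Cf (asaF i) < ∞` (from `far`: `aspDD ≥ (4/π²)|p|²` on the box);
* `asa_mix` : `∫ pncP G dν = ∫_{k ≠ 0} G (asqCh d_i x) d((Cf|disc).map (aspFr i)) + ∫ G d((Cf|asaF i).map (asaPhi i))`;
* `asa_turn` : `(Cf|disc).map (p ↦ (p.2, -p.1)) = Cf|disc` (from `AspSpec.rot`);   `asa_ann`;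
* **`asaIn hs hm0 hm1 : AsqIn`**, `C0 = Cf.restrict asaD`, `C1 = C0.map asqR`, `d = 2`, `d1 = √2`, `r0 = 1/4`;
* **`asa_core`** : `∃ c ≥ 0, AspPS Cf c` (`asq_main (asaIn ..)` rewritten).
-/

set_option autoImplicit false

namespace Claimed.Agent.R292

open MeasureTheory Filter Topology
open scoped ENNReal Real
open Claimed.Agent.R291

/-- the punctured disc of the local contract -/
def asaD : Set (ℝ × ℝ) := {p | 0 < pncN p ∧ pncN p < 1 / 4}

/-- the rest of the torus off the tangential zero line of the frame `i` -/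
def asaF (i : Fin 4) : Set (ℝ × ℝ) := {p | (aspFrR i p).1 ≠ 0 ∧ p ∉ asaD}

/-- the global chart `p ↦ (k, lt l)` of the frame `i` -/
noncomputable def asaPhi (i : Fin 4) (p : ℝ × ℝ) : ℝ × ℝ := ((aspFrR i p).1, asqLt (aspNorP i) (aspFrR i p).2)

/-! ### measurability -/

theorem asa_D_meas : MeasurableSet asaD :=
  (measurableSet_lt measurable_const pnc_N_continuous.measurable).inter (measurableSet_lt pnc_N_continuous.measurable measurable_const)

theorem asa_red_meas (q : ℝ) : Measurable (aspRed q) := by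
  unfold aspRed
  by_cases h : 0 < 2 * π / q
  · simp only [dif_pos h, toIocMod_eq_sub_fract_mul]
    fun_prop
  · simp only [dif_neg h]
    exact measurable_id

theorem asa_fr_meas (i : Fin 4) : Measurable (aspFr i) :=
  match i with
  | 0 => by unfold aspFr; fun_prop
  | 1 => by unfold aspFr; fun_prop
  | 2 => by unfold aspFr; fun_prop
  | 3 => by unfold aspFr; fun_prop

theorem asa_frR_meas (i : Fin 4) : Measurable (aspFrR i) := by
  unfold aspFrR
  exact ((asa_red_meas _).comp (measurable_fst.comp (asa_fr_meas i))).prodMk ((asa_red_meas _).comp (measurable_snd.comp (asa_fr_meas i)))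

theorem asa_phi_meas (i : Fin 4) : Measurable (asaPhi i) := by
  unfold asaPhi
  exact (measurable_fst.comp (asa_frR_meas i)).prodMk ((asq_lt_measurable _).comp (measurable_snd.comp (asa_frR_meas i)))

theorem asa_k_meas : MeasurableSet {x : ℝ × ℝ | x.1 ≠ 0} := (measurableSet_eq_fun measurable_fst measurable_const).compl

theorem asa_S_meas (i : Fin 4) : MeasurableSet {p : ℝ × ℝ | (aspFrR i p).1 ≠ 0} := (asa_frR_meas i) asa_k_meas

theorem asa_F_meas (i : Fin 4) : MeasurableSet (asaF i) := (asa_S_meas i).inter asa_D_meas.compl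

/-! ### geometry of the frames -/

theorem asa_Q_fr (i : Fin 4) (p : ℝ × ℝ) : pncQ (aspFr i p) = pncQ p := by
  have h2 : Real.sqrt 2 ^ 2 = 2 := Real.sq_sqrt (by norm_num)
  match i with
  | 0 => rfl
  | 1 => unfold pncQ aspFr; simp only [div_pow, h2]; ring
  | 2 => unfold pncQ aspFr; simp only; ring
  | 3 => unfold pncQ aspFr; simp only [div_pow, h2]; ring

theorem asa_N_fr (i : Fin 4) (p : ℝ × ℝ) : pncN (aspFr i p) = pncN p := by unfold pncN; rw [asa_Q_fr]

theorem asa_norP_le (i : Fin 4) : aspNorP i ≤ 2 := by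
  have h2 : Real.sqrt 2 ≤ 2 := by
    rw [show (2 : ℝ) = Real.sqrt 4 by rw [show (4 : ℝ) = 2 ^ 2 by norm_num, Real.sqrt_sq (by norm_num)]]
    exact Real.sqrt_le_sqrt (by norm_num)
  match i with
  | 0 => simp [aspNorP]
  | 1 => exact h2
  | 2 => simp [aspNorP]
  | 3 => exact h2

theorem asa_tanP_le (i : Fin 4) : aspTanP i ≤ 2 := by
  have h2 : Real.sqrt 2 ≤ 2 := by
    rw [show (2 : ℝ) = Real.sqrt 4 by rw [show (4 : ℝ) = 2 ^ 2 by norm_num, Real.sqrt_sq (by norm_num)]]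
    exact Real.sqrt_le_sqrt (by norm_num)
  match i with
  | 0 => simp [aspTanP]
  | 1 => exact h2
  | 2 => simp [aspTanP]
  | 3 => exact h2

theorem asa_red_self {q x : ℝ} (hq : 0 < q) (hq2 : q ≤ 2) (hx : |x| < 1 / 4) : aspRed q x = x := by
  unfold aspRed
  have hp : 0 < 2 * π / q := by have := Real.pi_pos; positivity
  rw [dif_pos hp, toIocMod_eq_self]
  have hπ : 1 / 4 < π / q := by
    rw [lt_div_iff₀ hq]
    have := Real.pi_gt_three
    nlinarith
  have := abs_lt.1 hx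
  constructor
  · linarith
  · have e : -(π / q) + 2 * π / q = π / q := by ring
    rw [e]; linarith

theorem asa_frR_eq (i : Fin 4) {p : ℝ × ℝ} (hp : p ∈ asaD) : aspFrR i p = aspFr i p := by
  have h1 : |(aspFr i p).1| < 1 / 4 := lt_of_le_of_lt (pnc_abs_fst_le _) (by rw [asa_N_fr]; exact hp.2)
  have h2 : |(aspFr i p).2| < 1 / 4 := lt_of_le_of_lt (pnc_abs_snd_le _) (by rw [asa_N_fr]; exact hp.2)
  unfold aspFrR
  rw [asa_red_self (asp_tanP_pos i) (asa_tanP_le i) h1, asa_red_self (asp_norP_pos i) (asa_norP_le i) h2]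

theorem asa_phi_eq (i : Fin 4) {p : ℝ × ℝ} (hp : p ∈ asaD) : asaPhi i p = asqCh (aspNorP i) (aspFr i p) := by
  unfold asaPhi asqCh
  rw [asa_frR_eq i hp]

theorem asa_lt_ell (i : Fin 4) (y : ℝ) : asqLt (aspNorP i) (aspEll i y) = y := by
  have hd := (asp_norP_pos i).ne'
  unfold asqLt aspEll
  rw [show aspNorP i / 2 * (2 / aspNorP i * Real.arctan (aspNorP i / 2 * y)) = Real.arctan (aspNorP i / 2 * y) by field_simp,
    Real.tan_arctan]
  field_simp

theorem asa_N_pos {p : ℝ × ℝ} (hp : p ≠ 0) : 0 < pncN p := by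
  rcases (pnc_N_nonneg p).lt_or_eq with h | h
  · exact h
  · exfalso
    apply hp
    have h1 := pnc_abs_fst_le p
    have h2 := pnc_abs_snd_le p
    rw [← h] at h1 h2
    ext
    · exact abs_nonpos_iff.1 h1
    · exact abs_nonpos_iff.1 h2

theorem asa_fr_zero (i : Fin 4) : aspFr i 0 = 0 :=
  match i with
  | 0 => by simp [aspFr]
  | 1 => by simp [aspFr]
  | 2 => by simp [aspFr]
  | 3 => by simp [aspFr]

/-- off the tangential zero line the frequency is not zero -/
theorem asa_ne_zero (i : Fin 4) {p : ℝ × ℝ} (hp : (aspFrR i p).1 ≠ 0) : p ≠ 0 := by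
  rintro rfl
  apply hp
  unfold aspFrR
  rw [asa_fr_zero]
  exact asa_red_self (asp_tanP_pos i) (asa_tanP_le i) (by simp)

/-- the lattice symbol is bounded below on the box: `DD ≥ (4/π²)|p|²` -/
theorem asa_DD_ge {p : ℝ × ℝ} (hp : p ∈ aspBox) : 4 / π ^ 2 * pncQ p ≤ aspDD p := by
  obtain ⟨h1, h2⟩ := hp
  have c1 := Real.cos_le_one_sub_mul_cos_sq (x := p.1) (abs_le.2 ⟨h1.1.le, h1.2⟩)
  have c2 := Real.cos_le_one_sub_mul_cos_sq (x := p.2) (abs_le.2 ⟨h2.1.le, h2.2⟩)
  unfold aspDD pncQ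
  have e : 4 / π ^ 2 * (p.1 ^ 2 + p.2 ^ 2) = 2 * (2 / π ^ 2 * p.1 ^ 2) + 2 * (2 / π ^ 2 * p.2 ^ 2) := by ring
  rw [e]
  linarith

variable {a : AspG → ℝ} {Cf ν : Measure (ℝ × ℝ)} {K : ℝ}

theorem asa_F_fin (hs : AspSpec a Cf K) (i : Fin 4) : Cf (asaF i) < ∞ := by
  have hd : (0 : ℝ) < 4 / π ^ 2 * (1 / 16) := by positivity
  have hDm : Measurable aspDD := by unfold aspDD; fun_prop
  have h1 : Cf (asaF i) ≤ Cf {p | ENNReal.ofReal (4 / π ^ 2 * (1 / 16)) ≤ ENNReal.ofReal (aspDD p)} := by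
    refine measure_mono_ae ?_
    filter_upwards [measure_eq_zero_iff_ae_notMem.1 hs.box] with p hp hF
    have hbox : p ∈ aspBox := by by_contra h; exact hp h
    refine ENNReal.ofReal_le_ofReal (le_trans ?_ (asa_DD_ge hbox))
    have hN : 1 / 4 ≤ pncN p := by
      by_contra hlt
      exact hF.2 ⟨asa_N_pos (asa_ne_zero i hF.1), not_le.1 hlt⟩
    have : (1 / 16 : ℝ) ≤ pncQ p := by
      rw [← pnc_N_sq]; nlinarith
    gcongr
  have h2 := mul_meas_ge_le_lintegral (μ := Cf) hDm.ennreal_ofReal (ENNReal.ofReal (4 / π ^ 2 * (1 / 16)))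
  have h3 : ENNReal.ofReal (4 / π ^ 2 * (1 / 16)) * Cf (asaF i) ≤ ENNReal.ofReal K := (mul_le_mul' le_rfl h1).trans (h2.trans hs.far)
  by_contra htop
  rw [not_lt, top_le_iff] at htop
  rw [htop, ENNReal.mul_top (by simpa using hd)] at h3
  exact absurd h3 (by simp)

/-! ### the mixture in the local form -/

theorem asa_mix {i : Fin 4} (hm : AspMix i Cf ν) (G : ℝ × ℝ → ℝ≥0∞) (hG : Measurable G) :
    ∫⁻ x, pncP G x ∂ν = ∫⁻ x in {x : ℝ × ℝ | x.1 ≠ 0}, G (asqCh (aspNorP i) x) ∂((Cf.restrict asaD).map (aspFr i))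
      + ∫⁻ x, G x ∂((Cf.restrict (asaF i)).map (asaPhi i)) := by
  have hG2 : Measurable fun y : ℝ × ℝ => G (y.1, asqLt (aspNorP i) y.2) :=
    hG.comp (measurable_fst.prodMk ((asq_lt_measurable _).comp measurable_snd))
  have h := hm.mix _ hG2
  have eR : ∫⁻ q, ∫⁻ t, G (q.1, asqLt (aspNorP i) (aspEll i (q.2 * t))) ∂aspCau ∂ν = ∫⁻ x, pncP G x ∂ν := by
    refine lintegral_congr_ae ?_
    filter_upwards [measure_eq_zero_iff_ae_notMem.1 hm.supp] with q hq
    have hq' : 0 ≤ q.2 := by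
      by_contra hneg
      exact hq fun hh => hneg hh.2.2.1
    simp only [asa_lt_ell]
    exact pnca_P_eq hG hq'
  rw [eR] at h
  rw [← h]
  have hsplit : {p : ℝ × ℝ | (aspFrR i p).1 ≠ 0} = ({p : ℝ × ℝ | (aspFrR i p).1 ≠ 0} ∩ asaD) ∪ asaF i := by
    ext p
    constructor
    · intro hp
      by_cases hD : p ∈ asaD
      · exact Or.inl ⟨hp, hD⟩
      · exact Or.inr ⟨hp, hD⟩
    · rintro (hp | hp)
      · exact hp.1
      · exact hp.1
  have hdisj : Disjoint ({p : ℝ × ℝ | (aspFrR i p).1 ≠ 0} ∩ asaD) (asaF i) := by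
    rw [Set.disjoint_left]
    intro p hp hF
    exact hF.2 hp.2
  rw [hsplit, lintegral_union (asa_F_meas i) hdisj, lintegral_map hG (asa_phi_meas i),
    setLIntegral_map (f := fun x => G (asqCh (aspNorP i) x)) asa_k_meas (hG.comp (asq_ch_measurable _)) (asa_fr_meas i),
    Measure.restrict_restrict ((asa_fr_meas i) asa_k_meas)]
  congr 1
  have hset : {p : ℝ × ℝ | (aspFrR i p).1 ≠ 0} ∩ asaD = aspFr i ⁻¹' {x : ℝ × ℝ | x.1 ≠ 0} ∩ asaD := by
    ext p
    constructor
    · rintro ⟨h1, h2⟩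
      refine ⟨?_, h2⟩
      have h1' : (aspFrR i p).1 ≠ 0 := h1
      rw [asa_frR_eq i h2] at h1'
      exact h1'
    · rintro ⟨h1, h2⟩
      refine ⟨?_, h2⟩
      show (aspFrR i p).1 ≠ 0
      rw [asa_frR_eq i h2]
      exact h1
  rw [hset]
  refine setLIntegral_congr_fun (((asa_fr_meas i) asa_k_meas).inter asa_D_meas) fun p hp => ?_
  show G (asaPhi i p) = G (asqCh (aspNorP i) (aspFr i p))
  rw [asa_phi_eq i hp.2]

theorem asa_E0 (i : Fin 4) : ((Cf.restrict (asaF i)).map (asaPhi i)) {x : ℝ × ℝ | x.1 = 0} = 0 := by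
  have hS : MeasurableSet {x : ℝ × ℝ | x.1 = 0} := measurableSet_eq_fun measurable_fst measurable_const
  rw [Measure.map_apply (asa_phi_meas i) hS, Measure.restrict_apply ((asa_phi_meas i) hS)]
  have : asaPhi i ⁻¹' {x : ℝ × ℝ | x.1 = 0} ∩ asaF i = ∅ := by
    ext p
    simp only [Set.mem_inter_iff, Set.mem_empty_iff_false, iff_false, not_and]
    intro h1 h2
    exact h2.1 h1
  rw [this, measure_empty]

theorem asa_Efin (hs : AspSpec a Cf K) (i : Fin 4) : IsFiniteMeasure ((Cf.restrict (asaF i)).map (asaPhi i)) := by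
  refine ⟨?_⟩
  rw [Measure.map_apply (asa_phi_meas i) MeasurableSet.univ, Set.preimage_univ, Measure.restrict_apply MeasurableSet.univ, Set.univ_inter]
  exact asa_F_fin hs i

theorem asa_nu0 {i : Fin 4} (hm : AspMix i Cf ν) : ν {x | x.1 = 0 ∨ x.2 < 0} = 0 := by
  refine measure_mono_null (fun q hq => ?_) hm.supp
  rintro ⟨h1, -, h3, -⟩
  rcases hq with h | h
  · exact h1 h
  · exact absurd h3 (not_le.2 h)

/-! ### quarter turn, annuli -/

theorem asa_turn (hs : AspSpec a Cf K) : (Cf.restrict asaD).map (fun p : ℝ × ℝ => (p.2, -p.1)) = Cf.restrict asaD := by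
  have hT' : Measurable fun p : ℝ × ℝ => (p.2, -p.1) := by fun_prop
  have hND : ∀ p : ℝ × ℝ, ((-p.2, p.1) : ℝ × ℝ) ∈ asaD ↔ p ∈ asaD := by
    intro p
    have : pncN ((-p.2, p.1) : ℝ × ℝ) = pncN p := by
      unfold pncN pncQ
      congr 1
      simp only
      ring
    unfold asaD
    simp only [Set.mem_ofPred_eq, this]
  ext S hS
  rw [Measure.map_apply hT' hS, Measure.restrict_apply (hT' hS), Measure.restrict_apply hS]
  set A : Set (ℝ × ℝ) := (fun p : ℝ × ℝ => (p.2, -p.1)) ⁻¹' S ∩ asaD with hA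
  have hm : MeasurableSet A := (hT' hS).inter asa_D_meas
  have h := hs.rot (Set.indicator A fun _ => 1) (measurable_const.indicator hm) (fun p hp => by
    refine Set.indicator_of_notMem (fun h => ?_) _
    have h2 : pncN p < 1 / 4 := h.2.2
    have h3 : pncN p ^ 2 = pncQ p := pnc_N_sq p
    have h4 : (1 : ℝ) ≤ pncQ p := hp
    nlinarith [pnc_N_nonneg p])
  rw [lintegral_indicator hm, setLIntegral_const, one_mul] at h
  rw [← h]
  have e : (fun p : ℝ × ℝ => Set.indicator A (fun _ => (1 : ℝ≥0∞)) (-p.2, p.1)) = Set.indicator (S ∩ asaD) fun _ => 1 := by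
    funext p
    by_cases hp : p ∈ S ∩ asaD
    · rw [Set.indicator_of_mem hp, Set.indicator_of_mem]
      refine ⟨?_, (hND p).2 hp.2⟩
      show ((p.1, - -p.2) : ℝ × ℝ) ∈ S
      rw [neg_neg]
      exact hp.1
    · rw [Set.indicator_of_notMem hp, Set.indicator_of_notMem]
      rintro ⟨h1, h2⟩
      apply hp
      refine ⟨?_, (hND p).1 h2⟩
      have h1' : ((p.1, - -p.2) : ℝ × ℝ) ∈ S := h1
      rw [neg_neg] at h1'
      exact h1'
  rw [e, lintegral_indicator (hS.inter asa_D_meas), setLIntegral_const, one_mul]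

theorem asa_R_R (p : ℝ × ℝ) : asqR (asqR p) = (p.2, -p.1) := by
  have h2 := asq_sqrt2_mul
  unfold asqR
  ext
  · simp only
    rw [← add_div, div_div, h2]; ring
  · simp only
    rw [← sub_div, div_div, h2]; ring

theorem asa_rot1 (hs : AspSpec a Cf K) : ((Cf.restrict asaD).map asqR).map asqR = Cf.restrict asaD := by
  rw [Measure.map_map asq_R_continuous.measurable asq_R_continuous.measurable]
  have : (asqR ∘ asqR) = fun p : ℝ × ℝ => (p.2, -p.1) := funext asa_R_R
  rw [this, asa_turn hs]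

theorem asa_ann (hs : AspSpec a Cf K) (r : ℝ) (hr : 0 < r) : (Cf.restrict asaD) {p | r ≤ pncN p ∧ pncN p ≤ 2 * r} ≤ ENNReal.ofReal K := by
  rw [Measure.restrict_apply (pnc_meas_shell _ _)]
  by_cases h : r ≤ 1 / 2
  · refine (measure_mono fun p hp => ?_).trans (hs.ann r hr h)
    obtain ⟨⟨h1, h2⟩, -⟩ := hp
    have h3 : pncN p ^ 2 = aspSq p := pnc_N_sq p
    constructor
    · rw [← h3]; exact pow_le_pow_left₀ hr.le h1 2
    · rw [← h3]; calc pncN p ^ 2 ≤ (2 * r) ^ 2 := pow_le_pow_left₀ (pnc_N_nonneg p) h2 2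
        _ = 4 * r ^ 2 := by ring
  · have : {p | r ≤ pncN p ∧ pncN p ≤ 2 * r} ∩ asaD = ∅ := by
      ext p
      simp only [Set.mem_inter_iff, Set.mem_empty_iff_false, iff_false, not_and]
      intro h1 h2
      have a1 : r ≤ pncN p := h1.1
      have a2 : pncN p < 1 / 4 := h2.2
      linarith
    rw [this]; simp

/-! ### the adapter -/

theorem asa_fr0 : aspFr 0 = id := rfl

theorem asa_fr1 : aspFr 1 = asqR := rfl

/-- **the adapter**: the local two-frame contract from `AspSpec` + `AspMix 0` + `AspMix 1` -/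
noncomputable def asaIn {ν0 ν1 : Measure (ℝ × ℝ)} (hs : AspSpec a Cf K) (hm0 : AspMix 0 Cf ν0) (hm1 : AspMix 1 Cf ν1) : AsqIn where
  C0 := Cf.restrict asaD
  nu := ν0
  E := (Cf.restrict (asaF 0)).map (asaPhi 0)
  d := aspNorP 0
  C1 := (Cf.restrict asaD).map asqR
  nu1 := ν1
  E1 := (Cf.restrict (asaF 1)).map (asaPhi 1)
  d1 := aspNorP 1
  r0 := 1 / 4
  K := K
  r0_pos := by norm_num
  r0_le4 := le_rfl
  d_pos := asp_norP_pos 0
  d_le := asa_norP_le 0
  d1_pos := asp_norP_pos 1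
  d1_le := asa_norP_le 1
  supp := by
    have : {p | ¬ (0 < pncN p ∧ pncN p < 1 / 4)} = asaDᶜ := rfl
    rw [this, Measure.restrict_apply asa_D_meas.compl, Set.compl_inter_self, measure_empty]
  rot := rfl
  rot1 := asa_rot1 hs
  ann := asa_ann hs
  Efin := asa_Efin hs 0
  E0 := asa_E0 0
  nu0 := asa_nu0 hm0
  mix := fun G hG => by
    have h := asa_mix hm0 G hG
    rw [asa_fr0, Measure.map_id] at h
    exact h
  Efin1 := asa_Efin hs 1
  E01 := asa_E0 1
  nu01 := asa_nu0 hm1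
  mix1 := fun G hG => asa_mix hm1 G hG

theorem asa_eqns_cite : True := by
  have := @asaD.eq_1
  have := @asaF.eq_1
  have := @asaPhi.eq_1
  have := @asaIn.eq_1
  trivial

/-- **B3**: the full spectral scaling limit -/
theorem asa_core (hs : AspSpec a Cf K) (hm : ∀ i : Fin 4, ∃ ν : Measure (ℝ × ℝ), AspMix i Cf ν) : ∃ c : ℝ, 0 ≤ c ∧ AspPS Cf c := by
  obtain ⟨ν0, hm0⟩ := hm 0
  obtain ⟨ν1, hm1⟩ := hm 1
  set I := asaIn hs hm0 hm1 with hI
  refine ⟨asqC I, asq_C_nonneg I, fun Ψ hc hcs => ?_⟩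
  refine (asq_main I hc hcs).congr' ?_
  obtain ⟨M, R, hM0, hR1, hM, hR⟩ := pnc_cs_bound hc hcs
  have hev : ∀ᶠ δ : ℝ in 𝓝[>] 0, R * δ < 1 / 4 := by
    have : Tendsto (fun δ : ℝ => R * δ) (𝓝[>] 0) (𝓝 (R * 0)) := (tendsto_const_nhds.mul tendsto_id).mono_left nhdsWithin_le_nhds
    rw [mul_zero] at this
    exact this.eventually (Iio_mem_nhds (by norm_num))
  filter_upwards [hev, self_mem_nhdsWithin] with δ hδ hδ0
  have hδ0 : 0 < δ := hδ0
  show ∫ p, Ψ (pncSc δ p) * pncQ (pncSc δ p) ∂(Cf.restrict asaD) = _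
  rw [← integral_indicator asa_D_meas]
  refine integral_congr_ae ?_
  have h0 : ∀ᵐ p ∂Cf, p ≠ 0 := measure_eq_zero_iff_ae_notMem.1 hs.zero
  filter_upwards [h0] with p hp
  have e1 : δ⁻¹ • p = pncSc δ p := by
    unfold pncSc
    ext <;> simp [div_eq_inv_mul]
  have e2 : aspSq p / δ ^ 2 = pncQ (pncSc δ p) := (pnc_Q_sc δ p).symm
  rw [e1, e2]
  by_cases hD : p ∈ asaD
  · rw [Set.indicator_of_mem hD]
  · rw [Set.indicator_of_notMem hD]
    have hN : 1 / 4 ≤ pncN p := by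
      by_contra hlt
      exact hD ⟨asa_N_pos hp, not_le.1 hlt⟩
    rw [hR (pncSc δ p) (by rw [pnc_N_sc hδ0, lt_div_iff₀ hδ0]; linarith), zero_mul]

end Claimed.Agent.R292
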