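import Claimed.Agent.R291.Spec.Pois

/-!
# Row 292 (S0540), unit SPEC, file Spec/AngPois22 (helper22, prefix `sp22`)

TEX[04-spectral, subsec. "An angular defect in two frames", eq:angular-poisson] in the BOX + CAYLEY form of `R291/Spec/Pois`
(`gsp_pois_box`: the law on `(-π, π]` with Fourier coefficients `λ^{|j|}` is the law of `2 arctan (τ t)`, `t` standard Cauchy,
`τ = (1 - λ) / (1 + λ)`).  No periodisation is needed in this form.   0 sorry.

* sec. 1  `sp22Chi k l = 1 - 8 k² l² / (k² + l²)²` (= cos 4 arg (k + i l)), `sp22D k s = ((|k| - s) / (|k| + s))²`, `|χ| ≤ 1`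
* sec. 2  `sp22_core_integral` : `∫ t² / ((1 + t²)(a² + t²)²) dt = π / (2 a (a + 1)²)` (explicit primitive `sp22F`, `a ≠ 1`)
* sec. 3  **`sp22_poisson`** : `∫ χ(b, s t) dCau(t) = D(b, s)`, all `b > 0`, `s ≥ 0` (`s = b` by continuity)
* sec. 4  `sp22Chi_arctan` : `|χ(b, c arctan x) - χ(b, c x)| ≤ 8 b² / c²` for ALL `x`;
          **`sp22_angular`** : `|∫ χ(k, 2 arctan (τ t) / d) dCau(t) - D(k, 2 τ / d)| ≤ 2 d² k²`, uniformly in `τ ≥ 0`  (the paper has `O(|k|)`)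
-/

set_option autoImplicit false

namespace Claimed.Agent.R292

open MeasureTheory Filter Topology Set
open Claimed.Agent.R291

/-! ## 1. the fourth harmonic and the defect -/

/-- `χ(k, l) = cos (4 arg (k + i l)) = 1 - 8 k² l² / (k² + l²)²` -/
noncomputable def sp22Chi (k l : ℝ) : ℝ := 1 - 8 * k ^ 2 * l ^ 2 / (k ^ 2 + l ^ 2) ^ 2

/-- `D(k, s) = ((|k| - s) / (|k| + s))²` -/
noncomputable def sp22D (k s : ℝ) : ℝ := ((|k| - s) / (|k| + s)) ^ 2

theorem sp22Chi_le_one (k l : ℝ) : sp22Chi k l ≤ 1 := by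
  unfold sp22Chi
  have : 0 ≤ 8 * k ^ 2 * l ^ 2 / (k ^ 2 + l ^ 2) ^ 2 := by positivity
  linarith

theorem sp22Chi_ge (k l : ℝ) : -1 ≤ sp22Chi k l := by
  unfold sp22Chi
  have h : 8 * k ^ 2 * l ^ 2 / (k ^ 2 + l ^ 2) ^ 2 ≤ 2 := by
    rcases eq_or_ne ((k ^ 2 + l ^ 2) ^ 2) 0 with h0 | h0
    · rw [h0, div_zero]; norm_num
    · rw [div_le_iff₀ (lt_of_le_of_ne (by positivity) (Ne.symm h0))]
      nlinarith [sq_nonneg (k ^ 2 - l ^ 2)]
  linarith

theorem sp22Chi_abs_le (k l : ℝ) : |sp22Chi k l| ≤ 1 :=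
  abs_le.2 ⟨sp22Chi_ge k l, sp22Chi_le_one k l⟩

theorem sp22Chi_abs_left (k l : ℝ) : sp22Chi |k| l = sp22Chi k l := by
  unfold sp22Chi; rw [sq_abs]

/-- real form of `gspCau_integral` -/
theorem sp22_cau_integral (g : ℝ → ℝ) : ∫ t, g t ∂gspCau = ∫ t, (1 / (Real.pi * (1 + t ^ 2))) * g t := by
  rw [gspCau, integral_withDensity_eq_integral_toReal_smul gspCau_dens_measurable
    (Eventually.of_forall fun y => ENNReal.ofReal_lt_top)]
  refine integral_congr_ae (Eventually.of_forall fun t => ?_)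
  show (ENNReal.ofReal (1 / (Real.pi * (1 + t ^ 2)))).toReal • g t = _
  rw [ENNReal.toReal_ofReal (gspCau_dens_nonneg t), smul_eq_mul]

/-! ## 2. the key integral, by an explicit primitive -/

/-- the primitive of `t² / ((1 + t²) (a² + t²)²)`, `a ≠ 1` -/
noncomputable def sp22F (a t : ℝ) : ℝ :=
  -(1 / (a ^ 2 - 1) ^ 2) * Real.arctan t + (1 / (a ^ 2 - 1) ^ 2) / a * Real.arctan (t / a) +
    a ^ 2 / (a ^ 2 - 1) * (t / (2 * a ^ 2 * (a ^ 2 + t ^ 2)) + Real.arctan (t / a) / (2 * a ^ 3))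

theorem sp22F_hasDerivAt {a : ℝ} (ha : 0 < a) (ha1 : a ≠ 1) (t : ℝ) :
    HasDerivAt (sp22F a) (t ^ 2 / ((1 + t ^ 2) * (a ^ 2 + t ^ 2) ^ 2)) t := by
  have h1 : HasDerivAt Real.arctan (1 / (1 + t ^ 2)) t := Real.hasDerivAt_arctan t
  have h2 : HasDerivAt (fun t : ℝ => Real.arctan (t / a)) (1 / (1 + (t / a) ^ 2) * (1 / a)) t :=
    ((hasDerivAt_id t).div_const a).arctan
  have hpos : 0 < a ^ 2 + t ^ 2 := by positivity
  have h3 : HasDerivAt (fun t : ℝ => t / (2 * a ^ 2 * (a ^ 2 + t ^ 2)))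
      ((1 * (2 * a ^ 2 * (a ^ 2 + t ^ 2)) - t * (2 * a ^ 2 * (2 * t))) / (2 * a ^ 2 * (a ^ 2 + t ^ 2)) ^ 2) t := by
    have h4 : HasDerivAt (fun t : ℝ => 2 * a ^ 2 * (a ^ 2 + t ^ 2)) (2 * a ^ 2 * (2 * t)) t := by
      have := ((hasDerivAt_pow 2 t).const_add (a ^ 2)).const_mul (2 * a ^ 2)
      simpa using this
    exact (hasDerivAt_id t).div h4 (by positivity)
  have h := ((h1.const_mul (-(1 / (a ^ 2 - 1) ^ 2))).add (h2.const_mul ((1 / (a ^ 2 - 1) ^ 2) / a))).add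
    ((h3.add (h2.div_const (2 * a ^ 3))).const_mul (a ^ 2 / (a ^ 2 - 1)))
  refine h.congr_deriv ?_
  have hne : a ^ 2 - 1 ≠ 0 := by
    intro h0
    have : (a - 1) * (a + 1) = 0 := by ring_nf; linarith
    rcases mul_eq_zero.1 this with h5 | h5
    · exact ha1 (by linarith)
    · linarith
  have h6 : (1 : ℝ) + t ^ 2 ≠ 0 := by positivity
  field_simp
  ring

theorem sp22_core_continuous {a : ℝ} (ha : 0 < a) :
    Continuous fun t : ℝ => t ^ 2 / ((1 + t ^ 2) * (a ^ 2 + t ^ 2) ^ 2) := by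
  refine Continuous.div (by fun_prop) (by fun_prop) fun t => ?_
  positivity

theorem sp22_core_integrable {a : ℝ} (ha : 0 < a) :
    Integrable fun t : ℝ => t ^ 2 / ((1 + t ^ 2) * (a ^ 2 + t ^ 2) ^ 2) := by
  refine (integrable_inv_one_add_sq.const_mul (1 / a ^ 2)).mono'
    (sp22_core_continuous ha).aestronglyMeasurable (Eventually.of_forall fun t => ?_)
  rw [Real.norm_eq_abs, abs_of_nonneg (by positivity)]
  have h1 : 0 < a ^ 2 + t ^ 2 := by positivity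
  have h2 : (0 : ℝ) < 1 + t ^ 2 := by positivity
  have h3 : 0 < a ^ 2 := by positivity
  rw [div_mul_eq_mul_div, one_mul, div_le_div_iff₀ (by positivity) h3, ← one_div, div_mul_eq_mul_div, one_mul,
    le_div_iff₀ h2]
  nlinarith [mul_pos h2 h3, sq_nonneg t, mul_nonneg (sq_nonneg t) (sq_nonneg t), mul_pos h3 h3,
    mul_nonneg (mul_nonneg (sq_nonneg t) h2.le) (mul_nonneg (sq_nonneg t) (sq_nonneg t)),
    mul_nonneg (mul_nonneg (sq_nonneg t) h2.le) (mul_nonneg h3.le (sq_nonneg t))]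

theorem sp22_tendsto_aux {a : ℝ} (ha : 0 < a) :
    Tendsto (fun t : ℝ => t / (2 * a ^ 2 * (a ^ 2 + t ^ 2))) atTop (𝓝 0) ∧
    Tendsto (fun t : ℝ => t / (2 * a ^ 2 * (a ^ 2 + t ^ 2))) atBot (𝓝 0) := by
  have hb : ∀ t : ℝ, t ≠ 0 → |t / (2 * a ^ 2 * (a ^ 2 + t ^ 2))| ≤ (1 / (2 * a ^ 2)) * |t|⁻¹ := by
    intro t ht
    have h1 : 0 < |t| := abs_pos.2 ht
    have h3 : 0 < a ^ 2 := by positivity
    rw [abs_div, abs_of_pos (show 0 < 2 * a ^ 2 * (a ^ 2 + t ^ 2) by positivity), ← sq_abs t]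
    rw [div_mul_eq_mul_div, one_mul, div_le_div_iff₀ (by positivity) (by positivity)]
    have : |t|⁻¹ * (2 * a ^ 2 * (a ^ 2 + |t| ^ 2)) = 2 * a ^ 2 * (a ^ 2 * |t|⁻¹ + |t|) := by
      field_simp
    rw [this]
    have h4 : 0 < |t|⁻¹ := inv_pos.2 h1
    nlinarith [mul_pos h3 h4, mul_pos h3 (mul_pos h3 h4), mul_pos h3 h1]
  have hz1 : Tendsto (fun t : ℝ => (1 / (2 * a ^ 2)) * |t|⁻¹) atTop (𝓝 0) := by
    have := (tendsto_inv_atTop_zero.comp tendsto_abs_atTop_atTop).const_mul (1 / (2 * a ^ 2))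
    simpa using this
  have hz2 : Tendsto (fun t : ℝ => (1 / (2 * a ^ 2)) * |t|⁻¹) atBot (𝓝 0) := by
    have := (tendsto_inv_atTop_zero.comp tendsto_abs_atBot_atTop).const_mul (1 / (2 * a ^ 2))
    simpa using this
  constructor
  · refine squeeze_zero_norm' ?_ hz1
    filter_upwards [eventually_ne_atTop 0] with t ht
    exact hb t ht
  · refine squeeze_zero_norm' ?_ hz2
    filter_upwards [eventually_ne_atBot 0] with t ht
    exact hb t ht

theorem sp22F_tendsto {a : ℝ} (ha : 0 < a) :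
    Tendsto (sp22F a) atTop (𝓝 (-(1 / (a ^ 2 - 1) ^ 2) * (Real.pi / 2) + (1 / (a ^ 2 - 1) ^ 2) / a * (Real.pi / 2) +
      a ^ 2 / (a ^ 2 - 1) * (0 + (Real.pi / 2) / (2 * a ^ 3)))) ∧
    Tendsto (sp22F a) atBot (𝓝 (-(1 / (a ^ 2 - 1) ^ 2) * (-(Real.pi / 2)) + (1 / (a ^ 2 - 1) ^ 2) / a * (-(Real.pi / 2)) +
      a ^ 2 / (a ^ 2 - 1) * (0 + (-(Real.pi / 2)) / (2 * a ^ 3)))) := by
  have t1 : Tendsto Real.arctan atTop (𝓝 (Real.pi / 2)) :=
    tendsto_nhds_of_tendsto_nhdsWithin Real.tendsto_arctan_atTop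
  have t2 : Tendsto Real.arctan atBot (𝓝 (-(Real.pi / 2))) :=
    tendsto_nhds_of_tendsto_nhdsWithin Real.tendsto_arctan_atBot
  have s1 : Tendsto (fun t : ℝ => t / a) atTop atTop := tendsto_id.atTop_div_const ha
  have s2 : Tendsto (fun t : ℝ => t / a) atBot atBot := tendsto_id.atBot_div_const ha
  obtain ⟨z1, z2⟩ := sp22_tendsto_aux ha
  constructor
  · exact ((t1.const_mul _).add ((t1.comp s1).const_mul _)).add
      ((z1.add ((t1.comp s1).div_const _)).const_mul _)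
  · exact ((t2.const_mul _).add ((t2.comp s2).const_mul _)).add
      ((z2.add ((t2.comp s2).div_const _)).const_mul _)

/-- `∫ t² / ((1 + t²)(a² + t²)²) dt = π / (2 a (a + 1)²)`, `a ≠ 1` -/
theorem sp22_core_integral {a : ℝ} (ha : 0 < a) (ha1 : a ≠ 1) :
    ∫ t : ℝ, t ^ 2 / ((1 + t ^ 2) * (a ^ 2 + t ^ 2) ^ 2) = Real.pi / (2 * a * (a + 1) ^ 2) := by
  obtain ⟨h1, h2⟩ := sp22F_tendsto ha
  rw [integral_of_hasDerivAt_of_tendsto (fun t => sp22F_hasDerivAt ha ha1 t) (sp22_core_integrable ha) h2 h1]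
  have hne : a - 1 ≠ 0 := sub_ne_zero.2 ha1
  have hne2 : a + 1 ≠ 0 := by positivity
  have e : a ^ 2 - 1 = (a - 1) * (a + 1) := by ring
  rw [e]
  field_simp
  ring

/-! ## 3. the Poisson average of the fourth harmonic -/

theorem sp22Chi_continuous {b : ℝ} (hb : 0 < b) : Continuous fun l : ℝ => sp22Chi b l := by
  unfold sp22Chi
  refine continuous_const.sub (Continuous.div (by fun_prop) (by fun_prop) fun l => ?_)
  positivity

theorem sp22Chi_integrable {b : ℝ} (hb : 0 < b) {f : ℝ → ℝ} (hf : Continuous f) :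
    Integrable (fun t => sp22Chi b (f t)) gspCau :=
  (integrable_const (1 : ℝ)).mono' ((sp22Chi_continuous hb).comp hf).aestronglyMeasurable
    (Eventually.of_forall fun t => sp22Chi_abs_le b (f t))

theorem sp22_poisson_ne {b s : ℝ} (hb : 0 < b) (hs : 0 < s) (hbs : b ≠ s) :
    ∫ t, sp22Chi b (s * t) ∂gspCau = sp22D b s := by
  have ha : 0 < b / s := div_pos hb hs
  have ha1 : b / s ≠ 1 := by
    intro h
    exact hbs ((div_eq_one_iff_eq hs.ne').1 h)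
  have hpi := Real.pi_pos
  rw [sp22_cau_integral]
  have e : ∀ t : ℝ, (1 / (Real.pi * (1 + t ^ 2))) * sp22Chi b (s * t) =
      Real.pi⁻¹ * (1 + t ^ 2)⁻¹ - (8 * (b / s) ^ 2 / Real.pi) * (t ^ 2 / ((1 + t ^ 2) * ((b / s) ^ 2 + t ^ 2) ^ 2)) := by
    intro t
    unfold sp22Chi
    have h1 : (0 : ℝ) < 1 + t ^ 2 := by positivity
    have h2 : 0 < b ^ 2 + (s * t) ^ 2 := by positivity
    have h3 : 0 < (b / s) ^ 2 + t ^ 2 := by positivity
    have h4 : (b / s) ^ 2 + t ^ 2 = (b ^ 2 + (s * t) ^ 2) / s ^ 2 := by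
      field_simp
    rw [h4]
    field_simp
  simp_rw [e]
  rw [integral_sub (integrable_inv_one_add_sq.const_mul _) ((sp22_core_integrable ha).const_mul _),
    integral_const_mul, integral_const_mul, integral_univ_inv_one_add_sq, sp22_core_integral ha ha1]
  unfold sp22D
  rw [abs_of_pos hb]
  have h5 : b + s ≠ 0 := by positivity
  have h6 : b / s + 1 = (b + s) / s := by field_simp
  rw [h6]
  field_simp
  ring

theorem sp22_poisson_continuous {b : ℝ} (hb : 0 < b) :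
    Continuous fun s : ℝ => ∫ t, sp22Chi b (s * t) ∂gspCau := by
  refine continuous_of_dominated (bound := fun _ => (1 : ℝ)) (fun s => ?_) (fun s => ?_) (integrable_const _) ?_
  · exact ((sp22Chi_continuous hb).comp (continuous_const.mul continuous_id)).aestronglyMeasurable
  · exact Eventually.of_forall fun t => sp22Chi_abs_le b (s * t)
  · exact Eventually.of_forall fun t => (sp22Chi_continuous hb).comp (continuous_id.mul continuous_const)

/-- **The Poisson average of the fourth harmonic**: `∫ χ(b, l) s dl / (π (s² + l²)) = ((b - s) / (b + s))²`. -/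
theorem sp22_poisson {b s : ℝ} (hb : 0 < b) (hs : 0 ≤ s) :
    ∫ t, sp22Chi b (s * t) ∂gspCau = sp22D b s := by
  rcases hs.eq_or_lt with rfl | hs
  · have : ∀ t : ℝ, sp22Chi b (0 * t) = 1 := by intro t; simp [sp22Chi]
    simp only [this]
    simp [sp22D, abs_of_pos hb, hb.ne']
  by_cases hbs : b = s
  · subst hbs
    have h1 : Tendsto (fun s : ℝ => ∫ t, sp22Chi b (s * t) ∂gspCau) (𝓝[≠] b)
        (𝓝 (∫ t, sp22Chi b (b * t) ∂gspCau)) :=
      ((sp22_poisson_continuous hb).tendsto b).mono_left nhdsWithin_le_nhds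
    have h2 : Tendsto (fun s : ℝ => sp22D b s) (𝓝[≠] b) (𝓝 (sp22D b b)) := by
      refine Tendsto.mono_left ?_ nhdsWithin_le_nhds
      unfold sp22D
      refine ContinuousAt.tendsto ?_
      refine ContinuousAt.pow (ContinuousAt.div (by fun_prop) (by fun_prop) ?_) 2
      rw [abs_of_pos hb]; positivity
    refine tendsto_nhds_unique (h1.congr' ?_) h2
    have h3 : ∀ᶠ s in 𝓝[≠] b, 0 < s := nhdsWithin_le_nhds (lt_mem_nhds hb)
    filter_upwards [h3, self_mem_nhdsWithin] with s hs1 hs2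
    exact sp22_poisson_ne hb hs1 (Ne.symm hs2)
  · exact sp22_poisson_ne hb hs hbs

/-! ## 4. from the line to the circle: the Cayley angle -/

theorem sp22_arctan_sq_le (x : ℝ) : Real.arctan x ^ 2 ≤ x ^ 2 := by
  have key : ∀ y : ℝ, 0 ≤ y → Real.arctan y ^ 2 ≤ y ^ 2 := by
    intro y hy
    have h1 := Real.le_tan (Real.arctan_nonneg.2 hy) (Real.arctan_lt_pi_div_two y)
    rw [Real.tan_arctan] at h1
    exact pow_le_pow_left₀ (Real.arctan_nonneg.2 hy) h1 2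
  rcases le_total 0 x with h | h
  · exact key x h
  · have := key (-x) (by linarith)
    rwa [Real.arctan_neg, neg_sq, neg_sq] at this

theorem sp22_sq_le_arctan (x : ℝ) : x ^ 2 ≤ Real.arctan x ^ 2 * (1 + x ^ 2) := by
  have h1 := Real.sin_sq_le_sq (x := Real.arctan x)
  rw [Real.sin_sq_arctan, div_le_iff₀ (by positivity)] at h1
  exact h1

/-- the fourth harmonic does not see the difference between `c x` and `c arctan x`, up to `8 b² / c²` -/
theorem sp22Chi_arctan {b c : ℝ} (hb : 0 < b) (hc : 0 < c) (x : ℝ) :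
    |sp22Chi b (c * Real.arctan x) - sp22Chi b (c * x)| ≤ 8 * b ^ 2 / c ^ 2 := by
  set p := c * x with hp
  set q := c * Real.arctan x with hq
  have hqp : q ^ 2 ≤ p ^ 2 := by
    rw [hp, hq, mul_pow, mul_pow]
    exact mul_le_mul_of_nonneg_left (sp22_arctan_sq_le x) (by positivity)
  have hkey : c ^ 2 * (p ^ 2 - q ^ 2) ≤ p ^ 2 * q ^ 2 := by
    have h1 := sp22_sq_le_arctan x
    have h2 : 0 ≤ c ^ 4 := by positivity
    have : c ^ 2 * (p ^ 2 - q ^ 2) = c ^ 4 * (x ^ 2 - Real.arctan x ^ 2) := by rw [hp, hq]; ring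
    rw [this]
    have : p ^ 2 * q ^ 2 = c ^ 4 * (x ^ 2 * Real.arctan x ^ 2) := by rw [hp, hq]; ring
    rw [this]
    exact mul_le_mul_of_nonneg_left (by nlinarith) h2
  have hP : 0 < b ^ 2 + p ^ 2 := by positivity
  have hQ : 0 < b ^ 2 + q ^ 2 := by positivity
  have e : sp22Chi b q - sp22Chi b p =
      8 * b ^ 2 * ((p ^ 2 - q ^ 2) * (b ^ 4 - p ^ 2 * q ^ 2)) / ((b ^ 2 + p ^ 2) ^ 2 * (b ^ 2 + q ^ 2) ^ 2) := by
    unfold sp22Chi
    field_simp
    ring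
  rw [e, abs_div, abs_of_pos (show 0 < (b ^ 2 + p ^ 2) ^ 2 * (b ^ 2 + q ^ 2) ^ 2 by positivity),
    div_le_div_iff₀ (by positivity) (by positivity), abs_mul (8 * b ^ 2), abs_mul (p ^ 2 - q ^ 2),
    abs_of_nonneg (show 0 ≤ 8 * b ^ 2 by positivity), abs_of_nonneg (show 0 ≤ p ^ 2 - q ^ 2 by linarith)]
  have h3 : |b ^ 4 - p ^ 2 * q ^ 2| ≤ (b ^ 2 + p ^ 2) * (b ^ 2 + q ^ 2) := by
    rw [abs_le]
    constructor <;> nlinarith [sq_nonneg p, sq_nonneg q, sq_nonneg b, mul_nonneg (sq_nonneg p) (sq_nonneg q),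
      mul_nonneg (sq_nonneg b) (sq_nonneg q), mul_nonneg (sq_nonneg b) (sq_nonneg p), mul_nonneg (sq_nonneg b) (sq_nonneg b)]
  have h4 : c ^ 2 * (p ^ 2 - q ^ 2) ≤ (b ^ 2 + p ^ 2) * (b ^ 2 + q ^ 2) := by
    nlinarith [sq_nonneg p, sq_nonneg q, sq_nonneg b, mul_nonneg (sq_nonneg b) (sq_nonneg q),
      mul_nonneg (sq_nonneg b) (sq_nonneg p), mul_nonneg (sq_nonneg b) (sq_nonneg b)]
  have h5 : 0 ≤ p ^ 2 - q ^ 2 := by linarith
  calc 8 * b ^ 2 * ((p ^ 2 - q ^ 2) * |b ^ 4 - p ^ 2 * q ^ 2|) * c ^ 2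
      = 8 * b ^ 2 * ((c ^ 2 * (p ^ 2 - q ^ 2)) * |b ^ 4 - p ^ 2 * q ^ 2|) := by ring
    _ ≤ 8 * b ^ 2 * (((b ^ 2 + p ^ 2) * (b ^ 2 + q ^ 2)) * ((b ^ 2 + p ^ 2) * (b ^ 2 + q ^ 2))) := by
        gcongr
    _ = 8 * b ^ 2 * ((b ^ 2 + p ^ 2) ^ 2 * (b ^ 2 + q ^ 2) ^ 2) := by ring

/-- **eq:angular-poisson, box + Cayley form.**  `d` = the normal spacing of the frame (the box angle is `θ = d l`), `τ ∈ [0, ∞)` the Cayley
parameter of the normal transfer eigenvalue, `s = 2 τ / d` the corresponding Cauchy scale.  Uniformly in `τ`: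
`|∫ χ(k, θ(t) / d) dCau(t) - D(k, 2 τ / d)| ≤ 2 d² k²`. -/
theorem sp22_angular {d k τ : ℝ} (hd : 0 < d) (hk : k ≠ 0) (hτ : 0 ≤ τ) :
    |∫ t, sp22Chi k (2 * Real.arctan (τ * t) / d) ∂gspCau - sp22D k (2 * τ / d)| ≤ 2 * d ^ 2 * k ^ 2 := by
  have hb : 0 < |k| := abs_pos.2 hk
  have hD : sp22D k (2 * τ / d) = sp22D |k| (2 * τ / d) := by unfold sp22D; rw [abs_abs]
  rw [hD, ← sp22_poisson hb (show 0 ≤ 2 * τ / d by positivity)]
  simp_rw [← sp22Chi_abs_left k]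
  rw [← integral_sub (sp22Chi_integrable hb (by fun_prop)) (sp22Chi_integrable hb (by fun_prop))]
  have hbound : ∀ t : ℝ, ‖sp22Chi |k| (2 * Real.arctan (τ * t) / d) - sp22Chi |k| (2 * τ / d * t)‖ ≤ 2 * d ^ 2 * k ^ 2 := by
    intro t
    have h := sp22Chi_arctan hb (show 0 < 2 / d by positivity) (τ * t)
    have e1 : 2 / d * Real.arctan (τ * t) = 2 * Real.arctan (τ * t) / d := by ring
    have e2 : 2 / d * (τ * t) = 2 * τ / d * t := by ring
    have e3 : 8 * |k| ^ 2 / (2 / d) ^ 2 = 2 * d ^ 2 * k ^ 2 := by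
      rw [sq_abs]; field_simp; ring
    rw [e1, e2, e3] at h
    exact h
  have := norm_integral_le_of_norm_le_const (μ := gspCau) (Eventually.of_forall hbound)
  simpa using this

end Claimed.Agent.R292
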