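import Claimed.Agent.R292.Spec.Spec12

/-!
# Row 292, Spec/B1 : CONTRACT B1 = TEX[lem:increment-spectral], model free      (typed helper79; OWNER helper12)
PROVED (0 sorry): `Spec/Spec12.lean` = adapter on the geometry-free torus level of R291 Pln/CovA CovB (imported, not ported).
-/

set_option autoImplicit false

namespace Claimed.Agent.R292

open MeasureTheory

theorem asp_spec {a : AspG → ℝ} (h : AspIn a) : ∃ (Cf : Measure (ℝ × ℝ)) (K : ℝ), AspSpec a Cf K :=
  asu_spec h

end Claimed.Agent.R292
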