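import Claimed.Agent.R292.Defs.SPEC

/-!
# Row 292, Spec/B5 : OPEN CONTRACT B5 (1 sorry, NOT PROVED, NOT CONSUMED: no file imports this one) = logarithmic form of the covariance from the Laplacian form      (typed helper79; no owner)
For neutral `f`: `u = (1/2π) log(1/|·|) * f`, `-Δ u = f`, `u = O(1/|x|)`; `f = -Δ(χ_R u) + e_R`, `e_R` neutral, `|e_R| ≤ C R⁻³` on `|x| ≤ 2R`: variance `≤ K C² / R²` by `AspIn.sm`, uniformly in `δ`.
-/

set_option autoImplicit false

namespace Claimed.Agent.R292

open MeasureTheory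

theorem asp_log_contract {a : AspG → ℝ} {v : ℝ} (h : AspIn a) (hv : AspPCF (aspGam a) v) : AspGreenF (aspGam a) (v / (2 * Real.pi)) := by
  sorry

end Claimed.Agent.R292
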