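import Claimed.Agent.R291.Pln.PncCoef

/-!
# Row 292 (S0540), unit SPEC, box B3 : uniqueness of the coefficient by the TWO-FRAME cutoff identity      (helper22; prefix `ase`, `Ase`)

Port of `R291/Pln/PncCoef.lean` (Lemma 4.8 of the triangular paper) to two frames at angle `π/4`.      MODEL FREE, TORUS FREE, CONTRACT FREE.
Everything lattice free is IMPORTED from R291 (`pncq0`, `pncChi`, `pncXi`, `pncXiR`, `pnc_IXi : ∫ Ξ = -π/2`, `pnc_ang`, ...).

**`AseIn`** = exactly the facts which the cutoff identity consumes, so that any local contract of the core (`AscIn` of 12, `AsqIn` of 102) instantiates it by ONE adapter: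
* `C i` = the local spectral measure in the coordinates `(k, l)` of the frame `i = 0, 1`;   `C 1 = (C 0).map T`, `T` a linear isometry with `χ ∘ T = -χ`
  (rotation by `± π/4` or the reflection `(k,l) ↦ ((k+l)/√2, (k-l)/√2)`);
* `nu i`, `E i`, `ch i` = mixing measure, finite rest, Cayley chart of the frame `i`;
* elementary facts: `far`, `Q_int`, `dist`, `mix_real`  (ports of `pnc_far_lt_top`, `pnc_Q_integrable`, `pnc_chi_dist`, `pnc_mix_real`);
* deep facts: `D_int` (summable defect), `cap_tail` (endcaps), `lam` + `c_bdd` + `c_nonneg` (running coefficient).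

Results:
* `ase_J_lim`   : `J₀(h) + J₁(h) → L`  (the radial halves cancel POINTWISE, `χ + χ ∘ T = 0`; no rotation invariance of `C`);
* `ase_J_asymp` : `J_i(h) - c_h ∫ Ξ → 0` in each frame;
* `ase_c_lim`   : `c_δ → c = -L/π ≥ 0`;      `ase_main` : `Λ_δ Ψ → c ∫ Ψ`, FULL limit.
-/

set_option autoImplicit false

namespace Claimed.Agent.R292

open Claimed.Agent.R291 MeasureTheory Filter Topology
open scoped ENNReal Real

/-- **what the two-frame cutoff identity consumes** (see the header) -/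
structure AseIn where
  /-- the local spectral measure in the coordinates of the frame `i` -/
  C : Fin 2 → Measure (ℝ × ℝ)
  /-- the mixing measures -/
  nu : Fin 2 → Measure (ℝ × ℝ)
  /-- the finite rests -/
  E : Fin 2 → Measure (ℝ × ℝ)
  /-- the Cayley charts -/
  ch : Fin 2 → ℝ × ℝ → ℝ × ℝ
  /-- the change of frame -/
  T : ℝ × ℝ → ℝ × ℝ
  /-- the running coefficient -/
  c : ℝ → ℝ
  T_cont : Continuous T
  T_N : ∀ p, pncN (T p) = pncN p
  T_chi : ∀ p, p ≠ 0 → pncChi (T p) = -pncChi p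
  T_sc : ∀ (δ : ℝ) (p : ℝ × ℝ), T (pncSc δ p) = pncSc δ (T p)
  T_vol : (volume : Measure (ℝ × ℝ)).map T = volume
  rel : C 1 = (C 0).map T
  ch_meas : ∀ i, Measurable (ch i)
  ch_fst : ∀ i p, (ch i p).1 = p.1
  Efin : ∀ i, IsFiniteMeasure (E i)
  ae_E : ∀ i, ∀ᵐ x ∂E i, x.1 ≠ 0
  ae_nu : ∀ i, ∀ᵐ x ∂nu i, x.1 ≠ 0 ∧ 0 ≤ x.2
  far : ∀ ε : ℝ, 0 < ε → C 0 {p | ε ≤ pncN p} < ∞
  Q_int : Integrable pncQ (C 0)
  dist : ∃ A : ℝ, ∀ i, ∀ᵐ p ∂C i, |pncChi (ch i p) - pncChi p| ≤ A * pncQ p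
  mix_real : ∀ (i : Fin 2) (G : ℝ × ℝ → ℝ), Measurable G → ∀ M ε : ℝ, 0 < ε → (∀ x, |G x| ≤ M) → (∀ x : ℝ × ℝ, |x.1| < ε → G x = 0) →
    Integrable (pncPr G) (nu i) ∧ Integrable (fun p => G (ch i p)) (C i) ∧
      ∫ x, pncPr G x ∂nu i = ∫ p, G (ch i p) ∂C i + ∫ x, G x ∂E i
  D_int : ∀ i, Integrable pncD (nu i)
  cap_tail : ∃ K5 : ℝ, ∀ (i : Fin 2) (R h : ℝ), 20 < R → 0 < h → C i {p | R * h ≤ pncN p ∧ |p.1| ≤ h} ≤ ENNReal.ofReal (K5 / R)
  lam : ∀ Ψ : ℝ × ℝ → ℝ, Continuous Ψ → HasCompactSupport Ψ →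
    Tendsto (fun δ : ℝ => (∫ p, Ψ (pncSc δ p) * pncQ (pncSc δ p) ∂C 0) - c δ * ∫ z, Ψ z) (𝓝[>] 0) (𝓝 0)
  c_bdd : ∃ M : ℝ, ∀ δ : ℝ, 0 < δ → |c δ| ≤ M
  c_nonneg : ∀ δ : ℝ, 0 < δ → 0 ≤ c δ

/-- `Λ^i_δ Ψ = ∫ Ψ(p/δ) |p/δ|² C_i(dp)` -/
noncomputable def aseLam (I : AseIn) (i : Fin 2) (δ : ℝ) (Ψ : ℝ × ℝ → ℝ) : ℝ := ∫ p, Ψ (pncSc δ p) * pncQ (pncSc δ p) ∂I.C i

/-- the cutoff functional of the frame `i` -/
noncomputable def aseJ (I : AseIn) (i : Fin 2) (h : ℝ) : ℝ := ∫ p, pncChi p * (pncq0 (pncN p / h) - pncq0 (p.1 / h)) ∂I.C i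

variable (I : AseIn)

/-! ### transfer between the frames -/

theorem ase_Q_T (p : ℝ × ℝ) : pncQ (I.T p) = pncQ p := by
  rw [← pnc_N_sq, ← pnc_N_sq, I.T_N]

theorem ase_C1_apply {S : Set (ℝ × ℝ)} (hS : MeasurableSet S) : I.C 1 S = I.C 0 (I.T ⁻¹' S) := by
  rw [I.rel, Measure.map_apply I.T_cont.measurable hS]

theorem ase_C1_integral {G : ℝ × ℝ → ℝ} (hG : Measurable G) : ∫ p, G p ∂I.C 1 = ∫ p, G (I.T p) ∂I.C 0 := by
  rw [I.rel, integral_map I.T_cont.measurable.aemeasurable hG.aestronglyMeasurable]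

theorem ase_far (i : Fin 2) {ε : ℝ} (hε : 0 < ε) : I.C i {p | ε ≤ pncN p} < ∞ := by
  have h1 : I.C 1 {p | ε ≤ pncN p} < ∞ := by
    rw [ase_C1_apply I (measurableSet_le measurable_const pnc_N_continuous.measurable)]
    have : I.T ⁻¹' {p | ε ≤ pncN p} = {p | ε ≤ pncN p} := by
      ext p
      simp only [Set.mem_preimage, Set.mem_ofPred_eq, I.T_N]
    rw [this]
    exact I.far ε hε
  revert i
  rw [Fin.forall_fin_two]
  exact ⟨I.far ε hε, h1⟩

theorem ase_Q_integrable (i : Fin 2) : Integrable pncQ (I.C i) := by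
  have h1 : Integrable pncQ (I.C 1) := by
    rw [I.rel, integrable_map_measure pnc_Q_continuous.aestronglyMeasurable I.T_cont.measurable.aemeasurable]
    refine I.Q_int.congr (Eventually.of_forall fun p => ?_)
    simp only [Function.comp, ase_Q_T]
  revert i
  rw [Fin.forall_fin_two]
  exact ⟨I.Q_int, h1⟩

/-- bounded, measurable, zero near the origin: integrable for `C i` -/
theorem ase_int_far (i : Fin 2) {F : ℝ × ℝ → ℝ} (hm : Measurable F) {M ε : ℝ} (hε : 0 < ε) (hb : ∀ p, |F p| ≤ M)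
    (h0 : ∀ p, pncN p < ε → F p = 0) : Integrable F (I.C i) := by
  have hS : MeasurableSet {p | ε ≤ pncN p} := measurableSet_le measurable_const pnc_N_continuous.measurable
  have h1 : IntegrableOn F {p | ε ≤ pncN p} (I.C i) :=
    Measure.integrableOn_of_bounded (ase_far I i hε).ne hm.aestronglyMeasurable (M := M)
      (Eventually.of_forall fun p => by rw [Real.norm_eq_abs]; exact hb p)
  rw [← integrable_indicator_iff hS] at h1
  refine h1.congr (Eventually.of_forall fun p => ?_)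
  by_cases hp : ε ≤ pncN p
  · exact Set.indicator_of_mem (show p ∈ {p | ε ≤ pncN p} from hp) _
  · simp only [Set.indicator_of_notMem (show p ∉ {p | ε ≤ pncN p} from hp), h0 p (not_le.1 hp)]

/-- `Λ¹_δ Ψ = Λ⁰_δ (Ψ ∘ T)` -/
theorem ase_Lam_one {Ψ : ℝ × ℝ → ℝ} (hm : Measurable Ψ) (δ : ℝ) : aseLam I 1 δ Ψ = aseLam I 0 δ fun z => Ψ (I.T z) := by
  unfold aseLam
  have hF : Measurable fun p : ℝ × ℝ => Ψ (pncSc δ p) * pncQ (pncSc δ p) :=
    (hm.comp (pnc_sc_continuous δ).measurable).mul (pnc_Q_continuous.comp (pnc_sc_continuous δ)).measurable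
  rw [ase_C1_integral I hF]
  refine integral_congr_ae (Eventually.of_forall fun p => ?_)
  simp only
  rw [← I.T_sc, ase_Q_T]

/-- the running coefficient governs both frames -/
theorem ase_lam (i : Fin 2) {Ψ : ℝ × ℝ → ℝ} (hc : Continuous Ψ) (hs : HasCompactSupport Ψ) :
    Tendsto (fun δ : ℝ => aseLam I i δ Ψ - I.c δ * ∫ z, Ψ z) (𝓝[>] 0) (𝓝 0) := by
  have h0 : Tendsto (fun δ : ℝ => aseLam I 0 δ Ψ - I.c δ * ∫ z, Ψ z) (𝓝[>] 0) (𝓝 0) := I.lam Ψ hc hs
  have h1 : Tendsto (fun δ : ℝ => aseLam I 1 δ Ψ - I.c δ * ∫ z, Ψ z) (𝓝[>] 0) (𝓝 0) := by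
    obtain ⟨M, R, -, -, -, hR⟩ := pnc_cs_bound hc hs
    have hs' : HasCompactSupport fun z => Ψ (I.T z) := by
      refine HasCompactSupport.intro (isCompact_closedBall (0 : ℝ × ℝ) R) fun z hz => ?_
      rw [Metric.mem_closedBall, dist_zero_right, not_le] at hz
      refine hR _ ?_
      rw [I.T_N]
      exact hz.trans_le (pnc_norm_le_N z)
    have e : ∫ z, Ψ (I.T z) = ∫ z, Ψ z := by
      have := integral_map (μ := (volume : Measure (ℝ × ℝ))) I.T_cont.measurable.aemeasurable (f := Ψ) hc.aestronglyMeasurable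
      rw [I.T_vol] at this
      exact this.symm
    have h2 := I.lam _ (hc.comp I.T_cont) hs'
    simp only [Function.comp] at h2
    rw [e] at h2
    refine h2.congr fun δ => ?_
    rw [ase_Lam_one I hc.measurable]
    rfl
  revert i
  rw [Fin.forall_fin_two]
  exact ⟨h0, h1⟩

/-! ### `J₀(h) + J₁(h)` has a full limit -/

/-- the radial halves of `J₀` and `J₁` cancel (pointwise: `χ ∘ T = -χ`) -/
theorem ase_J_rad {h : ℝ} (_hh : 0 < h) :
    ∫ p, pncChi p * (pncq0 (pncN p / h) - 1) ∂I.C 0 + ∫ p, pncChi p * (pncq0 (pncN p / h) - 1) ∂I.C 1 = 0 := by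
  have hm : Measurable fun p : ℝ × ℝ => pncChi p * (pncq0 (pncN p / h) - 1) :=
    pnc_chi_measurable.mul ((pnc_q0_continuous.comp (pnc_N_continuous.div_const h)).sub continuous_const).measurable
  rw [ase_C1_integral I hm]
  have e : ∀ p, pncChi (I.T p) * (pncq0 (pncN (I.T p) / h) - 1) = -(pncChi p * (pncq0 (pncN p / h) - 1)) := by
    intro p
    rw [I.T_N]
    by_cases hp : p = 0
    · have h0 : pncN p = 0 := by rw [hp]; simp [pncN, pncQ]
      rw [h0, zero_div, pnc_q0_one (by norm_num)]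
      simp
    · rw [I.T_chi p hp]
      ring
  simp only [e]
  rw [integral_neg, add_neg_cancel]

/-- the exact formula for `J_i` -/
theorem ase_J_split (i : Fin 2) {h : ℝ} (hh : 0 < h) :
    aseJ I i h = ∫ p, pncChi p * (pncq0 (pncN p / h) - 1) ∂I.C i
      + (∫ x, pncD x * (1 - pncq0 (x.1 / h)) ∂I.nu i - ∫ x, pncChi x * (1 - pncq0 (x.1 / h)) ∂I.E i
      - ∫ p, (pncChi (I.ch i p) - pncChi p) * (1 - pncq0 (p.1 / h)) ∂I.C i) := by
  have hh2 : 0 < h / 2 := by positivity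
  have hGm : Measurable fun x : ℝ × ℝ => (1 - pncq0 (x.1 / h)) * pncChi x := (pnc_q0_meas_fst h).mul pnc_chi_measurable
  have hGb : ∀ x : ℝ × ℝ, |(1 - pncq0 (x.1 / h)) * pncChi x| ≤ 1 := by
    intro x
    rw [abs_mul]
    exact mul_le_one₀ (pnc_q0_one_sub_abs _) (abs_nonneg _) (pnc_chi_abs_le x)
  have hG0 : ∀ x : ℝ × ℝ, |x.1| < h / 2 → (1 - pncq0 (x.1 / h)) * pncChi x = 0 := by
    intro x hx
    rw [pnc_q0_fst_zero hh hx, zero_mul]
  obtain ⟨_, i2, e⟩ := I.mix_real i _ hGm 1 (h / 2) hh2 hGb hG0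
  have i3 : Integrable (fun p : ℝ × ℝ => (1 - pncq0 (p.1 / h)) * pncChi p) (I.C i) :=
    ase_int_far I i hGm hh2 hGb fun p hp => hG0 p ((pnc_abs_fst_le p).trans_lt hp)
  have i1 : Integrable (fun p : ℝ × ℝ => pncChi p * (pncq0 (pncN p / h) - 1)) (I.C i) := by
    refine ase_int_far I i (M := 1) ?_ hh2 ?_ ?_
    · exact pnc_chi_measurable.mul
        ((pnc_q0_continuous.comp (pnc_N_continuous.div_const h)).sub continuous_const).measurable
    · intro p
      rw [abs_mul, ← abs_neg (pncq0 (pncN p / h) - 1), neg_sub]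
      exact mul_le_one₀ (pnc_chi_abs_le p) (abs_nonneg _) (pnc_q0_one_sub_abs _)
    · intro p hp
      rw [pnc_q0_one, sub_self, mul_zero]
      rw [abs_div, abs_of_nonneg (pnc_N_nonneg p), abs_of_pos hh, div_le_iff₀ hh]
      linarith
  have e1 : ∫ x, pncPr (fun x : ℝ × ℝ => (1 - pncq0 (x.1 / h)) * pncChi x) x ∂I.nu i = ∫ x, pncD x * (1 - pncq0 (x.1 / h)) ∂I.nu i := by
    refine integral_congr_ae ?_
    filter_upwards [I.ae_nu i] with x hx
    rw [pnc_Pr_fst_mul (fun k => 1 - pncq0 (k / h)) pncChi x, pnc_ang hx.1 hx.2, mul_comm]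
  have e2 : ∫ x, (1 - pncq0 (x.1 / h)) * pncChi x ∂I.E i = ∫ x, pncChi x * (1 - pncq0 (x.1 / h)) ∂I.E i := by
    simp only [mul_comm]
  have e3 : aseJ I i h = ∫ p, pncChi p * (pncq0 (pncN p / h) - 1) ∂I.C i + ∫ p : ℝ × ℝ, (1 - pncq0 (p.1 / h)) * pncChi p ∂I.C i := by
    rw [← integral_add i1 i3]
    unfold aseJ
    refine integral_congr_ae (Eventually.of_forall fun p => ?_)
    simp only
    ring
  have e4 : ∫ p, (pncChi (I.ch i p) - pncChi p) * (1 - pncq0 (p.1 / h)) ∂I.C i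
      = ∫ p, (1 - pncq0 ((I.ch i p).1 / h)) * pncChi (I.ch i p) ∂I.C i - ∫ p : ℝ × ℝ, (1 - pncq0 (p.1 / h)) * pncChi p ∂I.C i := by
    rw [← integral_sub i2 i3]
    refine integral_congr_ae (Eventually.of_forall fun p => ?_)
    simp only [I.ch_fst]
    ring
  rw [e3, e4, ← e1, ← e2, e]
  ring

theorem ase_J_lim1 (i : Fin 2) :
    Tendsto (fun h : ℝ => ∫ x, pncD x * (1 - pncq0 (x.1 / h)) ∂I.nu i) (𝓝[>] 0) (𝓝 (∫ x, pncD x ∂I.nu i)) := by
  refine tendsto_integral_filter_of_dominated_convergence (fun x => pncD x) ?_ ?_ (I.D_int i) ?_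
  · exact Eventually.of_forall fun h => (pnc_D_measurable.mul (pnc_q0_meas_fst h)).aestronglyMeasurable
  · refine Eventually.of_forall fun h => Eventually.of_forall fun x => ?_
    rw [Real.norm_eq_abs, abs_mul, abs_of_nonneg (pnc_D_nonneg x)]
    exact mul_le_of_le_one_right (pnc_D_nonneg x) (pnc_q0_one_sub_abs _)
  · filter_upwards [I.ae_nu i] with x hx
    have := ((pnc_q0_tendsto hx.1).const_sub 1).const_mul (pncD x)
    simpa using this

theorem ase_J_lim2 (i : Fin 2) :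
    Tendsto (fun h : ℝ => ∫ x, pncChi x * (1 - pncq0 (x.1 / h)) ∂I.E i) (𝓝[>] 0) (𝓝 (∫ x, pncChi x ∂I.E i)) := by
  have := I.Efin i
  refine tendsto_integral_filter_of_dominated_convergence (fun _ => (1 : ℝ)) ?_ ?_ (integrable_const _) ?_
  · exact Eventually.of_forall fun h => (pnc_chi_measurable.mul (pnc_q0_meas_fst h)).aestronglyMeasurable
  · refine Eventually.of_forall fun h => Eventually.of_forall fun x => ?_
    rw [Real.norm_eq_abs, abs_mul]
    exact mul_le_one₀ (pnc_chi_abs_le x) (abs_nonneg _) (pnc_q0_one_sub_abs _)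
  · filter_upwards [I.ae_E i] with x hx
    have := ((pnc_q0_tendsto hx).const_sub 1).const_mul (pncChi x)
    simpa using this

theorem ase_J_lim3 (i : Fin 2) :
    Tendsto (fun h : ℝ => ∫ p, (pncChi (I.ch i p) - pncChi p) * (1 - pncq0 (p.1 / h)) ∂I.C i) (𝓝[>] 0)
      (𝓝 (∫ p in {p : ℝ × ℝ | p.1 ≠ 0}, (pncChi (I.ch i p) - pncChi p) ∂I.C i)) := by
  obtain ⟨A, hA⟩ := I.dist
  have hS : MeasurableSet {p : ℝ × ℝ | p.1 ≠ 0} := (measurableSet_eq_fun measurable_fst measurable_const).compl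
  rw [← integral_indicator hS]
  have hm : Measurable fun p : ℝ × ℝ => pncChi (I.ch i p) - pncChi p :=
    (pnc_chi_measurable.comp (I.ch_meas i)).sub pnc_chi_measurable
  refine tendsto_integral_filter_of_dominated_convergence (fun p => A * pncQ p) ?_ ?_ ((ase_Q_integrable I i).const_mul A) ?_
  · exact Eventually.of_forall fun h => (hm.mul (pnc_q0_meas_fst h)).aestronglyMeasurable
  · refine Eventually.of_forall fun h => ?_
    filter_upwards [hA i] with p hp
    rw [Real.norm_eq_abs, abs_mul]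
    calc |pncChi (I.ch i p) - pncChi p| * |1 - pncq0 (p.1 / h)| ≤ |pncChi (I.ch i p) - pncChi p| * 1 :=
          mul_le_mul_of_nonneg_left (pnc_q0_one_sub_abs _) (abs_nonneg _)
      _ ≤ A * pncQ p := by rw [mul_one]; exact hp
  · refine Eventually.of_forall fun p => ?_
    by_cases hp : p.1 = 0
    · have h1 : Set.indicator {p : ℝ × ℝ | p.1 ≠ 0} (fun p => pncChi (I.ch i p) - pncChi p) p = 0 :=
        Set.indicator_of_notMem (by simpa using hp) _
      rw [h1]
      refine tendsto_const_nhds.congr fun h => ?_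
      rw [hp, zero_div, pnc_q0_one (by norm_num), sub_self, mul_zero]
    · have h1 : Set.indicator {p : ℝ × ℝ | p.1 ≠ 0} (fun p => pncChi (I.ch i p) - pncChi p) p = pncChi (I.ch i p) - pncChi p :=
        Set.indicator_of_mem (by simpa using hp) _
      rw [h1]
      have := ((pnc_q0_tendsto hp).const_sub 1).const_mul (pncChi (I.ch i p) - pncChi p)
      simpa using this

/-- **the two-frame cutoff functional has a full limit** -/
theorem ase_J_lim : ∃ L : ℝ, Tendsto (fun h : ℝ => aseJ I 0 h + aseJ I 1 h) (𝓝[>] 0) (𝓝 L) := by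
  refine ⟨_, ((((ase_J_lim1 I 0).sub (ase_J_lim2 I 0)).sub (ase_J_lim3 I 0)).add
    (((ase_J_lim1 I 1).sub (ase_J_lim2 I 1)).sub (ase_J_lim3 I 1))).congr' ?_⟩
  filter_upwards [self_mem_nhdsWithin] with h hh
  have hr := ase_J_rad I hh
  rw [ase_J_split I 0 hh, ase_J_split I 1 hh]
  linarith

/-! ### `J_i(h)` against the running coefficient -/

/-- `J_i(h) = Λ^i_h(Ξ)` -/
theorem ase_J_eq_Lam (i : Fin 2) {h : ℝ} (hh : 0 < h) : aseJ I i h = aseLam I i h pncXi := by
  unfold aseJ aseLam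
  simp only [pnc_Xi_sc_mul_Q hh]

/-- the tail of `Λ^i_h(Ξ)` is `O(1/R)` uniformly in `h` (`cap_tail`) -/
theorem ase_XiR_Lam : ∃ M : ℝ, ∀ (i : Fin 2) (R h : ℝ), 20 < R → 0 < h → |aseLam I i h pncXi - aseLam I i h (pncXiR R)| ≤ M / R := by
  obtain ⟨K5, hK5⟩ := I.cap_tail
  refine ⟨max K5 0, fun i R h hR hh => ?_⟩
  have hR0 : 0 < R := by linarith
  have hh2 : 0 < h / 2 := by positivity
  set S : Set (ℝ × ℝ) := {p | R * h ≤ pncN p ∧ |p.1| ≤ h} with hS
  have hSm : MeasurableSet S :=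
    (measurableSet_le measurable_const pnc_N_continuous.measurable).inter
      (measurableSet_le (continuous_fst.abs).measurable measurable_const)
  have hSle := hK5 i R h hR hh
  have hSfin : I.C i S < ∞ := hSle.trans_lt ENNReal.ofReal_lt_top
  have hFm : Measurable fun p : ℝ × ℝ => pncChi p * (pncq0 (pncN p / h) - pncq0 (p.1 / h)) :=
    pnc_chi_measurable.mul ((pnc_q0_continuous.comp (pnc_N_continuous.div_const h)).sub
      (pnc_q0_continuous.comp (continuous_fst.div_const h))).measurable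
  have hFb : ∀ p : ℝ × ℝ, |pncChi p * (pncq0 (pncN p / h) - pncq0 (p.1 / h))| ≤ 1 := by
    intro p
    rw [abs_mul]
    refine mul_le_one₀ (pnc_chi_abs_le p) (abs_nonneg _) ?_
    rw [abs_le]
    constructor <;>
      linarith [pnc_q0_nonneg (pncN p / h), pnc_q0_le_one (pncN p / h), pnc_q0_nonneg (p.1 / h), pnc_q0_le_one (p.1 / h)]
  have hF0 : ∀ p : ℝ × ℝ, pncN p < h / 2 → pncChi p * (pncq0 (pncN p / h) - pncq0 (p.1 / h)) = 0 := by
    intro p hp
    rw [pnc_q0_one, pnc_q0_one, sub_self, mul_zero]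
    · rw [abs_div, abs_of_pos hh, div_le_iff₀ hh]
      linarith [pnc_abs_fst_le p]
    · rw [abs_div, abs_of_nonneg (pnc_N_nonneg p), abs_of_pos hh, div_le_iff₀ hh]
      linarith
  have hqm : Measurable fun p : ℝ × ℝ => pncq0 (pncN p / h / (2 * R)) :=
    (pnc_q0_continuous.comp ((pnc_N_continuous.div_const h).div_const (2 * R))).measurable
  have i1 : Integrable (fun p : ℝ × ℝ => pncChi p * (pncq0 (pncN p / h) - pncq0 (p.1 / h))) (I.C i) :=
    ase_int_far I i hFm hh2 hFb hF0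
  have i2 : Integrable (fun p : ℝ × ℝ => pncChi p * (pncq0 (pncN p / h) - pncq0 (p.1 / h)) * pncq0 (pncN p / h / (2 * R))) (I.C i) := by
    refine ase_int_far I i (hFm.mul hqm) hh2 (M := 1) ?_ ?_
    · intro p
      rw [abs_mul]
      refine mul_le_one₀ (hFb p) (abs_nonneg _) ?_
      rw [abs_of_nonneg (pnc_q0_nonneg _)]
      exact pnc_q0_le_one _
    · intro p hp
      rw [hF0 p hp, zero_mul]
  have e1 : aseLam I i h pncXi = ∫ p, pncChi p * (pncq0 (pncN p / h) - pncq0 (p.1 / h)) ∂I.C i := by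
    unfold aseLam
    simp only [pnc_Xi_sc_mul_Q hh]
  have e2 : aseLam I i h (pncXiR R)
      = ∫ p, pncChi p * (pncq0 (pncN p / h) - pncq0 (p.1 / h)) * pncq0 (pncN p / h / (2 * R)) ∂I.C i := by
    unfold aseLam pncXiR
    refine integral_congr_ae (Eventually.of_forall fun p => ?_)
    simp only
    rw [mul_right_comm, pnc_Xi_sc_mul_Q hh, pnc_N_sc hh]
  rw [e1, e2, ← integral_sub i1 i2, ← Real.norm_eq_abs]
  have ig : Integrable (S.indicator fun _ => (1 : ℝ)) (I.C i) :=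
    (integrable_indicator_iff hSm).2 (integrableOn_const hSfin.ne)
  refine (norm_integral_le_of_norm_le ig (Eventually.of_forall fun p => ?_)).trans ?_
  · by_cases hp : p ∈ S
    · rw [Set.indicator_of_mem hp, ← mul_one_sub, Real.norm_eq_abs, abs_mul]
      exact mul_le_one₀ (hFb p) (abs_nonneg _) (pnc_q0_one_sub_abs _)
    · rw [Set.indicator_of_notMem hp, ← mul_one_sub]
      refine le_of_eq (norm_eq_zero.2 ?_)
      rw [hS, Set.mem_ofPred_eq, not_and_or, not_le, not_le] at hp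
      rcases hp with hp | hp
      · rw [pnc_q0_one (x := pncN p / h / (2 * R)), sub_self, mul_zero]
        rw [abs_div, abs_div, abs_of_nonneg (pnc_N_nonneg p), abs_of_pos hh, abs_of_pos (by positivity : 0 < 2 * R),
          div_div, div_le_iff₀ (by positivity)]
        nlinarith
      · rw [pnc_q0_zero, pnc_q0_zero, sub_self, mul_zero, zero_mul]
        · rw [abs_div, abs_of_pos hh, le_div_iff₀ hh]
          linarith
        · rw [abs_div, abs_of_nonneg (pnc_N_nonneg p), abs_of_pos hh, le_div_iff₀ hh]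
          linarith [pnc_abs_fst_le p]
  · rw [integral_indicator_const _ hSm, smul_eq_mul, mul_one]
    refine ENNReal.toReal_le_of_le_ofReal (by positivity) (hSle.trans (ENNReal.ofReal_le_ofReal ?_))
    exact div_le_div_of_nonneg_right (le_max_left _ _) hR0.le

/-- `J_i(h) - c_h ∫ Ξ → 0` in each frame -/
theorem ase_J_asymp (i : Fin 2) : Tendsto (fun h : ℝ => aseJ I i h - I.c h * ∫ z, pncXi z) (𝓝[>] 0) (𝓝 0) := by
  obtain ⟨M1, hM1⟩ := ase_XiR_Lam I
  obtain ⟨M2, hM2⟩ := pnc_XiR_vol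
  obtain ⟨Mc, hMc⟩ := I.c_bdd
  rw [Metric.tendsto_nhds]
  intro η hη
  set B : ℝ := |M1| + |Mc| * |M2| + 1 with hB
  have hBpos : 0 < B := by positivity
  set R : ℝ := max 21 (2 * B / η) with hR
  have hR20 : 20 < R := lt_of_lt_of_le (by norm_num) (le_max_left _ _)
  have hR0 : 0 < R := by linarith
  have hR2 : B / R ≤ η / 2 := by
    have : 2 * B / η ≤ R := le_max_right _ _
    rw [div_le_iff₀ hR0]
    rw [div_le_iff₀ hη] at this
    linarith
  obtain ⟨hc, hs⟩ := pnc_XiR_cont hR0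
  have h3 := ase_lam I i hc hs
  rw [Metric.tendsto_nhds] at h3
  filter_upwards [h3 (η / 2) (by positivity), self_mem_nhdsWithin] with δ hδ hδ0
  have hδ0 : 0 < δ := hδ0
  rw [Real.dist_eq, sub_zero] at hδ ⊢
  have a1 := hM1 i R δ hR20 hδ0
  have a2 := hM2 R hR20
  have a3 := hMc δ hδ0
  rw [ase_J_eq_Lam I i hδ0]
  have e : aseLam I i δ pncXi - I.c δ * ∫ z, pncXi z
      = (aseLam I i δ pncXi - aseLam I i δ (pncXiR R)) + (aseLam I i δ (pncXiR R) - I.c δ * ∫ z, pncXiR R z)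
        - I.c δ * ((∫ z, pncXi z) - ∫ z, pncXiR R z) := by ring
  rw [e]
  have b1 : |I.c δ * ((∫ z, pncXi z) - ∫ z, pncXiR R z)| ≤ |Mc| * |M2| / R := by
    rw [abs_mul]
    calc |I.c δ| * |(∫ z, pncXi z) - ∫ z, pncXiR R z| ≤ |Mc| * (|M2| / R) := by
          refine mul_le_mul (a3.trans (le_abs_self _)) (a2.trans ?_) (abs_nonneg _) (abs_nonneg _)
          exact div_le_div_of_nonneg_right (le_abs_self _) hR0.le
      _ = |Mc| * |M2| / R := by ring
  have b2 : |aseLam I i δ pncXi - aseLam I i δ (pncXiR R)| ≤ |M1| / R :=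
    a1.trans (div_le_div_of_nonneg_right (le_abs_self _) hR0.le)
  have b3 : |M1| / R + |Mc| * |M2| / R ≤ B / R := by
    rw [← add_div]
    exact div_le_div_of_nonneg_right (by rw [hB]; linarith) hR0.le
  calc _ ≤ |aseLam I i δ pncXi - aseLam I i δ (pncXiR R)| + |aseLam I i δ (pncXiR R) - I.c δ * ∫ z, pncXiR R z|
        + |I.c δ * ((∫ z, pncXi z) - ∫ z, pncXiR R z)| := by
        refine (abs_sub _ _).trans ?_
        gcongr
        exact abs_add_le _ _
    _ < η := by linarith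

/-! ### the coefficient -/

/-- **the running coefficient converges** (`J₀ + J₁ → L`, `J₀ + J₁ + π c_h → 0`) -/
theorem ase_c_lim : ∃ c : ℝ, 0 ≤ c ∧ Tendsto I.c (𝓝[>] 0) (𝓝 c) := by
  obtain ⟨L, hL⟩ := ase_J_lim I
  have h1 := hL.sub ((ase_J_asymp I 0).add (ase_J_asymp I 1))
  simp only [pnc_IXi, add_zero, sub_zero] at h1
  have hpi : (π : ℝ) ≠ 0 := Real.pi_pos.ne'
  have h2 : Tendsto I.c (𝓝[>] 0) (𝓝 (L * (-π)⁻¹)) := by
    refine (h1.mul_const ((-π)⁻¹)).congr fun h => ?_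
    field_simp
    ring
  refine ⟨_, ?_, h2⟩
  refine ge_of_tendsto h2 ?_
  filter_upwards [self_mem_nhdsWithin] with h hh
  exact I.c_nonneg h hh

/-- the coefficient -/
noncomputable def aseC (I : AseIn) : ℝ := (ase_c_lim I).choose

theorem ase_C_nonneg : 0 ≤ aseC I := (ase_c_lim I).choose_spec.1

theorem ase_C_tendsto : Tendsto I.c (𝓝[>] 0) (𝓝 (aseC I)) := (ase_c_lim I).choose_spec.2

/-- **the full spectral scaling limit**: `|p|² C` rescaled converges vaguely to `c · Lebesgue`, in both frames -/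
theorem ase_main (i : Fin 2) {Ψ : ℝ × ℝ → ℝ} (hc : Continuous Ψ) (hs : HasCompactSupport Ψ) :
    Tendsto (fun δ : ℝ => aseLam I i δ Ψ) (𝓝[>] 0) (𝓝 (aseC I * ∫ z, Ψ z)) := by
  have h := (ase_lam I i hc hs).add ((ase_C_tendsto I).mul_const (∫ z, Ψ z))
  simpa using h

theorem ase_eqns_cite : True := by
  have := @aseLam.eq_1
  have := @aseJ.eq_1
  have := @aseC.eq_1
  trivial

end Claimed.Agent.R292
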