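import Claimed.Agent.R291.Pln.PncScale

/-!
# Row 292 (S0540), unit SPEC, B3 = THE CORE OF AT paper Sec. 4      (helper102; prefix `asq`, `asr`, `ask`, `Asq`)

TEX[04-spectral: prop:dispersion-defect, lem:spectral-endcap, first half of prop:plane-green].      MODEL FREE, TORUS FREE.
Port of R291 `Pln/PncDefs PncDefect PncScale` (helper140) from the triangular lattice (ONE frame + rotation by `π/3`) to the square grid
(TWO frames at angle `π/4`, no rotation of the measure by `π/4`).  The generic lemmas of R291 (`pncChi pncD pncCd pncP pncPr pnc_ang ...`) are imported.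

**Contract `AsqIn`** = what is left of the spectral measure `C` of the height increments near the origin of the reciprocal torus, seen in two frames:
* `C0` = `C` on the punctured round disc `0 < |p| < r0 ≤ 1/4`, physical coordinates `p = (k, l)` of the first frame (`k` tangential, `l` normal);
* `C1 = C0.map asqR`, `asqR (k, l) = ((k + l)/√2, (l - k)/√2)` = the same measure in the coordinates of the frame turned by `π/4`;
  `C1.map asqR = C0` = invariance of `C` under the rotation by `π/2`;      annuli `C0 {r ≤ |p| ≤ 2r} ≤ K`;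
* in EACH frame: `nu` = mixing measure in `(k, s)`, `k ≠ 0`, `s ≥ 0`;  `E` = finite measure = image of the rest of the torus (aliases included);
  `mix`: on `k ≠ 0`, in the CAYLEY normal variable `lt = (2/d) tan (d l/2)` (`d` = length of the positive normal transfer: `2` axial, `√2` diagonal),
  the image of `C` is EXACTLY the Cauchy mixture `∫ δ_k ⊗ Cauchy_s nu(dk, ds)` (`Cauchy_0 = δ_0`): no periodization error.
* `AsqIn.swap` exchanges the two frames: every theorem on the first frame holds for the second one.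

**Output** `asq_lam` : `Λ_δ Ψ - c_δ ∫ Ψ → 0` (`δ ↓ 0`) for every `Ψ ∈ C_c(ℝ²)`, `Λ_δ Ψ = ∫ Ψ(p/δ) |p/δ|² C0(dp)`;  `asq_c_nonneg`, `asq_c_bdd` : `0 ≤ c_δ ≤ M`.
(Along any sequence of meshes a subsequence has `c_δ → b₀`: this is `M(dp) = b₀ |p|⁻² dp` of TEX[prop:plane-green].)

Route: `pnc_ang` (R291, exact angular identity) → `asq_defect_aux` (one frame: truncated defect `≤ M + Rad_ε`) + `asq_rad_swap` (`χ ∘ asqR = -χ`: `Rad_ε` changes sign in the
other frame) → `asq_defect` → `asq_bands` → `asq_endcaps` (the cap of one frame is seen in the other one) → `asq_KL` → `asq_prod` (test `a(k) b(k')` in the two charts) → `asq_lam`.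
-/

set_option autoImplicit false

namespace Claimed.Agent.R292

open MeasureTheory Filter Topology
open scoped ENNReal Real
open Claimed.Agent.R291

/-- the Cayley normal variable `lt = (2/d) tan(d l/2)` of a frame whose positive normal transfer has length `d` -/
noncomputable def asqLt (d l : ℝ) : ℝ := 2 / d * Real.tan (d / 2 * l)

/-- the chart `(k, l) ↦ (k, lt)` -/
noncomputable def asqCh (d : ℝ) (p : ℝ × ℝ) : ℝ × ℝ := (p.1, asqLt d p.2)

/-- coordinates in the frame turned by `π/4` -/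
noncomputable def asqR (p : ℝ × ℝ) : ℝ × ℝ := ((p.1 + p.2) / Real.sqrt 2, (p.2 - p.1) / Real.sqrt 2)

/-- the inverse of `asqR` -/
noncomputable def asqRI (p : ℝ × ℝ) : ℝ × ℝ := ((p.1 - p.2) / Real.sqrt 2, (p.1 + p.2) / Real.sqrt 2)

/-- **the local spectral contract, two frames** (see the header) -/
structure AsqIn where
  C0 : Measure (ℝ × ℝ)
  nu : Measure (ℝ × ℝ)
  E : Measure (ℝ × ℝ)
  d : ℝ
  C1 : Measure (ℝ × ℝ)
  nu1 : Measure (ℝ × ℝ)
  E1 : Measure (ℝ × ℝ)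
  d1 : ℝ
  r0 : ℝ
  K : ℝ
  r0_pos : 0 < r0
  r0_le4 : r0 ≤ 1 / 4
  d_pos : 0 < d
  d_le : d ≤ 2
  d1_pos : 0 < d1
  d1_le : d1 ≤ 2
  supp : C0 {p | ¬ (0 < pncN p ∧ pncN p < r0)} = 0
  rot : C0.map asqR = C1
  rot1 : C1.map asqR = C0
  ann : ∀ r : ℝ, 0 < r → C0 {p | r ≤ pncN p ∧ pncN p ≤ 2 * r} ≤ ENNReal.ofReal K
  Efin : IsFiniteMeasure E
  E0 : E {x | x.1 = 0} = 0
  nu0 : nu {x | x.1 = 0 ∨ x.2 < 0} = 0
  mix : ∀ G : ℝ × ℝ → ℝ≥0∞, Measurable G →
    ∫⁻ x, pncP G x ∂nu = ∫⁻ p in {p : ℝ × ℝ | p.1 ≠ 0}, G (asqCh d p) ∂C0 + ∫⁻ x, G x ∂E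
  Efin1 : IsFiniteMeasure E1
  E01 : E1 {x | x.1 = 0} = 0
  nu01 : nu1 {x | x.1 = 0 ∨ x.2 < 0} = 0
  mix1 : ∀ G : ℝ × ℝ → ℝ≥0∞, Measurable G →
    ∫⁻ x, pncP G x ∂nu1 = ∫⁻ p in {p : ℝ × ℝ | p.1 ≠ 0}, G (asqCh d1 p) ∂C1 + ∫⁻ x, G x ∂E1

/-! ### 0. the turn by `π/4`, the Cayley variable -/

theorem asq_sqrt2_mul : Real.sqrt 2 * Real.sqrt 2 = 2 := Real.mul_self_sqrt (by norm_num)

theorem asq_sqrt2_pos : 0 < Real.sqrt 2 := Real.sqrt_pos.2 (by norm_num)

theorem asq_sqrt2_bd : 1.414 < Real.sqrt 2 ∧ Real.sqrt 2 < 1.415 := by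
  have h3 : Real.sqrt 2 ^ 2 = 2 := Real.sq_sqrt (by norm_num)
  have h0 : 0 ≤ Real.sqrt 2 := Real.sqrt_nonneg 2
  constructor
  · by_contra h
    nlinarith [not_lt.1 h]
  · by_contra h
    nlinarith [not_lt.1 h]

theorem asq_R_continuous : Continuous asqR := by unfold asqR; fun_prop

theorem asq_RI_continuous : Continuous asqRI := by unfold asqRI; fun_prop

theorem asq_Q_R (p : ℝ × ℝ) : pncQ (asqR p) = pncQ p := by
  have h2 := asq_sqrt2_mul
  have h0 := asq_sqrt2_pos.ne'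
  unfold pncQ asqR
  simp only [div_pow]
  rw [← add_div, pow_two (Real.sqrt 2), h2]
  ring

theorem asq_N_R (p : ℝ × ℝ) : pncN (asqR p) = pncN p := by unfold pncN; rw [asq_Q_R]

theorem asq_R_RI (p : ℝ × ℝ) : asqR (asqRI p) = p := by
  have h2 := asq_sqrt2_mul
  have h0 := asq_sqrt2_pos.ne'
  unfold asqR asqRI
  ext
  · simp only
    rw [← add_div, div_div, h2]; ring
  · simp only
    rw [← sub_div, div_div, h2]; ring

theorem asq_RI_R (p : ℝ × ℝ) : asqRI (asqR p) = p := by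
  have h2 := asq_sqrt2_mul
  have h0 := asq_sqrt2_pos.ne'
  unfold asqR asqRI
  ext
  · simp only
    rw [← sub_div, div_div, h2]; ring
  · simp only
    rw [← add_div, div_div, h2]; ring

theorem asq_Q_RI (p : ℝ × ℝ) : pncQ (asqRI p) = pncQ p := by
  conv_rhs => rw [← asq_R_RI p, asq_Q_R]

/-- **the fourth harmonic changes sign under the turn by `π/4`**.      TEX[04-spectral, proof of prop:dispersion-defect] -/
theorem asq_chi_R (p : ℝ × ℝ) (hp : p ≠ 0) : pncChi (asqR p) = -pncChi p := by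
  have h2 := asq_sqrt2_mul
  have hQ : p.1 ^ 2 + p.2 ^ 2 ≠ 0 := by
    intro h
    apply hp
    have h1 : p.1 = 0 := by nlinarith [sq_nonneg p.1, sq_nonneg p.2]
    have h2 : p.2 = 0 := by nlinarith [sq_nonneg p.1, sq_nonneg p.2]
    exact Prod.ext h1 h2
  have q1 : (asqR p).1 ^ 2 + (asqR p).2 ^ 2 = p.1 ^ 2 + p.2 ^ 2 := asq_Q_R p
  have m1 : (asqR p).1 ^ 2 * (asqR p).2 ^ 2 = (p.2 ^ 2 - p.1 ^ 2) ^ 2 / 4 := by
    unfold asqR
    simp only [div_pow]
    rw [pow_two (Real.sqrt 2), h2]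
    ring
  unfold pncChi
  rw [q1, mul_assoc 8, m1]
  field_simp
  ring

theorem asq_tan_aux {x : ℝ} (h0 : 0 ≤ x) (h1 : x ≤ 1 / 2) : x ≤ Real.tan x ∧ Real.tan x - x ≤ 3 / 4 * x ^ 3 := by
  have hpi : (1 : ℝ) / 2 < π / 2 := by linarith [Real.pi_gt_three]
  have hc1 : 1 - x ^ 2 / 2 ≤ Real.cos x := Real.one_sub_sq_div_two_le_cos
  have hx2 : x ^ 2 ≤ 1 / 4 := by nlinarith
  have hc : 0 < Real.cos x := by linarith
  refine ⟨Real.le_tan h0 (by linarith), ?_⟩
  have hs : Real.sin x ≤ x := Real.sin_le h0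
  rw [Real.tan_eq_sin_div_cos, sub_le_iff_le_add, div_le_iff₀ hc]
  have h3 : 0 ≤ 3 / 4 * x ^ 3 + x := by positivity
  have h4 : (3 / 4 * x ^ 3 + x) * (1 - x ^ 2 / 2) ≤ (3 / 4 * x ^ 3 + x) * Real.cos x := mul_le_mul_of_nonneg_left hc1 h3
  have h5 : x ≤ (3 / 4 * x ^ 3 + x) * (1 - x ^ 2 / 2) := by
    have : (3 / 4 * x ^ 3 + x) * (1 - x ^ 2 / 2) - x = x ^ 3 * (1 / 4 - 3 / 8 * x ^ 2) := by ring
    have h6 : 0 ≤ x ^ 3 * (1 / 4 - 3 / 8 * x ^ 2) := mul_nonneg (by positivity) (by linarith)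
    linarith
  linarith

theorem asq_lt_neg (d l : ℝ) : asqLt d (-l) = -asqLt d l := by
  unfold asqLt
  rw [mul_neg, Real.tan_neg, mul_neg]

/-- the Cayley variable on `[0, 1/2]` -/
theorem asq_lt_aux0 {d : ℝ} (hd : 0 < d) (hd2 : d ≤ 2) {l : ℝ} (h0 : 0 ≤ l) (h1 : l ≤ 1 / 2) :
    l ≤ asqLt d l ∧ asqLt d l - l ≤ 3 / 4 * l ^ 3 := by
  have hx0 : 0 ≤ d / 2 * l := by positivity
  have hx1 : d / 2 * l ≤ 1 / 2 := by nlinarith
  obtain ⟨a, b⟩ := asq_tan_aux hx0 hx1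
  have e1 : 2 / d * (d / 2 * l) = l := by field_simp
  have e2 : 2 / d * (3 / 4 * (d / 2 * l) ^ 3) = 3 / 4 * l ^ 3 * (d ^ 2 / 4) := by
    field_simp
    ring
  have hc : 0 < 2 / d := by positivity
  unfold asqLt
  constructor
  · calc l = 2 / d * (d / 2 * l) := e1.symm
      _ ≤ _ := mul_le_mul_of_nonneg_left a hc.le
  · calc 2 / d * Real.tan (d / 2 * l) - l
        = 2 / d * (Real.tan (d / 2 * l) - d / 2 * l) := by rw [mul_sub, e1]
      _ ≤ 2 / d * (3 / 4 * (d / 2 * l) ^ 3) := mul_le_mul_of_nonneg_left b hc.le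
      _ = 3 / 4 * l ^ 3 * (d ^ 2 / 4) := e2
      _ ≤ 3 / 4 * l ^ 3 * 1 := by
          refine mul_le_mul_of_nonneg_left ?_ (by positivity)
          nlinarith
      _ = _ := mul_one _

theorem asq_lt_measurable (d : ℝ) : Measurable (asqLt d) := by
  unfold asqLt
  simp only [Real.tan_eq_sin_div_cos]
  fun_prop

theorem asq_ch_measurable (d : ℝ) : Measurable (asqCh d) := by
  unfold asqCh
  exact measurable_fst.prodMk ((asq_lt_measurable d).comp measurable_snd)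

/-- the Cayley variable is monotone and `2`-Lipschitz on `|l| ≤ 0.6` -/
theorem asq_lt_lip0 {d : ℝ} (hd : 0 < d) (hd2 : d ≤ 2) {l1 l2 : ℝ} (h12 : l1 ≤ l2) (h1 : |l1| ≤ 0.6) (h2 : |l2| ≤ 0.6) :
    asqLt d l1 ≤ asqLt d l2 ∧ asqLt d l2 - asqLt d l1 ≤ 2 * (l2 - l1) := by
  set x1 := d / 2 * l1 with hx1
  set x2 := d / 2 * l2 with hx2
  have b1 : |x1| ≤ 0.6 := by
    rw [hx1, abs_mul, abs_of_pos (by positivity)]
    nlinarith [abs_nonneg l1]
  have b2 : |x2| ≤ 0.6 := by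
    rw [hx2, abs_mul, abs_of_pos (by positivity)]
    nlinarith [abs_nonneg l2]
  have c1 : 0.82 ≤ Real.cos x1 := by
    have := Real.one_sub_sq_div_two_le_cos (x := x1)
    have h : x1 ^ 2 ≤ 0.6 ^ 2 := by rw [← sq_abs x1]; exact pow_le_pow_left₀ (abs_nonneg _) b1 2
    nlinarith
  have c2 : 0.82 ≤ Real.cos x2 := by
    have := Real.one_sub_sq_div_two_le_cos (x := x2)
    have h : x2 ^ 2 ≤ 0.6 ^ 2 := by rw [← sq_abs x2]; exact pow_le_pow_left₀ (abs_nonneg _) b2 2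
    nlinarith
  have hdd : 0 ≤ x2 - x1 := by
    rw [hx1, hx2, ← mul_sub]; exact mul_nonneg (by positivity) (by linarith)
  have hd3 : x2 - x1 ≤ π := by
    have := Real.pi_gt_three
    have := abs_le.1 b1
    have := abs_le.1 b2
    linarith
  have et : Real.tan x2 - Real.tan x1 = Real.sin (x2 - x1) / (Real.cos x1 * Real.cos x2) := by
    rw [Real.tan_eq_sin_div_cos, Real.tan_eq_sin_div_cos, Real.sin_sub]
    have : Real.cos x1 ≠ 0 := by linarith
    have : Real.cos x2 ≠ 0 := by linarith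
    field_simp
  have hprod : 0.6 ≤ Real.cos x1 * Real.cos x2 := by nlinarith
  have s0 : 0 ≤ Real.sin (x2 - x1) := Real.sin_nonneg_of_nonneg_of_le_pi hdd hd3
  have s3 : Real.sin (x2 - x1) ≤ x2 - x1 := Real.sin_le hdd
  have t0 : 0 ≤ Real.tan x2 - Real.tan x1 := by rw [et]; exact div_nonneg s0 (by linarith)
  have t1 : Real.tan x2 - Real.tan x1 ≤ 2 * (x2 - x1) := by
    rw [et, div_le_iff₀ (by linarith)]
    nlinarith
  have e : asqLt d l2 - asqLt d l1 = 2 / d * (Real.tan x2 - Real.tan x1) := by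
    unfold asqLt; ring
  have hc : (0 : ℝ) < 2 / d := by positivity
  constructor
  · have : 0 ≤ asqLt d l2 - asqLt d l1 := by rw [e]; exact mul_nonneg hc.le t0
    linarith
  · rw [e]
    calc 2 / d * (Real.tan x2 - Real.tan x1) ≤ 2 / d * (2 * (x2 - x1)) := by gcongr
      _ = 2 * (l2 - l1) := by
          rw [hx1, hx2]; field_simp

/-! ### 1. the contract: exchange of the frames -/

theorem AsqIn.r0_le (I : AsqIn) : I.r0 ≤ 1 / 2 := I.r0_le4.trans (by norm_num)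

theorem asq_meas_supp (r0 : ℝ) : MeasurableSet {p : ℝ × ℝ | ¬ (0 < pncN p ∧ pncN p < r0)} :=
  ((measurableSet_lt measurable_const pnc_N_continuous.measurable).inter (measurableSet_lt pnc_N_continuous.measurable measurable_const)).compl

/-- exchange of the two frames -/
def AsqIn.swap (I : AsqIn) : AsqIn where
  C0 := I.C1
  nu := I.nu1
  E := I.E1
  d := I.d1
  C1 := I.C0
  nu1 := I.nu
  E1 := I.E
  d1 := I.d
  r0 := I.r0
  K := I.K
  r0_pos := I.r0_pos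
  r0_le4 := I.r0_le4
  d_pos := I.d1_pos
  d_le := I.d1_le
  d1_pos := I.d_pos
  d1_le := I.d_le
  supp := by
    rw [← I.rot, Measure.map_apply asq_R_continuous.measurable (asq_meas_supp _)]
    simpa only [Set.preimage_setOf_eq, asq_N_R] using I.supp
  rot := I.rot1
  rot1 := I.rot
  ann := fun r hr => by
    rw [← I.rot, Measure.map_apply asq_R_continuous.measurable (pnc_meas_shell _ _)]
    simpa only [Set.preimage_setOf_eq, asq_N_R] using I.ann r hr
  Efin := I.Efin1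
  E0 := I.E01
  nu0 := I.nu01
  mix := I.mix1
  Efin1 := I.Efin
  E01 := I.E0
  nu01 := I.nu0
  mix1 := I.mix

/-- `Λ_δ Ψ = ∫ Ψ(p/δ) |p/δ|² C0(dp)` -/
noncomputable def asqLam (I : AsqIn) (δ : ℝ) (Ψ : ℝ × ℝ → ℝ) : ℝ := ∫ p, Ψ (pncSc δ p) * pncQ (pncSc δ p) ∂I.C0

/-- `N_δ a = ∫ a(k/δ) |k|/δ nu(dk, ds)` -/
noncomputable def asqNn (I : AsqIn) (δ : ℝ) (a : ℝ → ℝ) : ℝ := ∫ x, a (x.1 / δ) * (|x.1| / δ) ∂I.nu

/-- the running coefficient `c_δ = N'_δ(b0)/π`, read in the OTHER frame -/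
noncomputable def asqc (I : AsqIn) (δ : ℝ) : ℝ := asqNn I.swap δ pncb0 / π

/-- the radial integral of the fourth harmonic over `|p| > ε` -/
noncomputable def asqRad (I : AsqIn) (ε : ℝ) : ℝ := ∫ p, pncChi p * Set.indicator (Set.Ioi ε) (fun _ => (1 : ℝ)) (pncN p) ∂I.C0

theorem asq_eqns_cite : True := by
  have := @asqLt.eq_1
  have := @asqCh.eq_1
  have := @asqR.eq_1
  have := @asqRI.eq_1
  have := @AsqIn.swap.eq_1
  have := @asqLam.eq_1
  have := @asqNn.eq_1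
  have := @asqc.eq_1
  have := @asqRad.eq_1
  trivial

variable (I : AsqIn)

theorem asq_lt_aux {l : ℝ} (h0 : 0 ≤ l) (h1 : l ≤ 1 / 2) : l ≤ asqLt I.d l ∧ asqLt I.d l - l ≤ 3 / 4 * l ^ 3 :=
  asq_lt_aux0 I.d_pos I.d_le h0 h1

theorem asq_lt_ge {l : ℝ} (hl : |l| ≤ 1 / 2) : |l| ≤ |asqLt I.d l| := by
  rcases abs_cases l with ⟨h, h0⟩ | ⟨h, h0⟩
  · rw [h] at hl ⊢
    exact (asq_lt_aux I h0 hl).1.trans (le_abs_self _)
  · rw [h] at hl ⊢
    have := (asq_lt_aux I (by linarith : 0 ≤ -l) hl).1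
    rw [asq_lt_neg] at this
    exact this.trans (neg_le_abs _)

theorem asq_lt_le {l : ℝ} (hl : |l| ≤ 1 / 2) : |asqLt I.d l - l| ≤ 3 / 4 * |l| ^ 3 := by
  rcases abs_cases l with ⟨h, h0⟩ | ⟨h, h0⟩
  · rw [h] at hl ⊢
    obtain ⟨a, b⟩ := asq_lt_aux I h0 hl
    rwa [abs_of_nonneg (by linarith)]
  · rw [h] at hl ⊢
    obtain ⟨a, b⟩ := asq_lt_aux I (by linarith : 0 ≤ -l) hl
    rw [asq_lt_neg] at a b
    rw [abs_of_nonpos (by linarith)]
    linarith

theorem asq_lt_lip {l1 l2 : ℝ} (h12 : l1 ≤ l2) (h1 : |l1| ≤ 0.6) (h2 : |l2| ≤ 0.6) :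
    asqLt I.d l1 ≤ asqLt I.d l2 ∧ asqLt I.d l2 - asqLt I.d l1 ≤ 2 * (l2 - l1) :=
  asq_lt_lip0 I.d_pos I.d_le h12 h1 h2

theorem asq_chi_dist {p : ℝ × ℝ} (hp : pncN p ≤ 1 / 2) : |pncChi (asqCh I.d p) - pncChi p| ≤ 12 * pncQ p := by
  have hl : |p.2| ≤ 1 / 2 := (pnc_abs_snd_le p).trans hp
  have := pnc_chi_diff_le (k := p.1) (asq_lt_ge I hl) (asq_lt_le I hl)
  unfold asqCh
  refine this.trans ?_
  unfold pncQ
  nlinarith [sq_nonneg p.1]

/-! ### A. the turn, annuli -/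

theorem asq_rot_lintegral {G : ℝ × ℝ → ℝ≥0∞} (hG : Measurable G) : ∫⁻ p, G (asqR p) ∂I.C0 = ∫⁻ p, G p ∂I.C1 := by
  conv_rhs => rw [← I.rot]
  rw [lintegral_map hG asq_R_continuous.measurable]

theorem asq_rot_integral {G : ℝ × ℝ → ℝ} (hG : Measurable G) : ∫ p, G (asqR p) ∂I.C0 = ∫ p, G p ∂I.C1 := by
  conv_rhs => rw [← I.rot]
  rw [integral_map asq_R_continuous.measurable.aemeasurable hG.aestronglyMeasurable]

theorem asq_rot_measure {S : Set (ℝ × ℝ)} (hS : MeasurableSet S) : I.C0 (asqR ⁻¹' S) = I.C1 S := by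
  conv_rhs => rw [← I.rot]
  rw [Measure.map_apply asq_R_continuous.measurable hS]


/-- a.e. point of `C0` lies in the punctured disc -/
theorem asq_ae_disc : ∀ᵐ p ∂I.C0, 0 < pncN p ∧ pncN p < I.r0 := by
  filter_upwards [measure_eq_zero_iff_ae_notMem.1 I.supp] with p hp
  by_contra h
  exact hp h

theorem asq_shell_pow {a : ℝ} (ha : 0 < a) (n : ℕ) : I.C0 {p | a ≤ pncN p ∧ pncN p ≤ a * 2 ^ n} ≤ (n + 1 : ℕ) * ENNReal.ofReal I.K := by
  induction n with
  | zero =>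
    simp only [pow_zero, mul_one, zero_add, Nat.cast_one, one_mul]
    refine (measure_mono fun p hp => ?_).trans (I.ann a ha)
    exact ⟨hp.1, hp.2.trans (by linarith)⟩
  | succ n ih =>
    have hsub : {p | a ≤ pncN p ∧ pncN p ≤ a * 2 ^ (n + 1)} ⊆ {p | a ≤ pncN p ∧ pncN p ≤ a * 2 ^ n}
        ∪ {p | a * 2 ^ n ≤ pncN p ∧ pncN p ≤ 2 * (a * 2 ^ n)} := by
      intro p hp
      by_cases h : pncN p ≤ a * 2 ^ n
      · exact Or.inl ⟨hp.1, h⟩
      · exact Or.inr ⟨(not_le.1 h).le, hp.2.trans (le_of_eq (by ring))⟩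
    refine (measure_mono hsub).trans ((measure_union_le _ _).trans ?_)
    have := I.ann (a * 2 ^ n) (by positivity)
    calc _ ≤ (n + 1 : ℕ) * ENNReal.ofReal I.K + ENNReal.ofReal I.K := add_le_add ih this
      _ = ((n + 1 + 1 : ℕ) : ℝ≥0∞) * ENNReal.ofReal I.K := by push_cast; ring

/-- a shell of bounded ratio has bounded mass, uniformly in the scale -/
theorem asq_shell {α R : ℝ} (hα : 0 < α) : ∃ M : ℝ, ∀ δ : ℝ, 0 < δ → I.C0 {p | α * δ ≤ pncN p ∧ pncN p ≤ R * δ} ≤ ENNReal.ofReal M := by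
  obtain ⟨n, hn⟩ := pow_unbounded_of_one_lt (R / α) (one_lt_two : (1 : ℝ) < 2)
  refine ⟨(n + 1 : ℕ) * max I.K 0, fun δ hδ => ?_⟩
  have h1 : {p | α * δ ≤ pncN p ∧ pncN p ≤ R * δ} ⊆ {p | α * δ ≤ pncN p ∧ pncN p ≤ α * δ * 2 ^ n} := by
    intro p hp
    refine ⟨hp.1, hp.2.trans ?_⟩
    rw [div_lt_iff₀ hα] at hn
    nlinarith
  refine (measure_mono h1).trans ((asq_shell_pow I (by positivity) n).trans ?_)
  rw [ENNReal.ofReal_mul (by positivity), ENNReal.ofReal_natCast]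
  gcongr
  exact le_max_left _ _

/-- finite mass away from the origin -/
theorem asq_far_lt_top {ρ : ℝ} (hρ : 0 < ρ) : I.C0 {p | ρ ≤ pncN p} < ∞ := by
  obtain ⟨n, hn⟩ := pow_unbounded_of_one_lt (I.r0 / ρ) (one_lt_two : (1 : ℝ) < 2)
  have h1 : I.C0 {p | ρ ≤ pncN p} ≤ I.C0 {p | ρ ≤ pncN p ∧ pncN p ≤ ρ * 2 ^ n} := by
    refine measure_mono_ae ?_
    filter_upwards [asq_ae_disc I] with p hp h
    refine ⟨h, hp.2.le.trans ?_⟩
    rw [div_lt_iff₀ hρ] at hn
    linarith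
  refine h1.trans_lt ((asq_shell_pow I hρ n).trans_lt ?_)
  exact ENNReal.mul_lt_top (ENNReal.natCast_lt_top _) ENNReal.ofReal_lt_top

/-- dyadic sum towards the origin -/
theorem asq_dyadic (f : ℝ × ℝ → ℝ≥0∞) {R : ℝ} (hR : 0 < R) (φ : ℕ → ℝ≥0∞)
    (h : ∀ (j : ℕ) (p : ℝ × ℝ), R / 2 ^ (j + 1) ≤ pncN p → pncN p ≤ R / 2 ^ j → f p ≤ φ j) :
    ∫⁻ p in {p | pncN p ≤ R}, f p ∂I.C0 ≤ ∑' j, φ j * ENNReal.ofReal I.K := by
  set S : ℕ → Set (ℝ × ℝ) := fun j => {p | R / 2 ^ (j + 1) ≤ pncN p ∧ pncN p ≤ R / 2 ^ j} with hS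
  have hcov : ∀ᵐ p ∂I.C0, p ∈ {p | pncN p ≤ R} → p ∈ ⋃ j, S j := by
    filter_upwards [asq_ae_disc I] with p hp hpR
    have hpR : pncN p ≤ R := hpR
    obtain ⟨n, hn1, hn2⟩ := exists_nat_pow_near_of_lt_one (x := pncN p / R) (y := 1 / 2) (by have := hp.1; positivity)
      (by rw [div_le_one hR]; exact hpR) (by norm_num) (by norm_num)
    refine Set.mem_iUnion.2 ⟨n, ?_, ?_⟩
    · rw [lt_div_iff₀ hR] at hn1
      rw [one_div, inv_pow] at hn1
      rw [div_eq_mul_inv]; linarith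
    · rw [div_le_iff₀ hR] at hn2
      rw [one_div, inv_pow] at hn2
      rw [div_eq_mul_inv]; linarith
  calc ∫⁻ p in {p | pncN p ≤ R}, f p ∂I.C0 ≤ ∫⁻ p in ⋃ j, S j, f p ∂I.C0 :=
        lintegral_mono' (Measure.restrict_mono_ae hcov) le_rfl
    _ ≤ ∑' j, ∫⁻ p in S j, f p ∂I.C0 := lintegral_iUnion_le _ _
    _ ≤ ∑' j, φ j * ENNReal.ofReal I.K := by
        refine ENNReal.tsum_le_tsum fun j => ?_
        calc ∫⁻ p in S j, f p ∂I.C0 ≤ ∫⁻ _ in S j, φ j ∂I.C0 :=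
              setLIntegral_mono' (pnc_meas_shell _ _) fun p hp => h j p hp.1 hp.2
          _ = φ j * I.C0 (S j) := setLIntegral_const _ _
          _ ≤ φ j * ENNReal.ofReal I.K := by
              gcongr
              refine (measure_mono fun p hp => ?_).trans (I.ann (R / 2 ^ (j + 1)) (by positivity))
              refine ⟨hp.1, hp.2.trans (le_of_eq ?_)⟩
              rw [pow_succ]; field_simp

/-- dyadic sum away from the origin -/
theorem asq_dyadic_up (f : ℝ × ℝ → ℝ≥0∞) {R : ℝ} (hR : 0 < R) (φ : ℕ → ℝ≥0∞)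
    (h : ∀ (j : ℕ) (p : ℝ × ℝ), R * 2 ^ j ≤ pncN p → pncN p ≤ R * 2 ^ (j + 1) → f p ≤ φ j) :
    ∫⁻ p in {p | R ≤ pncN p}, f p ∂I.C0 ≤ ∑' j, φ j * ENNReal.ofReal I.K := by
  set S : ℕ → Set (ℝ × ℝ) := fun j => {p | R * 2 ^ j ≤ pncN p ∧ pncN p ≤ R * 2 ^ (j + 1)} with hS
  have hcov : {p | R ≤ pncN p} ⊆ ⋃ j, S j := by
    intro p hpR
    have hpR : R ≤ pncN p := hpR
    obtain ⟨n, hn1, hn2⟩ := exists_nat_pow_near (x := pncN p / R) (y := 2) (by rw [le_div_iff₀ hR]; linarith) (by norm_num)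
    refine Set.mem_iUnion.2 ⟨n, ?_, ?_⟩
    · rw [le_div_iff₀ hR] at hn1; linarith
    · rw [div_lt_iff₀ hR] at hn2; linarith
  calc ∫⁻ p in {p | R ≤ pncN p}, f p ∂I.C0 ≤ ∫⁻ p in ⋃ j, S j, f p ∂I.C0 := lintegral_mono_set hcov
    _ ≤ ∑' j, ∫⁻ p in S j, f p ∂I.C0 := lintegral_iUnion_le _ _
    _ ≤ ∑' j, φ j * ENNReal.ofReal I.K := by
        refine ENNReal.tsum_le_tsum fun j => ?_
        calc ∫⁻ p in S j, f p ∂I.C0 ≤ ∫⁻ _ in S j, φ j ∂I.C0 :=
              setLIntegral_mono' (pnc_meas_shell _ _) fun p hp => h j p hp.1 hp.2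
          _ = φ j * I.C0 (S j) := setLIntegral_const _ _
          _ ≤ φ j * ENNReal.ofReal I.K := by
              gcongr
              refine (measure_mono fun p hp => ?_).trans (I.ann (R * 2 ^ j) (by positivity))
              refine ⟨hp.1, hp.2.trans (le_of_eq ?_)⟩
              rw [pow_succ]; ring

/-- `∫_{|p| ≤ R} |p|² dC0 ≤ 2 K R²` (dyadic sum) -/
theorem asq_ball_Q {R : ℝ} (hR : 0 < R) : ∫⁻ p in {p | pncN p ≤ R}, ENNReal.ofReal (pncQ p) ∂I.C0 ≤ ENNReal.ofReal (2 * I.K * R ^ 2) := by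
  refine (asq_dyadic I _ hR (fun j => ENNReal.ofReal (R ^ 2) * (1 / 4 : ℝ≥0∞) ^ j) fun j p _ h2 => ?_).trans ?_
  · have e : (1 / 4 : ℝ≥0∞) ^ j = ENNReal.ofReal ((1 / 4) ^ j) := by
      rw [ENNReal.ofReal_pow (by norm_num)]
      congr 1
      rw [ENNReal.ofReal_div_of_pos (by norm_num)]
      simp
    rw [e, ← ENNReal.ofReal_mul (by positivity)]
    refine ENNReal.ofReal_le_ofReal ?_
    rw [← pnc_N_sq]
    calc pncN p ^ 2 ≤ (R / 2 ^ j) ^ 2 := pow_le_pow_left₀ (pnc_N_nonneg p) h2 2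
      _ = R ^ 2 * (1 / 4) ^ j := by
          rw [div_pow, ← pow_mul, mul_comm j 2, pow_mul, one_div, inv_pow]
          norm_num
          rfl
  · have e0 : ∀ j : ℕ, ENNReal.ofReal (R ^ 2) * (1 / 4 : ℝ≥0∞) ^ j * ENNReal.ofReal I.K
        = ENNReal.ofReal (R ^ 2) * (ENNReal.ofReal I.K * (1 / 4 : ℝ≥0∞) ^ j) := fun j => by ring
    simp_rw [e0]
    rw [ENNReal.tsum_mul_left, ENNReal.tsum_mul_left, ENNReal.tsum_geometric]
    have e : (1 - 1 / 4 : ℝ≥0∞)⁻¹ ≤ 2 := by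
      rw [ENNReal.inv_le_iff_inv_le]
      refine ENNReal.le_sub_of_add_le_left (by simp) ?_
      rw [one_div, ← ENNReal.inv_two_add_inv_two]
      gcongr
      norm_num
    calc _ ≤ ENNReal.ofReal (R ^ 2) * (ENNReal.ofReal I.K * 2) := by gcongr
      _ = ENNReal.ofReal (2 * I.K * R ^ 2) := by
          rw [show 2 * I.K * R ^ 2 = R ^ 2 * (2 * I.K) by ring, ENNReal.ofReal_mul (by positivity), ENNReal.ofReal_mul (by norm_num)]
          simp [mul_comm]

theorem asq_restrict_ball : I.C0.restrict {p | pncN p ≤ I.r0} = I.C0 :=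
  Measure.restrict_eq_self_of_ae_mem (by filter_upwards [asq_ae_disc I] with p hp using hp.2.le)

theorem asq_Q_integrable : Integrable pncQ I.C0 := by
  refine ⟨pnc_Q_continuous.aestronglyMeasurable, ?_⟩
  rw [hasFiniteIntegral_iff_norm]
  simp only [Real.norm_eq_abs, abs_of_nonneg (pnc_Q_nonneg _)]
  rw [← asq_restrict_ball I]
  exact (asq_ball_Q I I.r0_pos).trans_lt ENNReal.ofReal_lt_top

/-- `∫ |p| dC0 < ∞` (dyadic sum) -/
theorem asq_N_integrable : Integrable pncN I.C0 := by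
  refine ⟨pnc_N_continuous.aestronglyMeasurable, ?_⟩
  rw [hasFiniteIntegral_iff_norm]
  simp only [Real.norm_eq_abs, abs_of_nonneg (pnc_N_nonneg _)]
  rw [← asq_restrict_ball I]
  refine (asq_dyadic I _ I.r0_pos (fun j => ENNReal.ofReal I.r0 * (1 / 2 : ℝ≥0∞) ^ j) fun j p _ h2 => ?_).trans_lt ?_
  · have e : (1 / 2 : ℝ≥0∞) ^ j = ENNReal.ofReal ((1 / 2) ^ j) := by
      rw [ENNReal.ofReal_pow (by norm_num)]
      congr 1
      rw [ENNReal.ofReal_div_of_pos (by norm_num)]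
      simp
    rw [e, ← ENNReal.ofReal_mul I.r0_pos.le]
    refine ENNReal.ofReal_le_ofReal (h2.trans (le_of_eq ?_))
    rw [one_div, inv_pow, div_eq_mul_inv]
  · simp_rw [mul_assoc, mul_comm _ (ENNReal.ofReal I.K)]
    rw [ENNReal.tsum_mul_left, ENNReal.tsum_mul_left, ENNReal.tsum_geometric]
    refine ENNReal.mul_lt_top ENNReal.ofReal_lt_top (ENNReal.mul_lt_top ENNReal.ofReal_lt_top ?_)
    rw [ENNReal.inv_lt_top]
    simp

/-! ### B. consequences of the mixture -/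

/-- `nu` lives on `k ≠ 0`, `s ≥ 0` -/
theorem asq_ae_nu : ∀ᵐ x ∂I.nu, x.1 ≠ 0 ∧ 0 ≤ x.2 := by
  have := I.nu0
  filter_upwards [measure_eq_zero_iff_ae_notMem.1 this] with x hx
  simp only [not_or, not_lt] at hx
  exact hx

theorem asq_ae_E : ∀ᵐ x ∂I.E, x.1 ≠ 0 := measure_eq_zero_iff_ae_notMem.1 I.E0

/-- the mixture for nonnegative bounded tests which vanish on `|k| < ε` -/
theorem asq_mix_nonneg {g : ℝ × ℝ → ℝ} (hm : Measurable g) {B ε : ℝ} (hε : 0 < ε) (h0 : ∀ x, 0 ≤ g x) (hb : ∀ x, g x ≤ B)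
    (hoff : ∀ x : ℝ × ℝ, |x.1| < ε → g x = 0) :
    Integrable (pncPr g) I.nu ∧ Integrable (fun p => g (asqCh I.d p)) I.C0 ∧ Integrable g I.E ∧
      ∫ x, pncPr g x ∂I.nu = ∫ p, g (asqCh I.d p) ∂I.C0 + ∫ x, g x ∂I.E := by
  have := I.Efin
  have hmO : Measurable fun y => ENNReal.ofReal (g y) := hm.ennreal_ofReal
  have L1 : ∫⁻ p, ENNReal.ofReal (g (asqCh I.d p)) ∂I.C0 < ∞ := by
    have : ∀ p, ENNReal.ofReal (g (asqCh I.d p)) ≤ Set.indicator {p | ε ≤ pncN p} (fun _ => ENNReal.ofReal B) p := by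
      intro p
      by_cases hp : ε ≤ pncN p
      · rw [Set.indicator_of_mem (show p ∈ {p | ε ≤ pncN p} from hp)]
        exact ENNReal.ofReal_le_ofReal (hb _)
      · rw [hoff (asqCh I.d p) (lt_of_le_of_lt (pnc_abs_fst_le p) (not_le.1 hp))]
        simp
    refine (lintegral_mono this).trans_lt ?_
    rw [lintegral_indicator (measurableSet_le measurable_const pnc_N_continuous.measurable), setLIntegral_const]
    exact ENNReal.mul_lt_top ENNReal.ofReal_lt_top (asq_far_lt_top I hε)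
  have L2 : ∫⁻ x, ENNReal.ofReal (g x) ∂I.E < ∞ := by
    refine (lintegral_mono fun x => ENNReal.ofReal_le_ofReal (hb x)).trans_lt ?_
    rw [lintegral_const]
    exact ENNReal.mul_lt_top ENNReal.ofReal_lt_top (measure_lt_top _ _)
  have hmix := I.mix _ hmO
  have e1 : ∫⁻ p in {p : ℝ × ℝ | p.1 ≠ 0}, ENNReal.ofReal (g (asqCh I.d p)) ∂I.C0 = ∫⁻ p, ENNReal.ofReal (g (asqCh I.d p)) ∂I.C0 := by
    have hT : MeasurableSet {p : ℝ × ℝ | p.1 ≠ 0} := (measurableSet_eq_fun measurable_fst measurable_const).compl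
    rw [← lintegral_indicator hT]
    refine lintegral_congr fun p => ?_
    by_cases hp : p.1 = 0
    · rw [Set.indicator_of_notMem (by simpa using hp), hoff (asqCh I.d p) (by show |p.1| < ε; rw [hp, abs_zero]; exact hε)]
      simp
    · rw [Set.indicator_of_mem (by simpa using hp)]
  have e2 : ∫⁻ x, pncP (fun y => ENNReal.ofReal (g y)) x ∂I.nu = ∫⁻ x, ENNReal.ofReal (pncPr g x) ∂I.nu := by
    refine lintegral_congr_ae ?_
    filter_upwards [asq_ae_nu I] with x hx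
    exact pnc_P_ofReal hm h0 hb hx.2
  rw [e1, e2] at hmix
  have hPm : AEStronglyMeasurable (pncPr g) I.nu := by
    refine AEMeasurable.aestronglyMeasurable ⟨fun x => (pncP (fun y => ENNReal.ofReal (g y)) x).toReal,
      (pnc_P_measurable hmO).ennreal_toReal, ?_⟩
    filter_upwards [asq_ae_nu I] with x hx
    rw [pnc_P_ofReal hm h0 hb hx.2, ENNReal.toReal_ofReal (pnc_Pr_nonneg h0 hx.2)]
  have hP0 : 0 ≤ᵐ[I.nu] pncPr g := by
    filter_upwards [asq_ae_nu I] with x hx using pnc_Pr_nonneg h0 hx.2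
  have i1 : Integrable (pncPr g) I.nu := by
    refine ⟨hPm, ?_⟩
    rw [hasFiniteIntegral_iff_ofReal hP0, hmix]
    exact ENNReal.add_lt_top.2 ⟨L1, L2⟩
  have i2 : Integrable (fun p => g (asqCh I.d p)) I.C0 := by
    refine ⟨(hm.comp (asq_ch_measurable I.d)).aestronglyMeasurable, ?_⟩
    rw [hasFiniteIntegral_iff_ofReal (Eventually.of_forall fun p => h0 _)]
    exact L1
  have i3 : Integrable g I.E := by
    refine ⟨hm.aestronglyMeasurable, ?_⟩
    rw [hasFiniteIntegral_iff_ofReal (Eventually.of_forall fun p => h0 _)]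
    exact L2
  refine ⟨i1, i2, i3, ?_⟩
  rw [integral_eq_lintegral_of_nonneg_ae hP0 hPm, integral_eq_lintegral_of_nonneg_ae (Eventually.of_forall fun p => h0 _) i2.1,
    integral_eq_lintegral_of_nonneg_ae (Eventually.of_forall fun p => h0 _) i3.1, hmix, ENNReal.toReal_add L1.ne L2.ne]

/-- `nu` is finite on `|k| ≥ ε` -/
theorem asq_nu_far {ε : ℝ} (hε : 0 < ε) : I.nu {x | ε ≤ |x.1|} < ∞ := by
  have hS : MeasurableSet {x : ℝ × ℝ | ε ≤ |x.1|} := measurableSet_le measurable_const measurable_fst.abs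
  have hS1 : MeasurableSet {k : ℝ | ε ≤ |k|} := measurableSet_le measurable_const measurable_id.abs
  set a : ℝ → ℝ := Set.indicator {k : ℝ | ε ≤ |k|} fun _ => 1 with ha
  have ham : Measurable a := measurable_const.indicator hS1
  have a01 : ∀ k, 0 ≤ a k ∧ a k ≤ 1 := fun k => by
    by_cases hk : ε ≤ |k|
    · rw [ha, Set.indicator_of_mem (show k ∈ {k : ℝ | ε ≤ |k|} from hk)]; exact ⟨zero_le_one, le_rfl⟩
    · rw [ha, Set.indicator_of_notMem (by simpa using hk)]; exact ⟨le_rfl, zero_le_one⟩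
  obtain ⟨h1, -, -, -⟩ := asq_mix_nonneg I (g := fun y => a y.1 * 1) ((ham.comp measurable_fst).mul_const 1) hε (B := 1)
    (fun x => by rw [mul_one]; exact (a01 _).1) (fun x => by rw [mul_one]; exact (a01 _).2)
    (fun x hx => by rw [mul_one, ha, Set.indicator_of_notMem (by simpa using hx)])
  have h2 : Integrable (Set.indicator {x : ℝ × ℝ | ε ≤ |x.1|} fun _ => (1 : ℝ)) I.nu := by
    refine h1.congr ?_
    filter_upwards [asq_ae_nu I] with x hx
    rw [pnc_Pr_fst_mul a (fun _ => 1) x, pnc_Pr_one hx.2, mul_one]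
    rfl
  rw [integrable_indicator_iff hS, integrableOn_const_iff] at h2
  simpa using h2

/-- **the mixture for signed bounded tests** which vanish on `|k| < ε` (apply `mix` to `G + M 1_{|k| ≥ ε}` and to `M 1_{|k| ≥ ε}`) -/
theorem asq_mix_real {G : ℝ × ℝ → ℝ} (hm : Measurable G) {M ε : ℝ} (hε : 0 < ε) (hb : ∀ x, |G x| ≤ M) (h0 : ∀ x : ℝ × ℝ, |x.1| < ε → G x = 0) :
    Integrable (pncPr G) I.nu ∧ Integrable (fun p => G (asqCh I.d p)) I.C0 ∧
      ∫ x, pncPr G x ∂I.nu = ∫ p, G (asqCh I.d p) ∂I.C0 + ∫ x, G x ∂I.E := by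
  have hM : 0 ≤ M := (abs_nonneg _).trans (hb 0)
  have hS : MeasurableSet {x : ℝ × ℝ | ε ≤ |x.1|} := measurableSet_le measurable_const measurable_fst.abs
  set g2 : ℝ × ℝ → ℝ := Set.indicator {x : ℝ × ℝ | ε ≤ |x.1|} fun _ => M with hg2
  set g1 : ℝ × ℝ → ℝ := fun x => G x + g2 x with hg1
  have hm2 : Measurable g2 := measurable_const.indicator hS
  have hm1 : Measurable g1 := hm.add hm2
  have v2 : ∀ x : ℝ × ℝ, ε ≤ |x.1| → g2 x = M := fun x hx => Set.indicator_of_mem (show x ∈ {x : ℝ × ℝ | ε ≤ |x.1|} from hx) _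
  have w2 : ∀ x : ℝ × ℝ, |x.1| < ε → g2 x = 0 := fun x hx => Set.indicator_of_notMem (by simpa using hx) _
  have n2 : ∀ x, 0 ≤ g2 x ∧ g2 x ≤ M := fun x => by
    by_cases hx : ε ≤ |x.1|
    · rw [v2 x hx]; exact ⟨hM, le_rfl⟩
    · rw [w2 x (not_le.1 hx)]; exact ⟨le_rfl, hM⟩
  have n1 : ∀ x, 0 ≤ g1 x ∧ g1 x ≤ 2 * M := fun x => by
    have := abs_le.1 (hb x)
    by_cases hx : ε ≤ |x.1|
    · simp only [hg1, v2 x hx]; constructor <;> linarith
    · simp only [hg1, w2 x (not_le.1 hx), h0 x (not_le.1 hx)]; constructor <;> linarith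
  obtain ⟨a1, a2, a3, a4⟩ := asq_mix_nonneg I hm1 hε (fun x => (n1 x).1) (fun x => (n1 x).2)
    (fun x hx => by simp only [hg1, w2 x hx, h0 x hx, add_zero])
  obtain ⟨b1, b2, b3, b4⟩ := asq_mix_nonneg I hm2 hε (fun x => (n2 x).1) (fun x => (n2 x).2) w2
  have eG : G = fun y => g1 y - g2 y := by funext y; simp [hg1]
  have eP : pncPr G =ᵐ[I.nu] fun x => pncPr g1 x - pncPr g2 x := by
    filter_upwards [asq_ae_nu I] with x hx
    conv_lhs => rw [eG]
    exact pnc_Pr_sub hm1 hm2 (B := 2 * M) (fun x => abs_le.2 ⟨by linarith [(n1 x).1], (n1 x).2⟩)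
      (fun x => abs_le.2 ⟨by linarith [(n2 x).1], by linarith [(n2 x).2]⟩) hx.2
  refine ⟨(a1.sub b1).congr eP.symm, ?_, ?_⟩
  · have := a2.sub b2
    refine this.congr (Eventually.of_forall fun p => ?_)
    simp [hg1]
  · rw [integral_congr_ae eP, integral_sub a1 b1, a4, b4]
    have e1 : ∫ p, G (asqCh I.d p) ∂I.C0 = ∫ p, g1 (asqCh I.d p) ∂I.C0 - ∫ p, g2 (asqCh I.d p) ∂I.C0 := by
      rw [← integral_sub a2 b2]
      refine integral_congr_ae (Eventually.of_forall fun p => ?_)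
      simp [hg1]
    have e2 : ∫ x, G x ∂I.E = ∫ x, g1 x ∂I.E - ∫ x, g2 x ∂I.E := by
      rw [← integral_sub a3 b3]
      refine integral_congr_ae (Eventually.of_forall fun p => ?_)
      simp [hg1]
    rw [e1, e2]
    ring

/-! ### C. the summable defect -/

/-- bounded, measurable, zero near the origin: integrable for `C0` -/
theorem asq_int_far {F : ℝ × ℝ → ℝ} (hm : Measurable F) {M ε : ℝ} (hε : 0 < ε) (hb : ∀ p, |F p| ≤ M) (h0 : ∀ p, pncN p < ε → F p = 0) :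
    Integrable F I.C0 := by
  have hS : MeasurableSet {p | ε ≤ pncN p} := measurableSet_le measurable_const pnc_N_continuous.measurable
  have h1 : IntegrableOn F {p | ε ≤ pncN p} I.C0 :=
    Measure.integrableOn_of_bounded (asq_far_lt_top I hε).ne hm.aestronglyMeasurable (M := M)
      (Eventually.of_forall fun p => by rw [Real.norm_eq_abs]; exact hb p)
  rw [← integrable_indicator_iff hS] at h1
  refine h1.congr (Eventually.of_forall fun p => ?_)
  by_cases hp : ε ≤ pncN p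
  · exact Set.indicator_of_mem (show p ∈ {p | ε ≤ pncN p} from hp) _
  · simp only [Set.indicator_of_notMem (show p ∉ {p | ε ≤ pncN p} from hp), h0 p (not_le.1 hp)]

/-- the radial integral of `χ` changes sign in the other frame (`asq_chi_R` + `rot`).      TEX[04-spectral, proof of prop:dispersion-defect] -/
theorem asq_rad_swap (ε : ℝ) : asqRad I.swap ε = -asqRad I ε := by
  unfold asqRad
  set F : ℝ × ℝ → ℝ := fun p => pncChi p * Set.indicator (Set.Ioi ε) (fun _ => (1 : ℝ)) (pncN p) with hF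
  have hFm : Measurable F := pnc_chi_measurable.mul ((measurable_const.indicator measurableSet_Ioi).comp pnc_N_continuous.measurable)
  show ∫ p, F p ∂I.C1 = _
  rw [← asq_rot_integral I hFm, ← integral_neg]
  refine integral_congr_ae ?_
  filter_upwards [asq_ae_disc I] with p hp
  have hp0 : p ≠ 0 := by
    rintro rfl
    have := hp.1
    simp [pncN, pncQ] at this
  simp only [hF, asq_N_R]
  rw [asq_chi_R p hp0, neg_mul]

/-- the cap: `∫_{|k| > ε} χ dC0 ≤ Rad_ε + 2K`  (in the deleted cap the negative part of `χ` sits in `ε < |p| ≤ 3ε`).      TEX[04-spectral (eq:frame-defect-bound)] -/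
theorem asq_cap_le {ε : ℝ} (hε : 0 < ε) : ∫ p in {p : ℝ × ℝ | ε < |p.1|}, pncChi p ∂I.C0 ≤ asqRad I ε + 2 * max I.K 0 := by
  have hA : MeasurableSet {p : ℝ × ℝ | ε < |p.1|} := measurableSet_lt measurable_const measurable_fst.abs
  have hC : MeasurableSet {p : ℝ × ℝ | |p.1| ≤ ε ∧ ε < pncN p} :=
    (measurableSet_le measurable_fst.abs measurable_const).inter (measurableSet_lt measurable_const pnc_N_continuous.measurable)
  have hT : MeasurableSet {p : ℝ × ℝ | ε ≤ pncN p ∧ pncN p ≤ 3 * ε} := pnc_meas_shell _ _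
  set FA : ℝ × ℝ → ℝ := Set.indicator {p : ℝ × ℝ | ε < |p.1|} pncChi with hFA
  set FC : ℝ × ℝ → ℝ := Set.indicator {p : ℝ × ℝ | |p.1| ≤ ε ∧ ε < pncN p} pncChi with hFC
  set ρ : ℝ → ℝ := Set.indicator (Set.Ioi ε) fun _ => 1 with hρ
  have hind : ∀ (S : Set (ℝ × ℝ)) (p : ℝ × ℝ), |Set.indicator S pncChi p| ≤ 1 := fun S p => by
    by_cases h : p ∈ S
    · rw [Set.indicator_of_mem h]; exact pnc_chi_abs_le p
    · rw [Set.indicator_of_notMem h]; simp
  have iA : Integrable FA I.C0 := asq_int_far I (pnc_chi_measurable.indicator hA) hε (hind _) fun p hp =>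
    Set.indicator_of_notMem (show p ∉ {p : ℝ × ℝ | ε < |p.1|} from
      fun h : ε < |p.1| => absurd (h.trans_le (pnc_abs_fst_le p)) (not_lt.2 hp.le)) _
  have iC : Integrable FC I.C0 := asq_int_far I (pnc_chi_measurable.indicator hC) hε (hind _) fun p hp =>
    Set.indicator_of_notMem (show p ∉ {p : ℝ × ℝ | |p.1| ≤ ε ∧ ε < pncN p} from
      fun h : |p.1| ≤ ε ∧ ε < pncN p => absurd h.2 (not_lt.2 hp.le)) _
  have h0 : asqRad I ε = ∫ p, pncChi p * ρ (pncN p) ∂I.C0 := rfl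
  have hsum : ∀ p, pncChi p * ρ (pncN p) = FA p + FC p := by
    intro p
    by_cases h1 : ε < |p.1|
    · have h2 : ε < pncN p := h1.trans_le (pnc_abs_fst_le p)
      rw [hρ, Set.indicator_of_mem (show pncN p ∈ Set.Ioi ε from h2), hFA, Set.indicator_of_mem (show p ∈ {p : ℝ × ℝ | ε < |p.1|} from h1),
        hFC, Set.indicator_of_notMem (show p ∉ {p : ℝ × ℝ | |p.1| ≤ ε ∧ ε < pncN p} from
          fun h : |p.1| ≤ ε ∧ ε < pncN p => absurd h.1 (not_le.2 h1))]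
      ring
    · by_cases h2 : ε < pncN p
      · rw [hρ, Set.indicator_of_mem (show pncN p ∈ Set.Ioi ε from h2), hFA, Set.indicator_of_notMem (show p ∉ {p : ℝ × ℝ | ε < |p.1|} from h1),
          hFC, Set.indicator_of_mem (show p ∈ {p : ℝ × ℝ | |p.1| ≤ ε ∧ ε < pncN p} from ⟨not_lt.1 h1, h2⟩)]
        ring
      · rw [hρ, Set.indicator_of_notMem (show pncN p ∉ Set.Ioi ε from h2), hFA, Set.indicator_of_notMem (show p ∉ {p : ℝ × ℝ | ε < |p.1|} from h1),
          hFC, Set.indicator_of_notMem (show p ∉ {p : ℝ × ℝ | |p.1| ≤ ε ∧ ε < pncN p} from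
            fun h : |p.1| ≤ ε ∧ ε < pncN p => h2 h.2)]
        ring
  simp_rw [hsum] at h0
  rw [integral_add iA iC] at h0
  rw [← integral_indicator hA]
  have hTfin : I.C0 {p : ℝ × ℝ | ε ≤ pncN p ∧ pncN p ≤ 3 * ε} ≤ 2 * ENNReal.ofReal I.K := by
    have hsub : {p : ℝ × ℝ | ε ≤ pncN p ∧ pncN p ≤ 3 * ε} ⊆ {p | ε ≤ pncN p ∧ pncN p ≤ ε * 2 ^ 1} ∪ {p | ε * 2 ≤ pncN p ∧ pncN p ≤ 2 * (ε * 2)} := by
      intro p hp
      by_cases h : pncN p ≤ ε * 2
      · exact Or.inl ⟨hp.1, by simpa using h⟩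
      · exact Or.inr ⟨(not_le.1 h).le, hp.2.trans (by linarith)⟩
    refine (measure_mono hsub).trans ((measure_union_le _ _).trans ?_)
    have a1 := I.ann ε hε
    have a2 := I.ann (ε * 2) (by positivity)
    rw [two_mul (ENNReal.ofReal I.K)]
    refine add_le_add ((measure_mono fun p hp => ?_).trans a1) a2
    exact ⟨hp.1, hp.2.trans (le_of_eq (by ring))⟩
  have iT : Integrable (Set.indicator {p : ℝ × ℝ | ε ≤ pncN p ∧ pncN p ≤ 3 * ε} fun _ => (1 : ℝ)) I.C0 := by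
    rw [integrable_indicator_iff hT, integrableOn_const_iff]
    exact Or.inr (hTfin.trans_lt (ENNReal.mul_lt_top (by simp) ENNReal.ofReal_lt_top))
  have hle : ∫ p, -FC p ∂I.C0 ≤ ∫ p, Set.indicator {p : ℝ × ℝ | ε ≤ pncN p ∧ pncN p ≤ 3 * ε} (fun _ => (1 : ℝ)) p ∂I.C0 := by
    refine integral_mono iC.neg iT fun p => ?_
    by_cases h : |p.1| ≤ ε ∧ ε < pncN p
    · simp only [hFC, Set.indicator_of_mem (show p ∈ {p : ℝ × ℝ | |p.1| ≤ ε ∧ ε < pncN p} from h)]
      by_cases hχ : pncChi p < 0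
      · have : pncN p ≤ 3 * ε := (pnc_chi_neg hχ).trans (by linarith [h.1])
        rw [Set.indicator_of_mem (show p ∈ {p : ℝ × ℝ | ε ≤ pncN p ∧ pncN p ≤ 3 * ε} from ⟨h.2.le, this⟩)]
        linarith [(abs_le.1 (pnc_chi_abs_le p)).1]
      · exact (neg_nonpos.2 (not_lt.1 hχ)).trans (Set.indicator_nonneg (fun _ _ => zero_le_one) _)
    · simp only [hFC, Set.indicator_of_notMem (show p ∉ {p : ℝ × ℝ | |p.1| ≤ ε ∧ ε < pncN p} from h), neg_zero]
      exact Set.indicator_nonneg (fun _ _ => zero_le_one) _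
  rw [integral_neg, integral_indicator hT, setIntegral_const, smul_eq_mul, mul_one] at hle
  have hreal : I.C0.real {p : ℝ × ℝ | ε ≤ pncN p ∧ pncN p ≤ 3 * ε} ≤ 2 * max I.K 0 := by
    unfold Measure.real
    refine (ENNReal.toReal_mono (ENNReal.mul_ne_top (by simp) ENNReal.ofReal_ne_top) hTfin).trans (le_of_eq ?_)
    rw [ENNReal.toReal_mul, ENNReal.toReal_ofReal']
    simp
  linarith

/-- one frame: the truncated defect is at most `M + Rad_ε`,  `M = E(univ) + 12 ∫ |p|² dC0 + 2K` -/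
theorem asq_defect_aux : ∃ M : ℝ, ∀ ε : ℝ, 0 < ε → ∫ x in {x : ℝ × ℝ | ε < |x.1|}, pncD x ∂I.nu ≤ M + asqRad I ε := by
  have := I.Efin
  refine ⟨I.E.real Set.univ + 12 * ∫ p, pncQ p ∂I.C0 + 2 * max I.K 0, fun ε hε => ?_⟩
  have hS1 : MeasurableSet {k : ℝ | ε < |k|} := measurableSet_lt measurable_const measurable_id.abs
  have hS : MeasurableSet {x : ℝ × ℝ | ε < |x.1|} := measurableSet_lt measurable_const measurable_fst.abs
  set a : ℝ → ℝ := Set.indicator {k : ℝ | ε < |k|} fun _ => 1 with ha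
  have ham : Measurable a := measurable_const.indicator hS1
  have a1 : ∀ k, ε < |k| → a k = 1 := fun k hk => Set.indicator_of_mem (show k ∈ {k : ℝ | ε < |k|} from hk) _
  have a0 : ∀ k, ¬ ε < |k| → a k = 0 := fun k hk => Set.indicator_of_notMem (show k ∉ {k : ℝ | ε < |k|} from hk) _
  have a01 : ∀ k, 0 ≤ a k ∧ a k ≤ 1 := fun k => by
    by_cases hk : ε < |k|
    · rw [a1 k hk]; exact ⟨zero_le_one, le_rfl⟩
    · rw [a0 k hk]; exact ⟨le_rfl, zero_le_one⟩
  have hGm : Measurable fun y : ℝ × ℝ => a y.1 * pncChi y := (ham.comp measurable_fst).mul pnc_chi_measurable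
  have hGb : ∀ y : ℝ × ℝ, |a y.1 * pncChi y| ≤ 1 := fun y => by
    rw [abs_mul, abs_of_nonneg (a01 _).1]
    calc a y.1 * |pncChi y| ≤ 1 * 1 := mul_le_mul (a01 _).2 (pnc_chi_abs_le y) (abs_nonneg _) zero_le_one
      _ = 1 := one_mul 1
  obtain ⟨i1, i2, hmix⟩ := asq_mix_real I hGm hε hGb (fun x hx => by rw [a0 _ (not_lt.2 hx.le), zero_mul])
  have e1 : ∫ x in {x : ℝ × ℝ | ε < |x.1|}, pncD x ∂I.nu = ∫ x, pncPr (fun y : ℝ × ℝ => a y.1 * pncChi y) x ∂I.nu := by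
    rw [← integral_indicator hS]
    refine integral_congr_ae ?_
    filter_upwards [asq_ae_nu I] with x hx
    rw [pnc_Pr_fst_mul, pnc_ang hx.1 hx.2]
    by_cases h : ε < |x.1|
    · rw [Set.indicator_of_mem (show x ∈ {x : ℝ × ℝ | ε < |x.1|} from h), a1 _ h, one_mul]
    · rw [Set.indicator_of_notMem (show x ∉ {x : ℝ × ℝ | ε < |x.1|} from h), a0 _ h, zero_mul]
  rw [e1, hmix]
  have b1 : ∫ x : ℝ × ℝ, a x.1 * pncChi x ∂I.E ≤ I.E.real Set.univ := by
    calc ∫ x : ℝ × ℝ, a x.1 * pncChi x ∂I.E ≤ ∫ _, (1 : ℝ) ∂I.E :=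
          integral_mono (Integrable.of_bound hGm.aestronglyMeasurable 1 (Eventually.of_forall fun x => by rw [Real.norm_eq_abs]; exact hGb x))
            (integrable_const _) fun x => (le_abs_self _).trans (hGb x)
      _ = I.E.real Set.univ := by simp
  have iA : Integrable (fun p : ℝ × ℝ => a p.1 * pncChi p) I.C0 := asq_int_far I hGm hε hGb fun p hp => by
    rw [a0 _ (not_lt.2 ((pnc_abs_fst_le p).trans hp.le)), zero_mul]
  have b2 : ∫ p, a (asqCh I.d p).1 * pncChi (asqCh I.d p) ∂I.C0 ≤ ∫ p : ℝ × ℝ, a p.1 * pncChi p ∂I.C0 + 12 * ∫ p, pncQ p ∂I.C0 := by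
    rw [← integral_const_mul, ← integral_add iA ((asq_Q_integrable I).const_mul 12)]
    refine integral_mono_ae i2 (iA.add ((asq_Q_integrable I).const_mul 12)) ?_
    filter_upwards [asq_ae_disc I] with p hp
    have h1 := (abs_le.1 (asq_chi_dist I (hp.2.le.trans I.r0_le))).2
    have h2 := a01 p.1
    have h3 := pnc_Q_nonneg p
    show a p.1 * pncChi (asqCh I.d p) ≤ a p.1 * pncChi p + 12 * pncQ p
    nlinarith
  have b3 : ∫ p : ℝ × ℝ, a p.1 * pncChi p ∂I.C0 ≤ asqRad I ε + 2 * max I.K 0 := by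
    refine le_trans (le_of_eq ?_) (asq_cap_le I hε)
    rw [← integral_indicator hS]
    refine integral_congr_ae (Eventually.of_forall fun p => ?_)
    by_cases h : ε < |p.1|
    · simp only [Set.indicator_of_mem (show p ∈ {x : ℝ × ℝ | ε < |x.1|} from h), a1 _ h, one_mul]
    · simp only [Set.indicator_of_notMem (show p ∉ {x : ℝ × ℝ | ε < |x.1|} from h), a0 _ h, zero_mul]
  linarith

/-- **two frames**: the truncated defect is bounded uniformly in `ε` (add the bounds of the two frames: the radial integrals cancel) -/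
theorem asq_defect_trunc : ∃ M : ℝ, ∀ ε : ℝ, 0 < ε → ∫ x in {x : ℝ × ℝ | ε < |x.1|}, pncD x ∂I.nu ≤ M := by
  obtain ⟨M, hM⟩ := asq_defect_aux I
  obtain ⟨M', hM'⟩ := asq_defect_aux I.swap
  refine ⟨M + M', fun ε hε => ?_⟩
  have h1 := hM ε hε
  have h2 := hM' ε hε
  rw [asq_rad_swap] at h2
  have h3 : 0 ≤ ∫ x in {x : ℝ × ℝ | ε < |x.1|}, pncD x ∂I.swap.nu := integral_nonneg fun x => pnc_D_nonneg x
  linarith

/-- **the summable dispersion defect**.      TEX[04-plane (4.13) `plane:eq:defect`] -/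
theorem asq_defect : ∫⁻ x, ENNReal.ofReal (pncD x) ∂I.nu < ∞ := by
  obtain ⟨M, hM⟩ := asq_defect_trunc I
  set S : ℕ → Set (ℝ × ℝ) := fun n => {x : ℝ × ℝ | 1 / ((n : ℝ) + 1) < |x.1|} with hS
  have hSm : ∀ n, MeasurableSet (S n) := fun n => measurableSet_lt measurable_const measurable_fst.abs
  have hD : Measurable fun x => ENNReal.ofReal (pncD x) := pnc_D_measurable.ennreal_ofReal
  have h1 : ∀ n, ∫⁻ x in S n, ENNReal.ofReal (pncD x) ∂I.nu ≤ ENNReal.ofReal M := by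
    intro n
    have hpos : (0 : ℝ) < 1 / ((n : ℝ) + 1) := by positivity
    have hfin : I.nu (S n) < ∞ := (measure_mono fun x hx => (le_of_lt hx : 1 / ((n : ℝ) + 1) ≤ |x.1|)).trans_lt (asq_nu_far I hpos)
    have hint : IntegrableOn pncD (S n) I.nu := by
      refine Measure.integrableOn_of_bounded hfin.ne pnc_D_measurable.aestronglyMeasurable (M := 1) ?_
      filter_upwards [ae_restrict_of_ae (asq_ae_nu I)] with x hx
      rw [Real.norm_eq_abs, abs_of_nonneg (pnc_D_nonneg x)]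
      exact pnc_D_le_one hx.2
    rw [← ofReal_integral_eq_lintegral_ofReal hint (Eventually.of_forall pnc_D_nonneg)]
    exact ENNReal.ofReal_le_ofReal (hM _ hpos)
  have hmono : Monotone S := by
    intro n m hnm x hx
    have hx : 1 / ((n : ℝ) + 1) < |x.1| := hx
    show 1 / ((m : ℝ) + 1) < |x.1|
    refine lt_of_le_of_lt ?_ hx
    have : (n : ℝ) ≤ m := by exact_mod_cast hnm
    exact one_div_le_one_div_of_le (by positivity) (by linarith)
  have hU : ∀ᵐ x ∂I.nu, x ∈ ⋃ n, S n := by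
    filter_upwards [asq_ae_nu I] with x hx
    obtain ⟨n, hn⟩ := exists_nat_one_div_lt (abs_pos.2 hx.1)
    exact Set.mem_iUnion.2 ⟨n, hn⟩
  rw [← Measure.restrict_eq_self_of_ae_mem hU, setLIntegral_iUnion_of_directed _ (directed_of_isDirected_le hmono)]
  exact (iSup_le h1).trans_lt ENNReal.ofReal_lt_top

theorem asq_D_integrable : Integrable pncD I.nu := by
  refine ⟨pnc_D_measurable.aestronglyMeasurable, ?_⟩
  rw [hasFiniteIntegral_iff_norm]
  simpa only [Real.norm_eq_abs, abs_of_nonneg (pnc_D_nonneg _)] using asq_defect I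

/-- the defect of the small bands tends to zero -/
theorem asq_defect_small : Tendsto (fun r : ℝ => ∫ x in {x : ℝ × ℝ | |x.1| ≤ r}, pncD x ∂I.nu) (𝓝[>] 0) (𝓝 0) := by
  have hS : ∀ r : ℝ, MeasurableSet {x : ℝ × ℝ | |x.1| ≤ r} := fun r => measurableSet_le measurable_fst.abs measurable_const
  simp_rw [← integral_indicator (hS _)]
  suffices h : Tendsto (fun r : ℝ => ∫ x, Set.indicator {x : ℝ × ℝ | |x.1| ≤ r} pncD x ∂I.nu) (𝓝[>] 0) (𝓝 (∫ _, (0 : ℝ) ∂I.nu)) by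
    simpa using h
  refine tendsto_integral_filter_of_dominated_convergence pncD ?_ ?_ (asq_D_integrable I) ?_
  · exact Eventually.of_forall fun r => (pnc_D_measurable.indicator (hS r)).aestronglyMeasurable
  · refine Eventually.of_forall fun r => Eventually.of_forall fun x => ?_
    rw [Real.norm_eq_abs, abs_of_nonneg (Set.indicator_nonneg (fun y _ => pnc_D_nonneg y) x)]
    exact Set.indicator_le_self' (fun y _ => pnc_D_nonneg y) x
  · filter_upwards [asq_ae_nu I] with x hx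
    refine tendsto_const_nhds.congr' ?_
    have : ∀ᶠ r : ℝ in 𝓝[>] 0, r < |x.1| := nhdsWithin_le_nhds (Iio_mem_nhds (abs_pos.2 hx.1))
    filter_upwards [this] with r hr
    exact (Set.indicator_of_notMem (show x ∉ {x : ℝ × ℝ | |x.1| ≤ r} from not_le.2 hr) _).symm

/-- **bands**.      TEX[04-plane (4.14) `plane:eq:bands`]      (`D ≥ 1/9` off `s ∈ [r/2, 4r]`; there `Cauchy_s{|t| ≤ 2r} ≥ 1/(10π)`.) -/
theorem asq_bands : ∃ K1 : ℝ, ∀ r : ℝ, 0 < r → I.nu {x | r ≤ |x.1| ∧ |x.1| ≤ 2 * r} ≤ ENNReal.ofReal K1 := by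
  have := I.Efin
  set c1 : ℝ≥0∞ := (∫⁻ x, ENNReal.ofReal (pncD x) ∂I.nu) / ENNReal.ofReal (1 / 9) with hc1
  set c2 : ℝ≥0∞ := ((2 + 1 : ℕ) * ENNReal.ofReal I.K + I.E Set.univ) / ENNReal.ofReal (1 / (10 * π)) with hc2
  have hc1' : c1 ≠ ∞ := ENNReal.div_ne_top (asq_defect I).ne (by simp)
  have hc2' : c2 ≠ ∞ := by
    refine ENNReal.div_ne_top (ENNReal.add_ne_top.2 ⟨ENNReal.mul_ne_top (ENNReal.natCast_ne_top _) ENNReal.ofReal_ne_top, measure_ne_top _ _⟩) ?_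
    simp only [ne_eq, ENNReal.ofReal_eq_zero, not_le]
    positivity
  refine ⟨(c1 + c2).toReal, fun r hr => ?_⟩
  rw [ENNReal.ofReal_toReal (ENNReal.add_ne_top.2 ⟨hc1', hc2'⟩)]
  -- the two parts
  have hsub : ∀ᵐ x ∂I.nu, x ∈ {x : ℝ × ℝ | r ≤ |x.1| ∧ |x.1| ≤ 2 * r} →
      x ∈ {x : ℝ × ℝ | ENNReal.ofReal (1 / 9) ≤ ENNReal.ofReal (pncD x)} ∪
        {x : ℝ × ℝ | (r ≤ |x.1| ∧ |x.1| ≤ 2 * r) ∧ r / 2 ≤ x.2 ∧ x.2 ≤ 4 * r} := by
    filter_upwards [asq_ae_nu I] with x hx hB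
    by_cases h : x.2 < r / 2 ∨ 4 * r < x.2
    · exact Or.inl (ENNReal.ofReal_le_ofReal (pnq_D_ninth hr hB.1 hB.2 hx.2 h))
    · push Not at h
      exact Or.inr ⟨hB, h.1, h.2⟩
  refine (measure_mono_ae hsub).trans ((measure_union_le _ _).trans (add_le_add ?_ ?_))
  · exact meas_ge_le_lintegral_div pnc_D_measurable.ennreal_ofReal.aemeasurable (by simp) ENNReal.ofReal_ne_top
  · -- the box test
    have hA : MeasurableSet {y : ℝ × ℝ | (r ≤ |y.1| ∧ |y.1| ≤ 2 * r) ∧ |y.2| ≤ 2 * r} :=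
      (pnq_meas_band _ _).inter (measurableSet_le measurable_snd.abs measurable_const)
    have hB2 : MeasurableSet {x : ℝ × ℝ | (r ≤ |x.1| ∧ |x.1| ≤ 2 * r) ∧ r / 2 ≤ x.2 ∧ x.2 ≤ 4 * r} :=
      (pnq_meas_band _ _).inter ((measurableSet_le measurable_const measurable_snd).inter (measurableSet_le measurable_snd measurable_const))
    set G : ℝ × ℝ → ℝ≥0∞ := Set.indicator {y : ℝ × ℝ | (r ≤ |y.1| ∧ |y.1| ≤ 2 * r) ∧ |y.2| ≤ 2 * r} (fun _ => 1) with hG
    have hGm : Measurable G := measurable_const.indicator hA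
    have hmix := I.mix G hGm
    have hG1 : ∀ y, G y ≤ 1 := fun y => Set.indicator_le' (fun _ _ => le_rfl) (fun _ _ => zero_le) y
    -- lower bound of the left side
    have hlow : ENNReal.ofReal (1 / (10 * π)) * I.nu {x : ℝ × ℝ | (r ≤ |x.1| ∧ |x.1| ≤ 2 * r) ∧ r / 2 ≤ x.2 ∧ x.2 ≤ 4 * r} ≤ ∫⁻ x, pncP G x ∂I.nu := by
      rw [← setLIntegral_const, ← lintegral_indicator hB2]
      apply lintegral_mono
      intro x
      by_cases hx : (r ≤ |x.1| ∧ |x.1| ≤ 2 * r) ∧ r / 2 ≤ x.2 ∧ x.2 ≤ 4 * r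
      · rw [Set.indicator_of_mem (show x ∈ {x : ℝ × ℝ | (r ≤ |x.1| ∧ |x.1| ≤ 2 * r) ∧ r / 2 ≤ x.2 ∧ x.2 ≤ 4 * r} from hx)]
        unfold pncP
        rw [if_neg (by linarith [hx.2.1] : x.2 ≠ 0)]
        calc ENNReal.ofReal (1 / (10 * π)) = ENNReal.ofReal (1 / (40 * π * r)) * ENNReal.ofReal (4 * r) := by
              rw [← ENNReal.ofReal_mul (by positivity)]
              congr 1
              field_simp
              ring
          _ = ∫⁻ _ in Set.Icc (-(2 * r)) (2 * r), ENNReal.ofReal (1 / (40 * π * r)) := by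
              rw [setLIntegral_const, Real.volume_Icc]
              congr 2
              ring
          _ = ∫⁻ t, Set.indicator (Set.Icc (-(2 * r)) (2 * r)) (fun _ => ENNReal.ofReal (1 / (40 * π * r))) t :=
              (lintegral_indicator measurableSet_Icc _).symm
          _ ≤ ∫⁻ t, G (x.1, t) * ENNReal.ofReal (pncCd x.2 t) := by
              apply lintegral_mono
              intro t
              beta_reduce
              by_cases ht : t ∈ Set.Icc (-(2 * r)) (2 * r)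
              · rw [Set.indicator_of_mem ht, hG,
                  Set.indicator_of_mem (show (x.1, t) ∈ {y : ℝ × ℝ | (r ≤ |y.1| ∧ |y.1| ≤ 2 * r) ∧ |y.2| ≤ 2 * r} from ⟨hx.1, abs_le.2 ht⟩), one_mul]
                exact ENNReal.ofReal_le_ofReal (pnq_cd_lb hr hx.2.1 hx.2.2 (abs_le.2 ht))
              · rw [Set.indicator_of_notMem ht]
                exact zero_le
      · rw [Set.indicator_of_notMem (show x ∉ {x : ℝ × ℝ | (r ≤ |x.1| ∧ |x.1| ≤ 2 * r) ∧ r / 2 ≤ x.2 ∧ x.2 ≤ 4 * r} from hx)]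
        exact zero_le
    -- upper bound of the right side
    have hup1 : ∫⁻ p in {p : ℝ × ℝ | p.1 ≠ 0}, G (asqCh I.d p) ∂I.C0 ≤ (2 + 1 : ℕ) * ENNReal.ofReal I.K := by
      refine le_trans ?_ (asq_shell_pow I hr 2)
      rw [← lintegral_indicator_one (pnc_meas_shell _ _)]
      refine (setLIntegral_le_lintegral _ _).trans (lintegral_mono_ae ?_)
      filter_upwards [asq_ae_disc I] with p hp
      by_cases hq : (r ≤ |(asqCh I.d p).1| ∧ |(asqCh I.d p).1| ≤ 2 * r) ∧ |(asqCh I.d p).2| ≤ 2 * r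
      · have hp2 : |p.2| ≤ 2 * r := le_trans (asq_lt_ge I (le_trans (pnc_abs_snd_le p) (le_trans hp.2.le I.r0_le))) hq.2
        have hmem : p ∈ {p : ℝ × ℝ | r ≤ pncN p ∧ pncN p ≤ r * 2 ^ 2} := by
          refine ⟨le_trans hq.1.1 (pnc_abs_fst_le p), le_trans (pnq_N_le_add p) ?_⟩
          have : |p.1| ≤ 2 * r := hq.1.2
          linarith
        rw [Set.indicator_of_mem hmem]
        exact hG1 _
      · rw [hG, Set.indicator_of_notMem (show asqCh I.d p ∉ {y : ℝ × ℝ | (r ≤ |y.1| ∧ |y.1| ≤ 2 * r) ∧ |y.2| ≤ 2 * r} from hq)]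
        exact zero_le
    have hup2 : ∫⁻ x, G x ∂I.E ≤ I.E Set.univ := by
      calc ∫⁻ x, G x ∂I.E ≤ ∫⁻ _, 1 ∂I.E := lintegral_mono hG1
        _ = I.E Set.univ := by simp
    rw [hc2, ENNReal.le_div_iff_mul_le (Or.inl (by
      simp only [ne_eq, ENNReal.ofReal_eq_zero, not_le]
      positivity)) (Or.inl ENNReal.ofReal_ne_top), mul_comm]
    calc _ ≤ ∫⁻ x, pncP G x ∂I.nu := hlow
      _ = _ := hmix
      _ ≤ _ := add_le_add hup1 hup2

theorem asr_bands_pow {K1 : ℝ} (hK : ∀ r : ℝ, 0 < r → I.nu {x | r ≤ |x.1| ∧ |x.1| ≤ 2 * r} ≤ ENNReal.ofReal K1) {a : ℝ} (ha : 0 < a) (n : ℕ) :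
    I.nu {x | a ≤ |x.1| ∧ |x.1| ≤ a * 2 ^ n} ≤ (n + 1 : ℕ) * ENNReal.ofReal K1 := by
  induction n with
  | zero =>
    simp only [pow_zero, mul_one, zero_add, Nat.cast_one, one_mul]
    refine (measure_mono fun p hp => ?_).trans (hK a ha)
    exact ⟨hp.1, hp.2.trans (by linarith)⟩
  | succ n ih =>
    have hsub : {x : ℝ × ℝ | a ≤ |x.1| ∧ |x.1| ≤ a * 2 ^ (n + 1)} ⊆ {x | a ≤ |x.1| ∧ |x.1| ≤ a * 2 ^ n}
        ∪ {x | a * 2 ^ n ≤ |x.1| ∧ |x.1| ≤ 2 * (a * 2 ^ n)} := by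
      intro p hp
      by_cases h : |p.1| ≤ a * 2 ^ n
      · exact Or.inl ⟨hp.1, h⟩
      · exact Or.inr ⟨(not_le.1 h).le, hp.2.trans (le_of_eq (by ring))⟩
    refine (measure_mono hsub).trans ((measure_union_le _ _).trans ?_)
    have := hK (a * 2 ^ n) (by positivity)
    calc _ ≤ (n + 1 : ℕ) * ENNReal.ofReal K1 + ENNReal.ofReal K1 := add_le_add ih this
      _ = ((n + 1 + 1 : ℕ) : ℝ≥0∞) * ENNReal.ofReal K1 := by push_cast; ring

/-- bands of bounded ratio, uniformly in the scale -/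
theorem asq_bands' {α β : ℝ} (hα : 0 < α) : ∃ M : ℝ, ∀ δ : ℝ, 0 < δ → I.nu {x | α * δ ≤ |x.1| ∧ |x.1| ≤ β * δ} ≤ ENNReal.ofReal M := by
  obtain ⟨K1, hK⟩ := asq_bands I
  obtain ⟨n, hn⟩ := pow_unbounded_of_one_lt (β / α) (one_lt_two : (1 : ℝ) < 2)
  refine ⟨(n + 1 : ℕ) * max K1 0, fun δ hδ => ?_⟩
  have h1 : {x : ℝ × ℝ | α * δ ≤ |x.1| ∧ |x.1| ≤ β * δ} ⊆ {x | α * δ ≤ |x.1| ∧ |x.1| ≤ α * δ * 2 ^ n} := by
    intro p hp
    refine ⟨hp.1, hp.2.trans ?_⟩
    rw [div_lt_iff₀ hα] at hn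
    nlinarith
  refine (measure_mono h1).trans ((asr_bands_pow I hK (by positivity) n).trans ?_)
  rw [ENNReal.ofReal_mul (by positivity), ENNReal.ofReal_natCast]
  gcongr
  exact le_max_left _ _

/-! ### D. endcaps -/

/-- geometry of the cap seen in the other frame.      TEX[04-spectral, proof of lem:spectral-endcap] -/
theorem asq_ec_geo {q : ℝ × ℝ} {b h : ℝ} (hh : 0 < h) (hb : h < b / 10) (h1 : b < pncN q) (h2 : pncN q ≤ 2 * b)
    (h3 : |(asqR q).1| ≤ h) : 0.6 * b ≤ |q.1| ∧ |q.1| ≤ 1.5 * b ∧ 0.6 * b ≤ |q.2| := by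
  obtain ⟨s1, s2⟩ := asq_sqrt2_bd
  have hs0 := asq_sqrt2_pos
  have hb0 : 0 < b := by linarith
  set u := (asqR q).1 with hu
  set v := (asqR q).2 with hv
  have hQ : u ^ 2 + v ^ 2 = pncN q ^ 2 := by
    rw [pnc_N_sq, ← asq_Q_R q]; rfl
  have e := asq_RI_R q
  have e1 : Real.sqrt 2 * q.1 = u - v := by
    have : q.1 = (u - v) / Real.sqrt 2 := by
      conv_lhs => rw [← e]
      rfl
    rw [this]; field_simp
  have e2 : Real.sqrt 2 * q.2 = u + v := by
    have : q.2 = (u + v) / Real.sqrt 2 := by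
      conv_lhs => rw [← e]
      rfl
    rw [this]; field_simp
  have hu2 : u ^ 2 ≤ h ^ 2 := by
    rw [← sq_abs u]; exact pow_le_pow_left₀ (abs_nonneg _) h3 2
  have hv1 : 0.99 * b ≤ |v| := by
    have : (0.99 * b) ^ 2 ≤ v ^ 2 := by nlinarith
    have := sq_le_sq.1 this
    rwa [abs_of_pos (by positivity)] at this
  have hv2 : |v| ≤ 2 * b := by
    have : v ^ 2 ≤ (2 * b) ^ 2 := by nlinarith [sq_nonneg u, pnc_N_nonneg q]
    have := sq_le_sq.1 this
    rwa [abs_of_pos (by positivity : (0 : ℝ) < 2 * b)] at this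
  have a1 : Real.sqrt 2 * |q.1| = |u - v| := by rw [← e1, abs_mul, abs_of_pos hs0]
  have a2 : Real.sqrt 2 * |q.2| = |u + v| := by rw [← e2, abs_mul, abs_of_pos hs0]
  have c1 : |v| - |u| ≤ |u - v| := by
    rw [abs_sub_comm u v]; exact abs_sub_abs_le_abs_sub v u
  have c2 : |u - v| ≤ |u| + |v| := abs_sub u v
  have c3 : |v| - |u| ≤ |u + v| := by
    have := abs_sub_abs_le_abs_sub v (-u)
    rwa [abs_neg, sub_neg_eq_add, add_comm v u] at this
  have hq1 := abs_nonneg q.1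
  have hq2 := abs_nonneg q.2
  refine ⟨?_, ?_, ?_⟩
  · nlinarith
  · nlinarith
  · nlinarith

/-- **endcaps**.      TEX[04-spectral lem:spectral-endcap]      See the cap in the other frame (`asq_rot_measure`): there `0.6 b ≤ |k'| ≤ 1.5 b`, `0.6 b ≤ |l'|`,
and at fixed `k'` the section in `l'` is an interval of length `2√2 h`; its image by the Cayley map has length `≤ 4√2 h`; the Cauchy density is `≤ 1/(1.2 π b)` (`pnc_cd_le`), the atom `s = 0` misses it;
`mix` of the other frame (inequality, `E ≥ 0`) + `asq_bands` of the other frame. -/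
theorem asq_endcaps : ∃ K3 : ℝ, ∀ b h : ℝ, 0 < h → h < b / 10 →
    I.C0 {p | b < pncN p ∧ pncN p ≤ 2 * b ∧ |p.1| ≤ h} ≤ ENNReal.ofReal (K3 * h / b) := by
  set J : AsqIn := I.swap with hJ
  obtain ⟨K1, hK1⟩ := asq_bands J
  obtain ⟨s1, s2⟩ := asq_sqrt2_bd
  have hs0 : (0 : ℝ) < Real.sqrt 2 := asq_sqrt2_pos
  refine ⟨4 * max K1 0, fun b h hh hb => ?_⟩
  have hb0 : 0 < b := by linarith
  by_cases hbig : 1 / 4 ≤ b
  · have : I.C0 {p | b < pncN p ∧ pncN p ≤ 2 * b ∧ |p.1| ≤ h} = 0 := by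
      rw [measure_eq_zero_iff_ae_notMem]
      filter_upwards [asq_ae_disc I] with p hp hmem
      have := I.r0_le4
      have h1 : b < pncN p := hmem.1
      linarith [hp.2]
    rw [this]; exact zero_le
  have hb2 : b < 1 / 4 := not_lt.1 (fun h => hbig h.le) |>.lt_of_ne (fun h => hbig h.ge)
  have hcapm : MeasurableSet {p : ℝ × ℝ | b < pncN p ∧ pncN p ≤ 2 * b ∧ |p.1| ≤ h} :=
    (measurableSet_lt measurable_const pnc_N_continuous.measurable).inter
      ((measurableSet_le pnc_N_continuous.measurable measurable_const).inter (measurableSet_le measurable_fst.abs measurable_const))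
  have hrot : I.C0 {p | b < pncN p ∧ pncN p ≤ 2 * b ∧ |p.1| ≤ h} = J.C0 (asqR ⁻¹' {p | b < pncN p ∧ pncN p ≤ 2 * b ∧ |p.1| ≤ h}) :=
    (asq_rot_measure J hcapm).symm
  rw [hrot]
  set lm : ℝ → ℝ := fun k => asqLt J.d (-k - Real.sqrt 2 * h) with hlm
  set lp : ℝ → ℝ := fun k => asqLt J.d (-k + Real.sqrt 2 * h) with hlp
  have hlmm : Measurable lm := (asq_lt_measurable J.d).comp (by fun_prop)
  have hlpm : Measurable lp := (asq_lt_measurable J.d).comp (by fun_prop)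
  set T : Set (ℝ × ℝ) := {x | 0.6 * b ≤ |x.1| ∧ |x.1| ≤ 1.5 * b ∧ 0.6 * b ≤ |x.2| ∧ lm x.1 ≤ x.2 ∧ x.2 ≤ lp x.1} with hT
  have hTm : MeasurableSet T :=
    (measurableSet_le measurable_const measurable_fst.abs).inter ((measurableSet_le measurable_fst.abs measurable_const).inter
      ((measurableSet_le measurable_const measurable_snd.abs).inter
        ((measurableSet_le (hlmm.comp measurable_fst) measurable_snd).inter (measurableSet_le measurable_snd (hlpm.comp measurable_fst)))))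
  have hkm : MeasurableSet {p : ℝ × ℝ | p.1 ≠ 0} := (measurableSet_eq_fun measurable_fst measurable_const).compl
  have hbd : ∀ k : ℝ, |k| ≤ 1.5 * b → |-k - Real.sqrt 2 * h| ≤ 0.6 ∧ |-k + Real.sqrt 2 * h| ≤ 0.6 := by
    intro k hk
    have := abs_le.1 hk
    constructor
    · rw [abs_le]
      constructor <;> nlinarith
    · rw [abs_le]
      constructor <;> nlinarith
  -- step 1
  have st1 : J.C0 (asqR ⁻¹' {p | b < pncN p ∧ pncN p ≤ 2 * b ∧ |p.1| ≤ h}) ≤ J.C0 (asqCh J.d ⁻¹' T ∩ {p : ℝ × ℝ | p.1 ≠ 0}) := by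
    refine measure_mono_ae ?_
    filter_upwards [asq_ae_disc J] with q hq hmem
    obtain ⟨m1, m2, m3⟩ : b < pncN (asqR q) ∧ pncN (asqR q) ≤ 2 * b ∧ |(asqR q).1| ≤ h := hmem
    rw [asq_N_R] at m1 m2
    obtain ⟨g1, g2, g3⟩ := asq_ec_geo hh hb m1 m2 m3
    have hq2 : |q.2| ≤ 1 / 2 := (pnc_abs_snd_le q).trans (hq.2.le.trans J.r0_le)
    have hq1 : q.1 ≠ 0 := by
      intro h0
      rw [h0, abs_zero] at g1
      linarith
    obtain ⟨d1, d2⟩ := hbd q.1 g2
    have m3' := abs_le.1 m3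
    have er : (asqR q).1 = (q.1 + q.2) / Real.sqrt 2 := rfl
    rw [er] at m3'
    have o1 : -q.1 - Real.sqrt 2 * h ≤ q.2 := by
      have := m3'.1
      rw [le_div_iff₀ hs0] at this
      linarith
    have o2 : q.2 ≤ -q.1 + Real.sqrt 2 * h := by
      have := m3'.2
      rw [div_le_iff₀ hs0] at this
      linarith
    have hq2' : |q.2| ≤ 0.6 := hq2.trans (by norm_num)
    refine ⟨⟨g1, g2, g3.trans (asq_lt_ge J hq2), (asq_lt_lip J o1 d1 hq2').1, (asq_lt_lip J o2 hq2' d2).1⟩, hq1⟩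
  -- step 2
  have hGm : Measurable (Set.indicator T fun _ => (1 : ℝ≥0∞)) := measurable_const.indicator hTm
  have st2 : J.C0 (asqCh J.d ⁻¹' T ∩ {p : ℝ × ℝ | p.1 ≠ 0}) ≤ ∫⁻ x, pncP (Set.indicator T fun _ => 1) x ∂J.nu := by
    rw [J.mix _ hGm]
    refine le_trans (le_of_eq ?_) le_self_add
    have : (fun p => Set.indicator T (fun _ => (1 : ℝ≥0∞)) (asqCh J.d p)) = Set.indicator (asqCh J.d ⁻¹' T) fun _ => 1 := by
      funext p
      by_cases hp : asqCh J.d p ∈ T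
      · rw [Set.indicator_of_mem hp, Set.indicator_of_mem (show p ∈ asqCh J.d ⁻¹' T from hp)]
      · rw [Set.indicator_of_notMem hp, Set.indicator_of_notMem (show p ∉ asqCh J.d ⁻¹' T from hp)]
    rw [this, lintegral_indicator ((asq_ch_measurable J.d) hTm), setLIntegral_const, one_mul, Measure.restrict_apply ((asq_ch_measurable J.d) hTm)]
  -- step 3
  set Bd : Set (ℝ × ℝ) := {x | 0.6 * b ≤ |x.1| ∧ |x.1| ≤ 1.5 * b} with hBd
  have hBdm : MeasurableSet Bd := (measurableSet_le measurable_const measurable_fst.abs).inter (measurableSet_le measurable_fst.abs measurable_const)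
  have st3 : ∀ x : ℝ × ℝ, 0 ≤ x.2 → pncP (Set.indicator T fun _ => 1) x ≤ Set.indicator Bd (fun _ => ENNReal.ofReal (2 * h / b)) x := by
    intro x hx
    unfold pncP
    split_ifs with h0
    · rw [Set.indicator_of_notMem (show (x.1, (0 : ℝ)) ∉ T from fun hm => by
        have : 0.6 * b ≤ |(0 : ℝ)| := hm.2.2.1
        rw [abs_zero] at this; linarith)]
      exact zero_le
    · by_cases hxB : x ∈ Bd
      · rw [Set.indicator_of_mem hxB]
        have hle : ∀ t, Set.indicator T (fun _ => (1 : ℝ≥0∞)) (x.1, t) * ENNReal.ofReal (pncCd x.2 t)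
            ≤ Set.indicator (Set.Icc (lm x.1) (lp x.1)) (fun _ => ENNReal.ofReal (1 / (1.2 * π * b))) t := by
          intro t
          by_cases ht : (x.1, t) ∈ T
          · rw [Set.indicator_of_mem ht, one_mul, Set.indicator_of_mem (show t ∈ Set.Icc (lm x.1) (lp x.1) from ⟨ht.2.2.2.1, ht.2.2.2.2⟩)]
            refine ENNReal.ofReal_le_ofReal ?_
            have ht3 : 0.6 * b ≤ |t| := ht.2.2.1
            have ht0 : t ≠ 0 := by
              intro h0; rw [h0, abs_zero] at ht3; linarith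
            refine (pnc_cd_le hx ht0).trans ?_
            apply one_div_le_one_div_of_le (by positivity)
            have := Real.pi_pos
            nlinarith
          · rw [Set.indicator_of_notMem ht, zero_mul]; exact zero_le
        refine (lintegral_mono hle).trans ?_
        rw [lintegral_indicator measurableSet_Icc, setLIntegral_const, Real.volume_Icc, ← ENNReal.ofReal_mul (by positivity)]
        refine ENNReal.ofReal_le_ofReal ?_
        obtain ⟨d1, d2⟩ := hbd x.1 hxB.2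
        have hl := (asq_lt_lip J (l1 := -x.1 - Real.sqrt 2 * h) (l2 := -x.1 + Real.sqrt 2 * h)
          (by nlinarith) d1 d2).2
        have e : (-x.1 + Real.sqrt 2 * h) - (-x.1 - Real.sqrt 2 * h) = 2 * Real.sqrt 2 * h := by ring
        rw [e] at hl
        have hl2 : lp x.1 - lm x.1 ≤ 5.66 * h := by
          refine hl.trans ?_
          nlinarith
        have hπ := Real.pi_gt_three
        calc 1 / (1.2 * π * b) * (lp x.1 - lm x.1) ≤ 1 / (1.2 * π * b) * (5.66 * h) := by gcongr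
          _ ≤ 2 * h / b := by
              rw [div_mul_eq_mul_div, one_mul, div_le_div_iff₀ (by positivity) hb0]
              nlinarith [mul_pos hh hb0]
      · rw [Set.indicator_of_notMem hxB]
        have : ∀ t, Set.indicator T (fun _ => (1 : ℝ≥0∞)) (x.1, t) * ENNReal.ofReal (pncCd x.2 t) = 0 := by
          intro t
          rw [Set.indicator_of_notMem (show (x.1, t) ∉ T from fun hm => hxB ⟨hm.1, hm.2.1⟩), zero_mul]
        simp only [this, lintegral_zero, le_refl]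
  -- step 4
  have st4 : ∫⁻ x, pncP (Set.indicator T fun _ => 1) x ∂J.nu ≤ ENNReal.ofReal (2 * h / b) * (2 * ENNReal.ofReal K1) := by
    calc ∫⁻ x, pncP (Set.indicator T fun _ => 1) x ∂J.nu ≤ ∫⁻ x, Set.indicator Bd (fun _ => ENNReal.ofReal (2 * h / b)) x ∂J.nu := by
          refine lintegral_mono_ae ?_
          filter_upwards [asq_ae_nu J] with x hx using st3 x hx.2
      _ = ENNReal.ofReal (2 * h / b) * J.nu Bd := by rw [lintegral_indicator hBdm, setLIntegral_const]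
      _ ≤ ENNReal.ofReal (2 * h / b) * (2 * ENNReal.ofReal K1) := by
          gcongr
          have hsub : Bd ⊆ {x | 0.6 * b ≤ |x.1| ∧ |x.1| ≤ 2 * (0.6 * b)} ∪ {x | 1.2 * b ≤ |x.1| ∧ |x.1| ≤ 2 * (1.2 * b)} := by
            intro x hx
            by_cases hc : |x.1| ≤ 1.2 * b
            · exact Or.inl ⟨hx.1, hc.trans (le_of_eq (by ring))⟩
            · exact Or.inr ⟨(not_le.1 hc).le, hx.2.trans (by linarith)⟩
          refine (measure_mono hsub).trans ((measure_union_le _ _).trans ?_)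
          rw [two_mul (ENNReal.ofReal K1)]
          exact add_le_add (hK1 _ (by positivity)) (hK1 _ (by positivity))
  refine st1.trans (st2.trans (st4.trans (le_of_eq ?_)))
  rw [show (2 : ℝ≥0∞) = ENNReal.ofReal 2 by simp, ← ENNReal.ofReal_mul (by norm_num), ← ENNReal.ofReal_mul (by positivity)]
  rcases le_total 0 K1 with hK | hK
  · rw [max_eq_left hK]; congr 1; ring
  · rw [max_eq_right hK, ENNReal.ofReal_of_nonpos (by
      have : 0 ≤ 2 * h / b := by positivity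
      nlinarith)]
    simp

/-- finite dyadic sum of the endcaps, mass -/
theorem asr_caps_pow {K3 : ℝ} (hK0 : 0 ≤ K3) (hK : ∀ b h : ℝ, 0 < h → h < b / 10 →
    I.C0 {p | b < pncN p ∧ pncN p ≤ 2 * b ∧ |p.1| ≤ h} ≤ ENNReal.ofReal (K3 * h / b)) {h : ℝ} (hh : 0 < h) (n : ℕ) :
    ∀ b : ℝ, h < b / 10 → I.C0 {p | b < pncN p ∧ pncN p ≤ b * 2 ^ n ∧ |p.1| ≤ h} ≤ ENNReal.ofReal (K3 * h / b * (2 - 2 / 2 ^ n)) := by
  induction n with
  | zero =>
    intro b _
    have : {p : ℝ × ℝ | b < pncN p ∧ pncN p ≤ b * 2 ^ 0 ∧ |p.1| ≤ h} = ∅ := by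
      ext p
      simp only [pow_zero, mul_one, Set.mem_ofPred_eq, Set.mem_empty_iff_false, iff_false, not_and]
      intro h1 h2
      linarith
    rw [this, measure_empty]
    exact zero_le
  | succ n ih =>
    intro b hb
    have hb0 : 0 < b := by linarith
    refine (measure_mono (pnq_cap_split b h n)).trans ((measure_union_le _ _).trans ?_)
    refine (add_le_add (hK b h hh hb) (ih (2 * b) (by linarith))).trans ?_
    rw [← ENNReal.ofReal_add (by positivity) (mul_nonneg (by positivity) (pnq_two_sub_nonneg n))]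
    apply ENNReal.ofReal_le_ofReal
    apply le_of_eq
    rw [pow_succ]
    field_simp
    ring

/-- finite dyadic sum of the endcaps, weighted by `|p/δ|²` -/
theorem asr_strip_pow {K3 : ℝ} (hK0 : 0 ≤ K3) (hK : ∀ b h : ℝ, 0 < h → h < b / 10 →
    I.C0 {p | b < pncN p ∧ pncN p ≤ 2 * b ∧ |p.1| ≤ h} ≤ ENNReal.ofReal (K3 * h / b)) {h δ : ℝ} (hh : 0 < h) (hδ : 0 < δ) (n : ℕ) :
    ∀ b : ℝ, h < b / 10 → ∫⁻ p in {p | b < pncN p ∧ pncN p ≤ b * 2 ^ n ∧ |p.1| ≤ h}, ENNReal.ofReal (pncQ (pncSc δ p)) ∂I.C0 ≤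
      ENNReal.ofReal (4 * K3 * h * b * (2 ^ n - 1) / δ ^ 2) := by
  induction n with
  | zero =>
    intro b _
    have : {p : ℝ × ℝ | b < pncN p ∧ pncN p ≤ b * 2 ^ 0 ∧ |p.1| ≤ h} = ∅ := by
      ext p
      simp only [pow_zero, mul_one, Set.mem_ofPred_eq, Set.mem_empty_iff_false, iff_false, not_and]
      intro h1 h2
      linarith
    rw [this, Measure.restrict_empty, lintegral_zero_measure]
    exact zero_le
  | succ n ih =>
    intro b hb
    have hb0 : 0 < b := by linarith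
    have h2n : (1 : ℝ) ≤ 2 ^ n := one_le_pow₀ (by norm_num)
    refine (lintegral_mono_set (pnq_cap_split b h n)).trans ((lintegral_union_le _ _ _).trans ?_)
    have h1 : ∫⁻ p in {p | b < pncN p ∧ pncN p ≤ 2 * b ∧ |p.1| ≤ h}, ENNReal.ofReal (pncQ (pncSc δ p)) ∂I.C0 ≤ ENNReal.ofReal (4 * K3 * h * b / δ ^ 2) := by
      calc _ ≤ ∫⁻ _ in {p | b < pncN p ∧ pncN p ≤ 2 * b ∧ |p.1| ≤ h}, ENNReal.ofReal ((2 * b) ^ 2 / δ ^ 2) ∂I.C0 := by
            refine setLIntegral_mono' (pnq_meas_cap _ _ _) fun p hp => ENNReal.ofReal_le_ofReal ?_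
            rw [pnc_Q_sc, ← pnc_N_sq]
            exact div_le_div_of_nonneg_right (pow_le_pow_left₀ (pnc_N_nonneg p) hp.2.1 2) (by positivity)
        _ = ENNReal.ofReal ((2 * b) ^ 2 / δ ^ 2) * I.C0 {p | b < pncN p ∧ pncN p ≤ 2 * b ∧ |p.1| ≤ h} := setLIntegral_const _ _
        _ ≤ ENNReal.ofReal ((2 * b) ^ 2 / δ ^ 2) * ENNReal.ofReal (K3 * h / b) := mul_le_mul_right (hK b h hh hb) _
        _ = ENNReal.ofReal (4 * K3 * h * b / δ ^ 2) := by
            rw [← ENNReal.ofReal_mul (by positivity)]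
            congr 1
            field_simp
            ring
    refine (add_le_add h1 (ih (2 * b) (by linarith))).trans ?_
    rw [← ENNReal.ofReal_add (by positivity) (div_nonneg (mul_nonneg (by positivity) (by linarith)) (by positivity))]
    apply ENNReal.ofReal_le_ofReal
    apply le_of_eq
    rw [pow_succ]
    field_simp
    ring

theorem asr_endcaps_pos : ∃ K3 : ℝ, 0 ≤ K3 ∧ ∀ b h : ℝ, 0 < h → h < b / 10 →
    I.C0 {p | b < pncN p ∧ pncN p ≤ 2 * b ∧ |p.1| ≤ h} ≤ ENNReal.ofReal (K3 * h / b) := by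
  obtain ⟨K3, hK⟩ := asq_endcaps I
  refine ⟨max K3 0, le_max_right _ _, fun b h hh hb => (hK b h hh hb).trans (ENNReal.ofReal_le_ofReal ?_)⟩
  have hb0 : 0 < b := by linarith
  apply div_le_div_of_nonneg_right _ hb0.le
  exact mul_le_mul_of_nonneg_right (le_max_left _ _) hh.le

/-- the thin strip at scale `δ`, weighted by `|p/δ|²` (ball `|p| ≤ 11 hδ` by `asq_ball_Q`, dyadic annuli above by `asq_endcaps`) -/
theorem asq_strip : ∃ K4 : ℝ, ∀ R h δ : ℝ, 1 ≤ R → 0 < h → h ≤ 1 → 0 < δ →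
    ∫⁻ p in {p : ℝ × ℝ | |p.1| ≤ h * δ ∧ pncN p ≤ R * δ}, ENNReal.ofReal (pncQ (pncSc δ p)) ∂I.C0 ≤ ENNReal.ofReal (K4 * R * h) := by
  obtain ⟨K3, hK0, hK⟩ := asr_endcaps_pos I
  refine ⟨242 * max I.K 0 + 96 * K3, fun R h δ hR hh hh1 hδ => ?_⟩
  have hK' : 0 ≤ max I.K 0 := le_max_right _ _
  have hb0 : 0 < 11 * (h * δ) := by positivity
  obtain ⟨m, hm1, hm2⟩ := exists_nat_pow_near (x := max 1 (R / (11 * h))) (y := 2) (le_max_left _ _) (by norm_num)
  have hsub : {p : ℝ × ℝ | |p.1| ≤ h * δ ∧ pncN p ≤ R * δ} ⊆ {p | pncN p ≤ 11 * (h * δ)} ∪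
      {p | 11 * (h * δ) < pncN p ∧ pncN p ≤ 11 * (h * δ) * 2 ^ (m + 1) ∧ |p.1| ≤ h * δ} := by
    intro p hp
    by_cases h1 : pncN p ≤ 11 * (h * δ)
    · exact Or.inl h1
    · refine Or.inr ⟨not_le.1 h1, hp.2.trans ?_, hp.1⟩
      have h2 : R / (11 * h) < 2 ^ (m + 1) := lt_of_le_of_lt (le_max_right _ _) hm2
      rw [div_lt_iff₀ (by positivity)] at h2
      nlinarith
  refine (lintegral_mono_set hsub).trans ((lintegral_union_le _ _ _).trans ?_)
  have h1 : ∫⁻ p in {p | pncN p ≤ 11 * (h * δ)}, ENNReal.ofReal (pncQ (pncSc δ p)) ∂I.C0 ≤ ENNReal.ofReal (242 * max I.K 0 * R * h) := by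
    have e : ∀ p, ENNReal.ofReal (pncQ (pncSc δ p)) = ENNReal.ofReal (1 / δ ^ 2) * ENNReal.ofReal (pncQ p) := by
      intro p
      rw [← ENNReal.ofReal_mul (by positivity), pnc_Q_sc]
      congr 1
      ring
    simp_rw [e]
    rw [lintegral_const_mul' _ _ ENNReal.ofReal_ne_top]
    refine (mul_le_mul_right (asq_ball_Q I hb0) _).trans ?_
    rw [← ENNReal.ofReal_mul (by positivity)]
    apply ENNReal.ofReal_le_ofReal
    have e2 : 1 / δ ^ 2 * (2 * I.K * (11 * (h * δ)) ^ 2) = 242 * I.K * h ^ 2 := by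
      field_simp
      ring
    rw [e2]
    have h3 : h ^ 2 ≤ R * h := by nlinarith
    have h4 : I.K ≤ max I.K 0 := le_max_left _ _
    calc 242 * I.K * h ^ 2 ≤ 242 * max I.K 0 * h ^ 2 := by
          apply mul_le_mul_of_nonneg_right _ (by positivity)
          linarith
      _ ≤ 242 * max I.K 0 * (R * h) := mul_le_mul_of_nonneg_left h3 (by positivity)
      _ = 242 * max I.K 0 * R * h := by ring
  have h2 := asr_strip_pow I hK0 hK (h := h * δ) (δ := δ) (by positivity) hδ (m + 1) (11 * (h * δ)) (by linarith [mul_pos hh hδ])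
  have h3 : 4 * K3 * (h * δ) * (11 * (h * δ)) * (2 ^ (m + 1) - 1) / δ ^ 2 ≤ 96 * K3 * R * h := by
    have e3 : 4 * K3 * (h * δ) * (11 * (h * δ)) * (2 ^ (m + 1) - 1) / δ ^ 2 = 4 * K3 * h * (11 * h * (2 ^ (m + 1) - 1)) := by
      field_simp
    rw [e3]
    have h5 : 11 * h * (2 : ℝ) ^ m ≤ 12 * R := by
      have h6 : (2 : ℝ) ^ m ≤ 1 + R / (11 * h) := by
        refine hm1.trans (max_le (by have : 0 ≤ R / (11 * h) := by positivity
                                     linarith) (by linarith))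
      have h7 : 11 * h * (1 + R / (11 * h)) = 11 * h + R := by
        field_simp
      have h8 : 11 * h * (2 : ℝ) ^ m ≤ 11 * h * (1 + R / (11 * h)) := mul_le_mul_of_nonneg_left h6 (by positivity)
      rw [h7] at h8
      linarith
    have h9 : 11 * h * ((2 : ℝ) ^ (m + 1) - 1) ≤ 24 * R := by
      rw [pow_succ]
      nlinarith
    calc 4 * K3 * h * (11 * h * (2 ^ (m + 1) - 1)) ≤ 4 * K3 * h * (24 * R) := mul_le_mul_of_nonneg_left h9 (by positivity)
      _ = 96 * K3 * R * h := by ring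
  refine (add_le_add h1 (h2.trans (ENNReal.ofReal_le_ofReal h3))).trans ?_
  rw [← ENNReal.ofReal_add (by positivity) (by positivity)]
  apply ENNReal.ofReal_le_ofReal
  apply le_of_eq
  ring

/-- the far part of the strip `|k| ≤ h` (dyadic sum of `asq_endcaps`).      TEX[04-plane l.640-646] -/
theorem asq_cap_tail : ∃ K5 : ℝ, ∀ R h : ℝ, 20 < R → 0 < h → I.C0 {p | R * h ≤ pncN p ∧ |p.1| ≤ h} ≤ ENNReal.ofReal (K5 / R) := by
  obtain ⟨K3, hK0, hK⟩ := asr_endcaps_pos I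
  refine ⟨4 * K3, fun R h hR hh => ?_⟩
  have hb0 : 0 < R * h / 2 := by positivity
  obtain ⟨n, hn⟩ := pow_unbounded_of_one_lt (1 / 2 / (R * h / 2)) (one_lt_two : (1 : ℝ) < 2)
  have h1 : I.C0 {p | R * h ≤ pncN p ∧ |p.1| ≤ h} ≤ I.C0 {p | R * h / 2 < pncN p ∧ pncN p ≤ R * h / 2 * 2 ^ n ∧ |p.1| ≤ h} := by
    refine measure_mono_ae ?_
    filter_upwards [asq_ae_disc I] with p hp hmem
    refine ⟨lt_of_lt_of_le (by linarith) hmem.1, ?_, hmem.2⟩
    rw [div_lt_iff₀ hb0] at hn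
    linarith [hp.2, I.r0_le]
  refine h1.trans ((asr_caps_pow I hK0 hK hh n (R * h / 2) (by nlinarith)).trans (ENNReal.ofReal_le_ofReal ?_))
  have h2 : (0 : ℝ) ≤ 2 / 2 ^ n := by positivity
  calc K3 * h / (R * h / 2) * (2 - 2 / 2 ^ n) ≤ K3 * h / (R * h / 2) * 2 := mul_le_mul_of_nonneg_left (by linarith) (by positivity)
    _ = 4 * K3 / R := by
        field_simp
        ring


theorem asr_band_lt_top {α : ℝ} (hα : 0 < α) (β : ℝ) : I.nu {x : ℝ × ℝ | α ≤ |x.1| ∧ |x.1| ≤ β} < ∞ :=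
  lt_of_le_of_lt (measure_mono fun _ hx => hx.1) (asq_nu_far I hα)

theorem asq_Nn_integrable {a : ℝ → ℝ} (ha : PncT1 a) {δ : ℝ} (hδ : 0 < δ) : Integrable (fun x : ℝ × ℝ => a (x.1 / δ) * (|x.1| / δ)) I.nu := by
  obtain ⟨M, R, hM, hR1, hb, hR⟩ := pnq_cs_bound1 ha.cont ha.cs
  obtain ⟨α, hα, h0⟩ := ha.off
  refine Integrable.mono' (g := Set.indicator {x : ℝ × ℝ | α * δ ≤ |x.1| ∧ |x.1| ≤ R * δ} (fun _ => M * R)) ?_ ?_
    (Eventually.of_forall (pnq_Nn_bound hM hb hR h0 hδ))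
  · rw [integrable_indicator_iff (pnq_band_measurable _ _)]
    exact integrableOn_const (asr_band_lt_top I (mul_pos hα hδ) _).ne
  · have : Continuous fun x : ℝ × ℝ => a (x.1 / δ) * (|x.1| / δ) := by
      have := ha.cont
      fun_prop
    exact this.aestronglyMeasurable

/-- `N_δ a` is bounded uniformly in `δ` (`asq_bands'`) -/
theorem asq_Nn_bdd {a : ℝ → ℝ} (ha : PncT1 a) : ∃ M : ℝ, ∀ δ : ℝ, 0 < δ → |asqNn I δ a| ≤ M := by
  obtain ⟨M, R, hM, hR1, hb, hR⟩ := pnq_cs_bound1 ha.cont ha.cs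
  obtain ⟨α, hα, h0⟩ := ha.off
  obtain ⟨M', hM'⟩ := asq_bands' I (α := α) (β := R) hα
  refine ⟨M * R * max M' 0, fun δ hδ => ?_⟩
  unfold asqNn
  rw [← Real.norm_eq_abs]
  have hfin := asr_band_lt_top I (mul_pos hα hδ) (R * δ)
  have h1 := norm_integral_le_of_norm_le (μ := I.nu) (f := fun x : ℝ × ℝ => a (x.1 / δ) * (|x.1| / δ))
    (g := Set.indicator {x : ℝ × ℝ | α * δ ≤ |x.1| ∧ |x.1| ≤ R * δ} (fun _ => M * R))
    (by rw [integrable_indicator_iff (pnq_band_measurable _ _)]; exact integrableOn_const hfin.ne)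
    (Eventually.of_forall (pnq_Nn_bound hM hb hR h0 hδ))
  refine le_trans h1 ?_
  rw [integral_indicator_const _ (pnq_band_measurable _ _), smul_eq_mul, mul_comm]
  apply mul_le_mul_of_nonneg_left _ (mul_nonneg hM (by linarith))
  unfold Measure.real
  calc (I.nu {x : ℝ × ℝ | α * δ ≤ |x.1| ∧ |x.1| ≤ R * δ}).toReal ≤ (ENNReal.ofReal M').toReal :=
        ENNReal.toReal_mono ENNReal.ofReal_ne_top (hM' δ hδ)
    _ = max M' 0 := ENNReal.toReal_ofReal'

theorem asq_c_nonneg {δ : ℝ} (hδ : 0 < δ) : 0 ≤ asqc I δ := by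
  unfold asqc asqNn
  refine div_nonneg (integral_nonneg fun x => mul_nonneg (pnc_b0_nonneg _) (div_nonneg (abs_nonneg _) hδ.le)) Real.pi_pos.le

theorem asq_c_bdd : ∃ M : ℝ, ∀ δ : ℝ, 0 < δ → |asqc I δ| ≤ M := by
  obtain ⟨M, hM⟩ := asq_Nn_bdd I.swap pnc_b0_T1
  refine ⟨M / π, fun δ hδ => ?_⟩
  unfold asqc
  rw [abs_div, abs_of_pos Real.pi_pos]
  exact div_le_div_of_nonneg_right (hM δ hδ) Real.pi_pos.le

theorem asq_Lam_integrable {Ψ : ℝ × ℝ → ℝ} (hc : Continuous Ψ) (hs : HasCompactSupport Ψ) {δ : ℝ} (hδ : 0 < δ) :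
    Integrable (fun p => Ψ (pncSc δ p) * pncQ (pncSc δ p)) I.C0 := by
  obtain ⟨M, R, hM, hR1, hb, hR⟩ := pnc_cs_bound hc hs
  refine Integrable.mono' (g := fun p => M / δ ^ 2 * pncQ p) ((asq_Q_integrable I).const_mul _) ?_ (Eventually.of_forall fun p => ?_)
  · have : Continuous fun p : ℝ × ℝ => Ψ (pncSc δ p) * pncQ (pncSc δ p) := by
      have h1 : Continuous (pncSc δ) := by unfold pncSc; fun_prop
      exact (hc.comp h1).mul (pnc_Q_continuous.comp h1)
    exact this.aestronglyMeasurable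
  · rw [norm_mul, Real.norm_eq_abs, Real.norm_eq_abs, pnc_Q_sc, abs_of_nonneg (div_nonneg (pnc_Q_nonneg p) (by positivity))]
    calc |Ψ (pncSc δ p)| * (pncQ p / δ ^ 2) ≤ M * (pncQ p / δ ^ 2) :=
          mul_le_mul_of_nonneg_right (hb _) (div_nonneg (pnc_Q_nonneg p) (by positivity))
      _ = M / δ ^ 2 * pncQ p := by ring

/-- the Cayley chart increases the Euclidean norm on the disc -/
theorem asr_N_ch_ge {p : ℝ × ℝ} (hp : pncN p ≤ 1 / 2) : pncN p ≤ pncN (asqCh I.d p) := by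
  have h1 : |p.2| ≤ |asqLt I.d p.2| := asq_lt_ge I (le_trans (pnc_abs_snd_le p) hp)
  unfold pncN pncQ asqCh
  apply Real.sqrt_le_sqrt
  have h2 : p.2 ^ 2 ≤ asqLt I.d p.2 ^ 2 := by
    rw [← sq_abs p.2, ← sq_abs (asqLt I.d p.2)]
    exact pow_le_pow_left₀ (abs_nonneg _) h1 2
  simp only
  linarith

/-- both integrands of KL-a vanish off the shell -/
theorem asr_KL_supp {G : ℝ × ℝ → ℝ} {R α : ℝ} (hR : ∀ z, R < pncN z → G z = 0) (h0 : ∀ z : ℝ × ℝ, |z.1| < α → G z = 0)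
    {δ : ℝ} (hδ : 0 < δ) {p : ℝ × ℝ} (hp : pncN p ≤ 1 / 2) (hS : ¬ (α * δ ≤ pncN p ∧ pncN p ≤ R * δ)) :
    G (pncSc δ p) = 0 ∧ G (pncSc δ (asqCh I.d p)) = 0 := by
  by_cases h1 : α * δ ≤ pncN p
  · have h2 : R * δ < pncN p := by
      by_contra hcon
      push Not at hcon
      exact hS ⟨h1, hcon⟩
    constructor
    · apply hR
      rw [pnc_N_sc hδ, lt_div_iff₀ hδ]
      exact h2
    · apply hR
      rw [pnc_N_sc hδ, lt_div_iff₀ hδ]
      exact lt_of_lt_of_le h2 (asr_N_ch_ge I hp)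
  · push Not at h1
    have h2 : |p.1 / δ| < α := by
      rw [abs_div, abs_of_pos hδ, div_lt_iff₀ hδ]
      exact lt_of_le_of_lt (pnc_abs_fst_le p) h1
    exact ⟨h0 _ h2, h0 _ h2⟩

theorem asr_shell_lt_top {α : ℝ} (hα : 0 < α) (β : ℝ) : I.C0 {p : ℝ × ℝ | α ≤ pncN p ∧ pncN p ≤ β} < ∞ :=
  lt_of_le_of_lt (measure_mono fun _ hx => hx.1) (asq_far_lt_top I hα)

theorem asr_ae_half : ∀ᵐ p ∂I.C0, pncN p ≤ 1 / 2 := by
  filter_upwards [asq_ae_disc I] with p hp
  exact le_trans hp.2.le I.r0_le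

/-- integrability of the two terms of KL-a -/
theorem asr_KL_dist_int {G : ℝ × ℝ → ℝ} (hG : PncT G) {δ : ℝ} (hδ : 0 < δ) :
    Integrable (fun p => G (pncSc δ p)) I.C0 ∧ Integrable (fun p => G (pncSc δ (asqCh I.d p))) I.C0 := by
  obtain ⟨M, R, hM, hR1, hb, hR⟩ := pnc_cs_bound hG.cont hG.cs
  obtain ⟨α, hα, h0⟩ := hG.off
  have hg : Integrable (Set.indicator {p : ℝ × ℝ | α * δ ≤ pncN p ∧ pncN p ≤ R * δ} (fun _ => M)) I.C0 := by
    rw [integrable_indicator_iff (pnq_shell_measurable _ _)]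
    exact integrableOn_const (asr_shell_lt_top I (mul_pos hα hδ) _).ne
  constructor
  · refine Integrable.mono' hg (hG.cont.comp (pnq_sc_continuous δ)).aestronglyMeasurable ?_
    filter_upwards [asr_ae_half I] with p hp
    by_cases hS : α * δ ≤ pncN p ∧ pncN p ≤ R * δ
    · rw [Set.indicator_of_mem (show p ∈ {p : ℝ × ℝ | α * δ ≤ pncN p ∧ pncN p ≤ R * δ} from hS)]
      exact hb _
    · rw [Set.indicator_of_notMem (show p ∉ {p : ℝ × ℝ | α * δ ≤ pncN p ∧ pncN p ≤ R * δ} from hS), (asr_KL_supp I hR h0 hδ hp hS).1, norm_zero]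
  · refine Integrable.mono' hg ((hG.cont.comp (pnq_sc_continuous δ)).measurable.comp (asq_ch_measurable I.d)).aestronglyMeasurable ?_
    filter_upwards [asr_ae_half I] with p hp
    by_cases hS : α * δ ≤ pncN p ∧ pncN p ≤ R * δ
    · rw [Set.indicator_of_mem (show p ∈ {p : ℝ × ℝ | α * δ ≤ pncN p ∧ pncN p ≤ R * δ} from hS)]
      exact hb _
    · rw [Set.indicator_of_notMem (show p ∉ {p : ℝ × ℝ | α * δ ≤ pncN p ∧ pncN p ≤ R * δ} from hS), (asr_KL_supp I hR h0 hδ hp hS).2, norm_zero]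

/-- KL-a. the distortion of the Cayley variable is invisible at small scales (uniform continuity of `G`, `|lt - l| ≤ (3/4)|l|³`, `asq_shell`) -/
theorem asq_KL_dist {G : ℝ × ℝ → ℝ} (hG : PncT G) :
    Tendsto (fun δ : ℝ => ∫ p, G (pncSc δ p) ∂I.C0 - ∫ p, G (pncSc δ (asqCh I.d p)) ∂I.C0) (𝓝[>] 0) (𝓝 0) := by
  obtain ⟨M, R, hM, hR1, hb, hR⟩ := pnc_cs_bound hG.cont hG.cs
  obtain ⟨α, hα, h0⟩ := hG.off
  obtain ⟨Ms, hMs⟩ := asq_shell I (α := α) (R := R) hα
  have huc : UniformContinuous G := hG.cs.uniformContinuous_of_continuous hG.cont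
  rw [Metric.tendsto_nhds]
  intro ε hε
  have hK : 0 < max Ms 0 + 1 := by positivity
  obtain ⟨η, hη, hη'⟩ := Metric.uniformContinuous_iff.1 huc (ε / (2 * (max Ms 0 + 1))) (by positivity)
  -- smallness of δ
  have hδ0 : 0 < Real.sqrt (η / R ^ 3) := Real.sqrt_pos.2 (by positivity)
  filter_upwards [Ioo_mem_nhdsGT hδ0] with δ hδ
  have hδp : 0 < δ := hδ.1
  have hδ2 : δ ^ 2 < η / R ^ 3 := by
    have := Real.lt_sqrt hδp.le |>.1 hδ.2
    exact this
  have hsmall : 3 / 4 * R ^ 3 * δ ^ 2 < η := by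
    have h1 : R ^ 3 * δ ^ 2 < η := by
      rw [lt_div_iff₀ (by positivity)] at hδ2
      linarith
    have h2 : 0 ≤ R ^ 3 * δ ^ 2 := by positivity
    linarith
  obtain ⟨hi1, hi2⟩ := asr_KL_dist_int I hG hδp
  rw [dist_zero_right, ← integral_sub hi1 hi2]
  have hfin := asr_shell_lt_top I (mul_pos hα hδp) (R * δ)
  have h1 := norm_integral_le_of_norm_le (μ := I.C0) (f := fun p => G (pncSc δ p) - G (pncSc δ (asqCh I.d p)))
    (g := Set.indicator {p : ℝ × ℝ | α * δ ≤ pncN p ∧ pncN p ≤ R * δ} (fun _ => ε / (2 * (max Ms 0 + 1))))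
    (by rw [integrable_indicator_iff (pnq_shell_measurable _ _)]; exact integrableOn_const hfin.ne) (by
      filter_upwards [asr_ae_half I] with p hp
      by_cases hS : α * δ ≤ pncN p ∧ pncN p ≤ R * δ
      · rw [Set.indicator_of_mem (show p ∈ {p : ℝ × ℝ | α * δ ≤ pncN p ∧ pncN p ≤ R * δ} from hS)]
        rw [← dist_eq_norm]
        apply le_of_lt
        apply hη'
        have hl : |p.2| ≤ R * δ := le_trans (pnc_abs_snd_le p) hS.2
        have hl2 : |asqLt I.d p.2 - p.2| ≤ 3 / 4 * |p.2| ^ 3 := asq_lt_le I (le_trans (pnc_abs_snd_le p) hp)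
        have hl3 : |p.2| ^ 3 ≤ (R * δ) ^ 3 := pow_le_pow_left₀ (abs_nonneg _) hl 3
        rw [Prod.dist_eq]
        apply max_lt
        · simp only [pncSc, asqCh, dist_self]
          exact hη
        · simp only [pncSc, asqCh]
          rw [Real.dist_eq, ← sub_div, abs_div, abs_of_pos hδp, abs_sub_comm, div_lt_iff₀ hδp]
          calc |asqLt I.d p.2 - p.2| ≤ 3 / 4 * (R * δ) ^ 3 := le_trans hl2 (by linarith)
            _ = (3 / 4 * R ^ 3 * δ ^ 2) * δ := by ring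
            _ < η * δ := mul_lt_mul_of_pos_right hsmall hδp
      · rw [Set.indicator_of_notMem (show p ∉ {p : ℝ × ℝ | α * δ ≤ pncN p ∧ pncN p ≤ R * δ} from hS),
          (asr_KL_supp I hR h0 hδp hp hS).1, (asr_KL_supp I hR h0 hδp hp hS).2, sub_zero, norm_zero])
  refine lt_of_le_of_lt h1 ?_
  rw [integral_indicator_const _ (pnq_shell_measurable _ _), smul_eq_mul]
  have h2 : I.C0.real {p : ℝ × ℝ | α * δ ≤ pncN p ∧ pncN p ≤ R * δ} ≤ max Ms 0 := by
    unfold Measure.real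
    calc (I.C0 {p : ℝ × ℝ | α * δ ≤ pncN p ∧ pncN p ≤ R * δ}).toReal ≤ (ENNReal.ofReal Ms).toReal :=
          ENNReal.toReal_mono ENNReal.ofReal_ne_top (hMs δ hδp)
      _ = max Ms 0 := ENNReal.toReal_ofReal'
  calc I.C0.real {p : ℝ × ℝ | α * δ ≤ pncN p ∧ pncN p ≤ R * δ} * (ε / (2 * (max Ms 0 + 1)))
      ≤ (max Ms 0 + 1) * (ε / (2 * (max Ms 0 + 1))) := mul_le_mul_of_nonneg_right (by linarith) (by positivity)
    _ = ε / 2 := by field_simp
    _ < ε := by linarith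

/-- KL-c. the rest of the torus is invisible at small scales (dominated convergence: `G(x/δ) → 0` pointwise, `G 0 = 0`, `E` finite) -/
theorem asq_KL_E {G : ℝ × ℝ → ℝ} (hG : PncT G) : Tendsto (fun δ : ℝ => ∫ x, G (pncSc δ x) ∂I.E) (𝓝[>] 0) (𝓝 0) := by
  obtain ⟨M, R, hM, hR1, hb, hR⟩ := pnc_cs_bound hG.cont hG.cs
  have := I.Efin
  have h := tendsto_integral_filter_of_dominated_convergence (μ := I.E) (l := 𝓝[>] (0:ℝ)) (F := fun δ x => G (pncSc δ x)) (f := fun _ => (0:ℝ))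
    (fun _ => M) (Eventually.of_forall fun δ => (hG.cont.comp (pnq_sc_continuous δ)).aestronglyMeasurable)
    (Eventually.of_forall fun δ => Eventually.of_forall fun x => hb _) (integrable_const M) (by
      filter_upwards [asq_ae_E I] with x hx
      apply tendsto_const_nhds.congr'
      have hpos : 0 < |x.1| / R := div_pos (abs_pos.2 hx) (by linarith)
      filter_upwards [Ioo_mem_nhdsGT hpos] with δ hδ
      symm
      apply hR
      rw [pnc_N_sc hδ.1, lt_div_iff₀ hδ.1]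
      have h1 : δ * R < |x.1| := by
        have := hδ.2
        rwa [lt_div_iff₀ (by linarith)] at this
      calc R * δ = δ * R := mul_comm _ _
        _ < |x.1| := h1
        _ ≤ pncN x := pnc_abs_fst_le x)
  simpa using h

/-- integrability of the two terms of KL-e -/
theorem asr_KL_int {G : ℝ × ℝ → ℝ} (hG : PncT G) {δ : ℝ} (hδ : 0 < δ) :
    Integrable (fun x => pncPr G (pncSc δ x)) I.nu ∧ Integrable (fun x : ℝ × ℝ => pncPr G (x.1 / δ, |x.1| / δ)) I.nu := by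
  obtain ⟨M, R, hM, hR1, hb, hR⟩ := pnc_cs_bound hG.cont hG.cs
  obtain ⟨α, hα, h0⟩ := hG.off
  constructor
  · have h := (asq_mix_real I (G := fun y => G (pncSc δ y)) ((hG.cont.comp (pnq_sc_continuous δ)).measurable) (M := M) (ε := α * δ)
      (by positivity) (fun x => hb _) (fun x hx => h0 _ (by
        simp only [pncSc]
        rw [abs_div, abs_of_pos hδ, div_lt_iff₀ hδ]
        exact hx))).1
    exact h.congr (Eventually.of_forall fun x => pnc_Pr_sc G hδ x)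
  · refine Integrable.mono' (g := Set.indicator {x : ℝ × ℝ | α * δ ≤ |x.1| ∧ |x.1| ≤ R * δ} (fun _ => M)) ?_ ?_ (Eventually.of_forall fun x => ?_)
    · rw [integrable_indicator_iff (pnq_band_measurable _ _)]
      exact integrableOn_const (asr_band_lt_top I (mul_pos hα hδ) _).ne
    · apply Measurable.aestronglyMeasurable
      exact (pnq_Pr_measurable hG.cont.measurable).comp ((measurable_fst.div_const δ).prodMk (measurable_fst.abs.div_const δ))
    · by_cases hB : α * δ ≤ |x.1| ∧ |x.1| ≤ R * δ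
      · rw [Set.indicator_of_mem (show x ∈ {x : ℝ × ℝ | α * δ ≤ |x.1| ∧ |x.1| ≤ R * δ} from hB)]
        exact pnc_Pr_abs_le hb (x := (x.1 / δ, |x.1| / δ)) (by positivity)
      · rw [Set.indicator_of_notMem (show x ∉ {x : ℝ × ℝ | α * δ ≤ |x.1| ∧ |x.1| ≤ R * δ} from hB)]
        have hκ : ¬ (α ≤ |x.1 / δ| ∧ |x.1 / δ| ≤ R) := by
          rw [abs_div, abs_of_pos hδ, le_div_iff₀ hδ, div_le_iff₀ hδ]
          exact hB
        rw [pnq_Pr_zero (pnq_col_zero hR h0 hκ) _, norm_zero]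

/-- KL-e. **concentration on the graph `s = |k|`**: on `|s/|k| - 1| ≤ ε` use `pnc_cd_close` and `asq_bands'`; off it `pnc_D_ge` and `asq_defect_small`.      TEX[04-plane l.520-535] -/
theorem asq_KL_conc {G : ℝ × ℝ → ℝ} (hG : PncT G) :
    Tendsto (fun δ : ℝ => ∫ x, (pncPr G (pncSc δ x) - pncPr G (x.1 / δ, |x.1| / δ)) ∂I.nu) (𝓝[>] 0) (𝓝 0) := by
  obtain ⟨M, R, hM, hR1, hb, hR⟩ := pnc_cs_bound hG.cont hG.cs
  obtain ⟨α, hα, h0⟩ := hG.off
  obtain ⟨Mb, hMb⟩ := asq_bands' I (α := α) (β := R) hα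
  rw [Metric.tendsto_nhds]
  intro e he
  -- choice of ε
  obtain ⟨ε, hε, hε', hεs⟩ : ∃ ε : ℝ, 0 < ε ∧ ε ≤ 1 / 2 ∧ 8 * ε * M * max Mb 0 ≤ e / 4 := by
    refine ⟨min (1 / 2) (e / (32 * (M * max Mb 0 + 1))), lt_min (by norm_num) (by positivity), min_le_left _ _, ?_⟩
    have hK : 0 ≤ M * max Mb 0 := by positivity
    have h1 : min (1 / 2) (e / (32 * (M * max Mb 0 + 1))) ≤ e / (32 * (M * max Mb 0 + 1)) := min_le_right _ _
    calc 8 * min (1 / 2) (e / (32 * (M * max Mb 0 + 1))) * M * max Mb 0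
        = 8 * (M * max Mb 0) * min (1 / 2) (e / (32 * (M * max Mb 0 + 1))) := by ring
      _ ≤ 8 * (M * max Mb 0) * (e / (32 * (M * max Mb 0 + 1))) := mul_le_mul_of_nonneg_left h1 (by positivity)
      _ = e / 4 * ((M * max Mb 0) / (M * max Mb 0 + 1)) := by field_simp; ring
      _ ≤ e / 4 * 1 := by
          apply mul_le_mul_of_nonneg_left _ (by positivity)
          rw [div_le_one (by positivity)]
          linarith
      _ = e / 4 := mul_one _
  have hsm : Tendsto (fun δ : ℝ => ∫ x in {x : ℝ × ℝ | |x.1| ≤ R * δ}, pncD x ∂I.nu) (𝓝[>] 0) (𝓝 0) := by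
    refine (asq_defect_small I).comp ?_
    rw [tendsto_nhdsWithin_iff]
    constructor
    · have : Tendsto (fun δ : ℝ => R * δ) (𝓝 0) (𝓝 (R * 0)) := (continuous_const.mul continuous_id).tendsto 0
      rw [mul_zero] at this
      exact this.mono_left nhdsWithin_le_nhds
    · filter_upwards [self_mem_nhdsWithin] with δ hδ
      show 0 < R * δ
      exact mul_pos (by linarith) hδ
  have hsm' := (Metric.tendsto_nhds.1 hsm) (e * ε ^ 2 / (72 * (M + 1))) (by positivity)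
  filter_upwards [hsm', self_mem_nhdsWithin] with δ hδs hδ
  have hδp : 0 < δ := hδ
  rw [dist_zero_right]
  have hB' : MeasurableSet {x : ℝ × ℝ | |x.1| ≤ R * δ} := measurableSet_le measurable_fst.abs measurable_const
  have hg1 : Integrable (Set.indicator {x : ℝ × ℝ | α * δ ≤ |x.1| ∧ |x.1| ≤ R * δ} (fun _ => 8 * ε * M)) I.nu := by
    rw [integrable_indicator_iff (pnq_band_measurable _ _)]
    exact integrableOn_const (asr_band_lt_top I (mul_pos hα hδp) _).ne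
  have hg2 : Integrable (fun x => 18 * M / ε ^ 2 * Set.indicator {x : ℝ × ℝ | |x.1| ≤ R * δ} pncD x) I.nu :=
    ((asq_D_integrable I).indicator hB').const_mul _
  have h1 := norm_integral_le_of_norm_le (μ := I.nu) (f := fun x => pncPr G (pncSc δ x) - pncPr G (x.1 / δ, |x.1| / δ))
    (g := fun x => Set.indicator {x : ℝ × ℝ | α * δ ≤ |x.1| ∧ |x.1| ≤ R * δ} (fun _ => 8 * ε * M) x +
      18 * M / ε ^ 2 * Set.indicator {x : ℝ × ℝ | |x.1| ≤ R * δ} pncD x)
    (hg1.add hg2) (by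
      filter_upwards [asq_ae_nu I] with x hx
      exact pnq_KL_point hG.cont.measurable hb hR h0 hδp hε hε' hx.1 hx.2)
  refine lt_of_le_of_lt h1 ?_
  have e1 : ∫ x, (Set.indicator {x : ℝ × ℝ | α * δ ≤ |x.1| ∧ |x.1| ≤ R * δ} (fun _ => 8 * ε * M) x +
      18 * M / ε ^ 2 * Set.indicator {x : ℝ × ℝ | |x.1| ≤ R * δ} pncD x) ∂I.nu =
      I.nu.real {x : ℝ × ℝ | α * δ ≤ |x.1| ∧ |x.1| ≤ R * δ} * (8 * ε * M) + 18 * M / ε ^ 2 * ∫ x in {x : ℝ × ℝ | |x.1| ≤ R * δ}, pncD x ∂I.nu := by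
    rw [integral_add hg1 hg2, integral_indicator_const _ (pnq_band_measurable _ _), smul_eq_mul, integral_const_mul, integral_indicator hB']
  rw [e1]
  have h2 : I.nu.real {x : ℝ × ℝ | α * δ ≤ |x.1| ∧ |x.1| ≤ R * δ} ≤ max Mb 0 := by
    unfold Measure.real
    calc (I.nu {x : ℝ × ℝ | α * δ ≤ |x.1| ∧ |x.1| ≤ R * δ}).toReal ≤ (ENNReal.ofReal Mb).toReal :=
          ENNReal.toReal_mono ENNReal.ofReal_ne_top (hMb δ hδp)
      _ = max Mb 0 := ENNReal.toReal_ofReal'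
  have h3 : I.nu.real {x : ℝ × ℝ | α * δ ≤ |x.1| ∧ |x.1| ≤ R * δ} * (8 * ε * M) ≤ e / 4 := by
    calc _ ≤ max Mb 0 * (8 * ε * M) := mul_le_mul_of_nonneg_right h2 (by positivity)
      _ = 8 * ε * M * max Mb 0 := by ring
      _ ≤ e / 4 := hεs
  have h4 : ∫ x in {x : ℝ × ℝ | |x.1| ≤ R * δ}, pncD x ∂I.nu < e * ε ^ 2 / (72 * (M + 1)) := by
    rw [dist_zero_right, Real.norm_eq_abs] at hδs
    exact lt_of_le_of_lt (le_abs_self _) hδs
  have h5 : 18 * M / ε ^ 2 * ∫ x in {x : ℝ × ℝ | |x.1| ≤ R * δ}, pncD x ∂I.nu ≤ e / 4 := by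
    calc _ ≤ 18 * M / ε ^ 2 * (e * ε ^ 2 / (72 * (M + 1))) := mul_le_mul_of_nonneg_left h4.le (by positivity)
      _ = e / 4 * (M / (M + 1)) := by field_simp; ring
      _ ≤ e / 4 * 1 := by
          apply mul_le_mul_of_nonneg_left _ (by positivity)
          rw [div_le_one (by positivity)]
          linarith
      _ = e / 4 := mul_one _
  linarith

/-- integrability of the two terms of KL-e -/
theorem asq_KL_int {G : ℝ × ℝ → ℝ} (hG : PncT G) {δ : ℝ} (hδ : 0 < δ) :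
    Integrable (fun x => pncPr G (pncSc δ x)) I.nu ∧ Integrable (fun x : ℝ × ℝ => pncPr G (x.1 / δ, |x.1| / δ)) I.nu :=
  asr_KL_int I hG hδ

/-- **the key lemma**.      TEX[04-plane (4.19) `plane:eq:limiting-mixture`] -/
theorem asq_KL {Ψ : ℝ × ℝ → ℝ} (hΨ : PncT Ψ) : Tendsto (fun δ : ℝ => asqLam I δ Ψ - π⁻¹ * asqNn I δ (pncFl Ψ)) (𝓝[>] 0) (𝓝 0) := by
  have hG : PncT fun z => Ψ z * pncQ z := hΨ.mulQ
  set G : ℝ × ℝ → ℝ := fun z => Ψ z * pncQ z with hGdef
  obtain ⟨M, R, hM0, hR1, hM, hR⟩ := pnc_cs_bound hG.cont hG.cs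
  obtain ⟨α, hα, hoff⟩ := hG.off
  have h := ((asq_KL_dist I hG).add (asq_KL_conc I hG)).sub (asq_KL_E I hG)
  simp only [add_zero, sub_zero] at h
  refine h.congr' ?_
  filter_upwards [self_mem_nhdsWithin] with δ hδ
  have hδ : 0 < δ := hδ
  obtain ⟨-, -, hmix⟩ := asq_mix_real I (G := fun x => G (pncSc δ x)) (hG.cont.comp (pnc_sc_continuous δ)).measurable
    (M := M) (ε := α * δ) (by positivity) (fun x => hM _) (fun x hx => hoff _ (by
      show |x.1 / δ| < α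
      rw [abs_div, abs_of_pos hδ, div_lt_iff₀ hδ]; exact hx))
  simp only [pnc_Pr_sc G hδ] at hmix
  obtain ⟨hi1, hi2⟩ := asq_KL_int I hG hδ
  rw [integral_sub hi1 hi2, hmix]
  have h5 : ∫ x : ℝ × ℝ, pncPr G (x.1 / δ, |x.1| / δ) ∂I.nu = π⁻¹ * asqNn I δ (pncFl Ψ) := by
    unfold asqNn
    rw [← integral_const_mul]
    refine integral_congr_ae ?_
    filter_upwards [asq_ae_nu I] with x hx
    have hk : x.1 / δ ≠ 0 := div_ne_zero hx.1 hδ.ne'
    have e : |x.1| / δ = |x.1 / δ| := by rw [abs_div, abs_of_pos hδ]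
    rw [e, hGdef, pnc_Pr_diag Ψ hk]
    ring
  rw [h5]
  show _ = ∫ p, G (pncSc δ p) ∂I.C0 - _
  ring

/-! ### two charts -/

/-- the product test in the skew coordinates `(ζ₁, (asqR ζ)₁)` -/
theorem asq_prod_T {a b : ℝ → ℝ} (ha : PncT1 a) (hb : PncT1 b) : PncT fun z => a z.1 * b (asqR z).1 := by
  obtain ⟨_, A, _, hA0, _, hA⟩ := pnk_T1_bound ha
  obtain ⟨_, B, _, hB0, _, hB⟩ := pnk_T1_bound hb
  obtain ⟨α, hα, hoff⟩ := ha.off
  obtain ⟨s1, s2⟩ := asq_sqrt2_bd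
  have hs0 := asq_sqrt2_pos
  refine ⟨(ha.cont.comp continuous_fst).mul (hb.cont.comp (continuous_fst.comp asq_R_continuous)), ?_, α, hα, fun z hz => by simp [hoff z.1 hz]⟩
  refine HasCompactSupport.intro (K := Set.Icc (-A) A ×ˢ Set.Icc (-(2 * (A + B))) (2 * (A + B))) (isCompact_Icc.prod isCompact_Icc) fun z hz => ?_
  by_contra h
  apply hz
  have h1 : a z.1 ≠ 0 := fun h0 => h (by simp [h0])
  have h2 : b (asqR z).1 ≠ 0 := fun h0 => h (by simp [h0])
  have h3 : |z.1| ≤ A := not_lt.1 fun hlt => h1 (hA _ hlt)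
  have h4 : |(asqR z).1| ≤ B := not_lt.1 fun hlt => h2 (hB _ hlt)
  unfold asqR at h4
  simp only at h4
  rw [abs_div, abs_of_pos hs0, div_le_iff₀ hs0] at h4
  rw [abs_le] at h3 h4
  refine ⟨⟨h3.1, h3.2⟩, ?_, ?_⟩
  · nlinarith [h3.1, h3.2, h4.1, h4.2]
  · nlinarith [h3.1, h3.2, h4.1, h4.2]

theorem asq_prod_T' {a b : ℝ → ℝ} (ha : PncT1 a) (hb : PncT1 b) : PncT fun z => a (asqRI z).1 * b z.1 := by
  obtain ⟨_, A, _, hA0, _, hA⟩ := pnk_T1_bound ha
  obtain ⟨_, B, _, hB0, _, hB⟩ := pnk_T1_bound hb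
  obtain ⟨α, hα, hoff⟩ := hb.off
  obtain ⟨s1, s2⟩ := asq_sqrt2_bd
  have hs0 := asq_sqrt2_pos
  refine ⟨(ha.cont.comp (continuous_fst.comp asq_RI_continuous)).mul (hb.cont.comp continuous_fst), ?_, α, hα, fun z hz => by simp [hoff z.1 hz]⟩
  refine HasCompactSupport.intro (K := Set.Icc (-B) B ×ˢ Set.Icc (-(2 * (A + B))) (2 * (A + B))) (isCompact_Icc.prod isCompact_Icc) fun z hz => ?_
  by_contra h
  apply hz
  have h1 : a (asqRI z).1 ≠ 0 := fun h0 => h (by simp [h0])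
  have h2 : b z.1 ≠ 0 := fun h0 => h (by simp [h0])
  have h3 : |z.1| ≤ B := not_lt.1 fun hlt => h2 (hB _ hlt)
  have h4 : |(asqRI z).1| ≤ A := not_lt.1 fun hlt => h1 (hA _ hlt)
  unfold asqRI at h4
  simp only at h4
  rw [abs_div, abs_of_pos hs0, div_le_iff₀ hs0] at h4
  rw [abs_le] at h3 h4
  refine ⟨⟨h3.1, h3.2⟩, ?_, ?_⟩
  · nlinarith [h3.1, h3.2, h4.1, h4.2]
  · nlinarith [h3.1, h3.2, h4.1, h4.2]

theorem asq_prod_fl (a b : ℝ → ℝ) (κ : ℝ) : pncFl (fun z => a z.1 * b (asqR z).1) κ = Real.sqrt 2 * (a κ * ∫ x, b x) := by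
  have hs0 := asq_sqrt2_pos
  unfold pncFl asqR
  simp only
  rw [integral_const_mul]
  have h0 : ∀ τ : ℝ, (κ + τ) / Real.sqrt 2 = κ / Real.sqrt 2 + (Real.sqrt 2)⁻¹ * τ := fun τ => by
    rw [add_div, div_eq_inv_mul τ]
  simp_rw [h0]
  have h1 : ∫ τ, b (κ / Real.sqrt 2 + (Real.sqrt 2)⁻¹ * τ) = |((Real.sqrt 2)⁻¹)⁻¹| • ∫ y, b (κ / Real.sqrt 2 + y) :=
    Measure.integral_comp_mul_left (fun y => b (κ / Real.sqrt 2 + y)) (Real.sqrt 2)⁻¹
  rw [h1, integral_add_left_eq_self, inv_inv, abs_of_pos hs0, smul_eq_mul]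
  ring

theorem asq_prod_fl' (a b : ℝ → ℝ) (κ : ℝ) : pncFl (fun z => a (asqRI z).1 * b z.1) κ = Real.sqrt 2 * (b κ * ∫ x, a x) := by
  have hs0 := asq_sqrt2_pos
  unfold pncFl asqRI
  simp only
  rw [integral_mul_const]
  have h0 : ∀ τ : ℝ, (κ - τ) / Real.sqrt 2 = κ / Real.sqrt 2 - (Real.sqrt 2)⁻¹ * τ := fun τ => by
    rw [sub_div, div_eq_inv_mul τ]
  simp_rw [h0]
  have h1 : ∫ τ, a (κ / Real.sqrt 2 - (Real.sqrt 2)⁻¹ * τ) = |((Real.sqrt 2)⁻¹)⁻¹| • ∫ y, a (κ / Real.sqrt 2 - y) :=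
    Measure.integral_comp_mul_left (fun y => a (κ / Real.sqrt 2 - y)) (Real.sqrt 2)⁻¹
  rw [h1, integral_sub_left_eq_self, inv_inv, abs_of_pos hs0, smul_eq_mul]
  ring

/-- `Λ_δ` in the two frames -/
theorem asq_Lam_rot {Ψ : ℝ × ℝ → ℝ} (hm : Measurable Ψ) (δ : ℝ) : asqLam I δ (fun z => Ψ (asqR z)) = asqLam I.swap δ Ψ := by
  unfold asqLam
  have hF : Measurable fun p => Ψ (pncSc δ p) * pncQ (pncSc δ p) :=
    (hm.comp (pnk_sc_measurable δ)).mul (pnc_Q_continuous.measurable.comp (pnk_sc_measurable δ))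
  show _ = ∫ p, Ψ (pncSc δ p) * pncQ (pncSc δ p) ∂I.C1
  rw [← asq_rot_integral I hF]
  congr 1
  funext p
  have h1 : asqR (pncSc δ p) = pncSc δ (asqR p) := by
    unfold asqR pncSc
    ext
    · simp only; ring
    · simp only; ring
  show Ψ (asqR (pncSc δ p)) * pncQ (pncSc δ p) = _
  rw [h1, pnc_Q_sc, pnc_Q_sc, asq_Q_R]

theorem asq_Nn_smul (c : ℝ) (a : ℝ → ℝ) (δ : ℝ) : asqNn I δ (fun x => c * a x) = c * asqNn I δ a := by
  unfold asqNn
  rw [← integral_const_mul]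
  congr 1
  funext x
  ring

/-- **`|k| η(dk)` is asymptotically the same multiple of Lebesgue measure in the two frames, at every scale** -/
theorem asq_prod {a b : ℝ → ℝ} (ha : PncT1 a) (hb : PncT1 b) :
    Tendsto (fun δ : ℝ => asqNn I δ a * (∫ x, b x) - asqNn I.swap δ b * (∫ x, a x)) (𝓝[>] 0) (𝓝 0) := by
  have h1 := asq_KL I (asq_prod_T ha hb)
  have h2 := asq_KL I.swap (asq_prod_T' ha hb)
  have hs0 : Real.sqrt 2 ≠ 0 := asq_sqrt2_pos.ne'
  have e1 : pncFl (fun z : ℝ × ℝ => a z.1 * b (asqR z).1) = fun κ => (Real.sqrt 2 * ∫ x, b x) * a κ := by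
    funext κ
    rw [asq_prod_fl]
    ring
  have e2 : pncFl (fun z : ℝ × ℝ => a (asqRI z).1 * b z.1) = fun κ => (Real.sqrt 2 * ∫ x, a x) * b κ := by
    funext κ
    rw [asq_prod_fl']
    ring
  have e3 : ∀ δ, asqLam I.swap δ (fun z : ℝ × ℝ => a (asqRI z).1 * b z.1) = asqLam I δ fun z : ℝ × ℝ => a z.1 * b (asqR z).1 := by
    intro δ
    have := asq_Lam_rot I (Ψ := fun z : ℝ × ℝ => a (asqRI z).1 * b z.1) (asq_prod_T' ha hb).cont.measurable δ
    simpa only [asq_RI_R] using this.symm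
  rw [e1] at h1
  rw [e2] at h2
  simp only [asq_Nn_smul, e3] at h1 h2
  have h := (h2.sub h1).const_mul (π * (Real.sqrt 2)⁻¹)
  simp only [sub_zero, mul_zero] at h
  refine h.congr fun δ => ?_
  have hp := Real.pi_ne_zero
  field_simp
  ring

/-- `Λ_δ Ψ - c_δ ∫ Ψ → 0` for planar tests which vanish near `κ = 0` -/
theorem asq_lam_T {Ψ : ℝ × ℝ → ℝ} (hΨ : PncT Ψ) : Tendsto (fun δ : ℝ => asqLam I δ Ψ - asqc I δ * ∫ z, Ψ z) (𝓝[>] 0) (𝓝 0) := by
  have h1 := asq_KL I hΨ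
  have h2 := asq_prod I hΨ.fl pnc_b0_T1
  rw [pnc_b0_integral, pnc_fl_integral hΨ.cont hΨ.cs] at h2
  have h := h1.add (h2.const_mul π⁻¹)
  simp only [mul_zero, add_zero] at h
  refine h.congr fun δ => ?_
  unfold asqc
  ring

/-- the strip costs `O(h)` in `Λ_δ`, uniformly in `δ` (`asq_strip`) -/
theorem asq_zh_Lam {Ψ : ℝ × ℝ → ℝ} (hc : Continuous Ψ) (hs : HasCompactSupport Ψ) :
    ∃ M : ℝ, ∀ h δ : ℝ, 0 < h → h ≤ 1 / 2 → 0 < δ → |asqLam I δ Ψ - asqLam I δ fun z => Ψ z * pncZh h z.1| ≤ M * h := by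
  obtain ⟨M, R, hM, hR1, hb, hR⟩ := pnc_cs_bound hc hs
  obtain ⟨K4, hK4⟩ := asq_strip I
  refine ⟨M * (max K4 0 * R * 2), fun h δ hh hh2 hδ => ?_⟩
  have hT := pnc_zh_T hc hs hh
  have i1 := asq_Lam_integrable I hc hs hδ
  have i2 := asq_Lam_integrable I hT.cont hT.cs hδ
  unfold asqLam
  rw [← integral_sub i1 i2, ← Real.norm_eq_abs]
  refine le_trans (norm_integral_le_lintegral_norm _) ?_
  have hS : MeasurableSet {p : ℝ × ℝ | |p.1| ≤ 2 * h * δ ∧ pncN p ≤ R * δ} :=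
    (measurableSet_le measurable_fst.abs measurable_const).inter (measurableSet_le pnc_N_continuous.measurable measurable_const)
  have hle : ∫⁻ p, ENNReal.ofReal ‖Ψ (pncSc δ p) * pncQ (pncSc δ p) - Ψ (pncSc δ p) * pncZh h (pncSc δ p).1 * pncQ (pncSc δ p)‖ ∂I.C0 ≤
      ENNReal.ofReal M * ∫⁻ p in {p : ℝ × ℝ | |p.1| ≤ 2 * h * δ ∧ pncN p ≤ R * δ}, ENNReal.ofReal (pncQ (pncSc δ p)) ∂I.C0 := by
    rw [← lintegral_const_mul' _ _ ENNReal.ofReal_ne_top, ← lintegral_indicator hS]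
    apply lintegral_mono
    intro p
    beta_reduce
    have e : Ψ (pncSc δ p) * pncQ (pncSc δ p) - Ψ (pncSc δ p) * pncZh h (pncSc δ p).1 * pncQ (pncSc δ p) =
        Ψ (pncSc δ p) * (1 - pncZh h (pncSc δ p).1) * pncQ (pncSc δ p) := by ring
    by_cases hp : |p.1| ≤ 2 * h * δ ∧ pncN p ≤ R * δ
    · rw [Set.indicator_of_mem (show p ∈ {p : ℝ × ℝ | |p.1| ≤ 2 * h * δ ∧ pncN p ≤ R * δ} from hp), ← ENNReal.ofReal_mul hM]
      apply ENNReal.ofReal_le_ofReal
      rw [e, norm_mul, norm_mul, Real.norm_eq_abs, Real.norm_eq_abs, Real.norm_eq_abs, abs_of_nonneg (pnc_Q_nonneg _)]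
      apply mul_le_mul_of_nonneg_right _ (pnc_Q_nonneg _)
      calc |Ψ (pncSc δ p)| * |1 - pncZh h (pncSc δ p).1| ≤ M * 1 := mul_le_mul (hb _) (pnq_zh_abs _ _) (abs_nonneg _) hM
        _ = M := mul_one _
    · rw [Set.indicator_of_notMem (show p ∉ {p : ℝ × ℝ | |p.1| ≤ 2 * h * δ ∧ pncN p ≤ R * δ} from hp)]
      have : Ψ (pncSc δ p) * (1 - pncZh h (pncSc δ p).1) = 0 := by
        by_cases h1 : |p.1| ≤ 2 * h * δ
        · have h2 : R * δ < pncN p := by
            by_contra hcon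
            push Not at hcon
            exact hp ⟨h1, hcon⟩
          rw [hR _ (by rw [pnc_N_sc hδ, lt_div_iff₀ hδ]; exact h2), zero_mul]
        · push Not at h1
          rw [pnq_zh_eq_one hh (by
            simp only [pncSc]
            rw [abs_div, abs_of_pos hδ, le_div_iff₀ hδ]
            exact h1.le), sub_self, mul_zero]
      rw [e, this, zero_mul, norm_zero, ENNReal.ofReal_zero]
  have h2 := hK4 R (2 * h) δ hR1 (by positivity) (by linarith) hδ
  calc (∫⁻ p, ENNReal.ofReal ‖Ψ (pncSc δ p) * pncQ (pncSc δ p) - Ψ (pncSc δ p) * pncZh h (pncSc δ p).1 * pncQ (pncSc δ p)‖ ∂I.C0).toReal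
      ≤ (ENNReal.ofReal M * ENNReal.ofReal (K4 * R * (2 * h))).toReal :=
        ENNReal.toReal_mono (ENNReal.mul_ne_top ENNReal.ofReal_ne_top ENNReal.ofReal_ne_top) (hle.trans (mul_le_mul_right h2 _))
    _ = M * max (K4 * R * (2 * h)) 0 := by rw [ENNReal.toReal_mul, ENNReal.toReal_ofReal hM, ENNReal.toReal_ofReal']
    _ ≤ M * (max K4 0 * R * (2 * h)) := by
        apply mul_le_mul_of_nonneg_left _ hM
        apply max_le
        · have : K4 ≤ max K4 0 := le_max_left _ _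
          have hpos : 0 ≤ R * (2 * h) := by positivity
          nlinarith
        · positivity
    _ = M * (max K4 0 * R * 2) * h := by ring

/-- **the scaling form of the spectrum**: `Λ_δ Ψ - c_δ ∫ Ψ → 0` for every `Ψ ∈ C_c(ℝ²)`.      TEX[04-plane (4.18) `plane:eq:subsequence`] -/
theorem asq_lam {Ψ : ℝ × ℝ → ℝ} (hc : Continuous Ψ) (hs : HasCompactSupport Ψ) :
    Tendsto (fun δ : ℝ => asqLam I δ Ψ - asqc I δ * ∫ z, Ψ z) (𝓝[>] 0) (𝓝 0) := by
  obtain ⟨M1, hM1⟩ := asq_zh_Lam I hc hs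
  obtain ⟨M2, hM2⟩ := pnc_zh_vol hc hs
  obtain ⟨Mc, hMc⟩ := asq_c_bdd I
  rw [Metric.tendsto_nhds]
  intro η hη
  set B : ℝ := |M1| + |Mc| * |M2| + 1 with hB
  have hBpos : 0 < B := by positivity
  set h : ℝ := min (1 / 2) (η / (2 * B)) with hh
  have hh0 : 0 < h := lt_min (by norm_num) (by positivity)
  have hh1 : h ≤ 1 / 2 := min_le_left _ _
  have hh2 : B * h ≤ η / 2 := by
    have : h ≤ η / (2 * B) := min_le_right _ _
    calc B * h ≤ B * (η / (2 * B)) := by gcongr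
      _ = η / 2 := by field_simp
  have h3 := asq_lam_T I (pnc_zh_T hc hs hh0)
  rw [Metric.tendsto_nhds] at h3
  filter_upwards [h3 (η / 2) (by positivity), self_mem_nhdsWithin] with δ hδ hδ0
  have hδ0 : 0 < δ := hδ0
  rw [Real.dist_eq, sub_zero] at hδ ⊢
  have a1 := hM1 h δ hh0 hh1 hδ0
  have a2 := hM2 h hh0 hh1
  have a3 := hMc δ hδ0
  have e : asqLam I δ Ψ - asqc I δ * ∫ z, Ψ z
      = (asqLam I δ Ψ - asqLam I δ fun z => Ψ z * pncZh h z.1)
        + ((asqLam I δ fun z => Ψ z * pncZh h z.1) - asqc I δ * ∫ z, Ψ z * pncZh h z.1)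
        - asqc I δ * ((∫ z, Ψ z) - ∫ z, Ψ z * pncZh h z.1) := by ring
  rw [e]
  have b1 : |asqc I δ * ((∫ z, Ψ z) - ∫ z, Ψ z * pncZh h z.1)| ≤ |Mc| * |M2| * h := by
    rw [abs_mul]
    calc |asqc I δ| * |(∫ z, Ψ z) - ∫ z, Ψ z * pncZh h z.1| ≤ |Mc| * (|M2| * h) := by
          refine mul_le_mul (a3.trans (le_abs_self _)) (a2.trans ?_) (abs_nonneg _) (abs_nonneg _)
          exact mul_le_mul_of_nonneg_right (le_abs_self _) hh0.le
      _ = |Mc| * |M2| * h := by ring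
  have b2 : |asqLam I δ Ψ - asqLam I δ fun z => Ψ z * pncZh h z.1| ≤ |M1| * h :=
    a1.trans (mul_le_mul_of_nonneg_right (le_abs_self _) hh0.le)
  have b3 : |M1| * h + |Mc| * |M2| * h ≤ B * h := by
    rw [hB]; nlinarith
  calc _ ≤ |asqLam I δ Ψ - asqLam I δ fun z => Ψ z * pncZh h z.1|
        + |(asqLam I δ fun z => Ψ z * pncZh h z.1) - asqc I δ * ∫ z, Ψ z * pncZh h z.1|
        + |asqc I δ * ((∫ z, Ψ z) - ∫ z, Ψ z * pncZh h z.1)| := by
        refine (abs_sub _ _).trans ?_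
        gcongr
        exact abs_add_le _ _
    _ < η := by linarith

end Claimed.Agent.R292
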