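import Claimed.Agent.R292.Defs.SPEC
import Claimed.Agent.R292.Spec.Core102
import Claimed.Agent.R292.Spec.Coef22

/-!
# Row 292 (S0540), unit SPEC, box B3 : the core contract `AsqIn` (helper102) feeds the two-frame cutoff identity `AseIn` (helper22)      (helper22; prefix `asi`)

* `asiIn I : AseIn` : every field is a theorem of `Spec/Core102.lean`, for `I` (frame 0) and `I.swap` (frame 1); change of frame `T = asqR`.
* `asi_c_lim`  : the running coefficient `asqc I δ` CONVERGES as `δ ↓ 0`.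
* `asi_main`   : `∃ c ≥ 0`, `Λ_δ Ψ → c ∫ Ψ` for every `Ψ ∈ C_c(ℝ²)`, FULL limit = the local form of `AspPS`.
* `asi22_PS`   : the final rewriting: if `I.C0 = Cf` restricted to a punctured disc and `Cf {0} = 0` then `∃ c ≥ 0, AspPS Cf c`  (last 40 lines of `exit_pln_core` of R291).
-/

set_option autoImplicit false

namespace Claimed.Agent.R292

open Claimed.Agent.R291 MeasureTheory Filter Topology
open scoped ENNReal Real

theorem asi_R_sc (δ : ℝ) (p : ℝ × ℝ) : asqR (pncSc δ p) = pncSc δ (asqR p) := by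
  unfold asqR pncSc
  ext
  · simp only
    ring
  · simp only
    ring

/-- the turn by `π/4` preserves the Lebesgue measure of the plane -/
theorem asi_R_vol : (volume : Measure (ℝ × ℝ)).map asqR = volume := by
  have h2 : Real.sqrt 2 * Real.sqrt 2 = 2 := asq_sqrt2_mul
  have h0 : Real.sqrt 2 ≠ 0 := asq_sqrt2_pos.ne'
  set f : (ℝ × ℝ) →ₗ[ℝ] (ℝ × ℝ) := Matrix.toLin (Module.Basis.finTwoProd ℝ) (Module.Basis.finTwoProd ℝ)
    !![1 / Real.sqrt 2, 1 / Real.sqrt 2; -(1 / Real.sqrt 2), 1 / Real.sqrt 2] with hf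
  have hdet : LinearMap.det f = 1 := by
    rw [hf, LinearMap.det_toLin, Matrix.det_fin_two_of]
    field_simp
    linarith
  have he : (f : ℝ × ℝ → ℝ × ℝ) = asqR := by
    funext p
    rw [hf, Matrix.toLin_finTwoProd_apply]
    unfold asqR
    ext <;> simp <;> ring
  have := Measure.map_linearMap_addHaar_eq_smul_addHaar (μ := (volume : Measure (ℝ × ℝ))) (f := f) (by rw [hdet]; exact one_ne_zero)
  rw [hdet, he] at this
  simpa using this

/-- **the core contract feeds the cutoff identity** -/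
noncomputable def asiIn (I : AsqIn) : AseIn where
  C := ![I.C0, I.C1]
  nu := ![I.nu, I.nu1]
  E := ![I.E, I.E1]
  ch := ![asqCh I.d, asqCh I.d1]
  T := asqR
  c := asqc I
  T_cont := asq_R_continuous
  T_N := asq_N_R
  T_chi := asq_chi_R
  T_sc := asi_R_sc
  T_vol := asi_R_vol
  rel := I.rot.symm
  ch_meas := Fin.forall_fin_two.2 ⟨asq_ch_measurable I.d, asq_ch_measurable I.d1⟩
  ch_fst := Fin.forall_fin_two.2 ⟨fun _ => rfl, fun _ => rfl⟩
  Efin := Fin.forall_fin_two.2 ⟨I.Efin, I.Efin1⟩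
  ae_E := Fin.forall_fin_two.2 ⟨asq_ae_E I, asq_ae_E I.swap⟩
  ae_nu := Fin.forall_fin_two.2 ⟨asq_ae_nu I, asq_ae_nu I.swap⟩
  far := fun _ hε => asq_far_lt_top I hε
  Q_int := asq_Q_integrable I
  dist := ⟨12, Fin.forall_fin_two.2
    ⟨(asr_ae_half I).mono fun _ hp => asq_chi_dist I hp, (asr_ae_half I.swap).mono fun _ hp => asq_chi_dist I.swap hp⟩⟩
  mix_real := Fin.forall_fin_two.2
    ⟨fun _ hm _ _ hε hb h0 => asq_mix_real I hm hε hb h0, fun _ hm _ _ hε hb h0 => asq_mix_real I.swap hm hε hb h0⟩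
  D_int := Fin.forall_fin_two.2 ⟨asq_D_integrable I, asq_D_integrable I.swap⟩
  cap_tail := by
    obtain ⟨K5, h5⟩ := asq_cap_tail I
    obtain ⟨K6, h6⟩ := asq_cap_tail I.swap
    refine ⟨max K5 K6, Fin.forall_fin_two.2 ⟨fun R h hR hh => ?_, fun R h hR hh => ?_⟩⟩
    · refine (h5 R h hR hh).trans (ENNReal.ofReal_le_ofReal ?_)
      exact div_le_div_of_nonneg_right (le_max_left _ _) (by linarith)
    · refine (h6 R h hR hh).trans (ENNReal.ofReal_le_ofReal ?_)
      exact div_le_div_of_nonneg_right (le_max_right _ _) (by linarith)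
  lam := fun _ hc hs => asq_lam I hc hs
  c_bdd := asq_c_bdd I
  c_nonneg := fun _ hδ => asq_c_nonneg I hδ

/-- **the running coefficient of the core converges** -/
theorem asi_c_lim (I : AsqIn) : ∃ c : ℝ, 0 ≤ c ∧ Tendsto (asqc I) (𝓝[>] 0) (𝓝 c) := ase_c_lim (asiIn I)

/-- **B3, local form**: the full spectral scaling limit `|p|² C0` rescaled `→ c · Lebesgue` -/
theorem asi_main (I : AsqIn) : ∃ c : ℝ, 0 ≤ c ∧ ∀ Ψ : ℝ × ℝ → ℝ, Continuous Ψ → HasCompactSupport Ψ →
    Tendsto (fun δ : ℝ => asqLam I δ Ψ) (𝓝[>] 0) (𝓝 (c * ∫ z, Ψ z)) :=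
  ⟨aseC (asiIn I), ase_C_nonneg (asiIn I), fun _ hc hs => ase_main (asiIn I) 0 hc hs⟩

/-- **the final rewriting of B3**: the local limit is the limit of the whole measure (the rescaled test lives in the disc for small `δ`) -/
theorem asi22_PS {Cf : Measure (ℝ × ℝ)} (I : AsqIn) {r : ℝ} (hr : 0 < r) (h0 : Cf {0} = 0)
    (hC : I.C0 = Cf.restrict {p | 0 < pncN p ∧ pncN p < r}) : ∃ c : ℝ, 0 ≤ c ∧ AspPS Cf c := by
  obtain ⟨c, hc0, hc⟩ := asi_main I
  refine ⟨c, hc0, fun Ψ hcont hcs => ?_⟩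
  refine (hc Ψ hcont hcs).congr' ?_
  obtain ⟨M, R, hM0, hR1, hM, hR⟩ := pnc_cs_bound hcont hcs
  have hDm : MeasurableSet {p : ℝ × ℝ | 0 < pncN p ∧ pncN p < r} :=
    (measurableSet_lt measurable_const pnc_N_continuous.measurable).inter (measurableSet_lt pnc_N_continuous.measurable measurable_const)
  have hev : ∀ᶠ δ : ℝ in 𝓝[>] 0, R * δ < r := by
    have : Tendsto (fun δ : ℝ => R * δ) (𝓝[>] 0) (𝓝 (R * 0)) := (tendsto_const_nhds.mul tendsto_id).mono_left nhdsWithin_le_nhds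
    rw [mul_zero] at this
    exact this.eventually (Iio_mem_nhds hr)
  filter_upwards [hev, self_mem_nhdsWithin] with δ hδ hδ0
  have hδ0 : 0 < δ := hδ0
  unfold asqLam
  rw [hC, ← integral_indicator hDm]
  refine integral_congr_ae ?_
  have h0' : ∀ᵐ p ∂Cf, p ≠ 0 := measure_eq_zero_iff_ae_notMem.1 h0
  filter_upwards [h0'] with p hp
  have e1 : δ⁻¹ • p = pncSc δ p := by
    unfold pncSc
    ext <;> simp [div_eq_inv_mul]
  have e2 : aspSq p / δ ^ 2 = pncQ (pncSc δ p) := (pnc_Q_sc δ p).symm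
  rw [e1, e2]
  by_cases hD : p ∈ {p : ℝ × ℝ | 0 < pncN p ∧ pncN p < r}
  · rw [Set.indicator_of_mem hD]
  · rw [Set.indicator_of_notMem hD]
    have hpos : 0 < pncN p := by
      rcases (pnc_N_nonneg p).lt_or_eq with h | h
      · exact h
      · exfalso
        apply hp
        have h1 := pnc_abs_fst_le p
        have h2 := pnc_abs_snd_le p
        rw [← h] at h1 h2
        ext
        · exact abs_nonpos_iff.1 h1
        · exact abs_nonpos_iff.1 h2
    have hN : r ≤ pncN p := by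
      by_contra hlt
      exact hD ⟨hpos, not_le.1 hlt⟩
    rw [hR (pncSc δ p) (by rw [pnc_N_sc hδ0, lt_div_iff₀ hδ0]; linarith), zero_mul]

theorem asi_eqns_cite : True := by
  have := @asiIn.eq_1
  trivial

end Claimed.Agent.R292
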