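import Claimed.Agent.R292.Defs.SPEC
import Claimed.Agent.R291.Pln.PcvB

/-!
# Row 292 (S0540), Spec/CovE29 : box B4 (`asp_cov`), part E : dyadic sums on the spectral measure `Cf`      (helper29; prefix `ash_`)

Port of R291 `Pln/PcvB.lean`, sec. E, to the square grid.  Only the fields `box zero ann far` of `AspSpec` are consumed.
* `ash_DD_ge`  : the lattice symbol dominates `|p|²` on the box: `4 / (3 π²) |p|² ≤ aspDD p` (the constant of the source, not sharp here)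
* `ash_low`    : `∫_{|p| ≤ ρ} |p|² dCf ≤ 2 K ρ²`
* `ash_high`   : `∫_{|p| ≥ ρ} dCf / aspDD ≤ K' / ρ²`
Lattice free lemmas (`pcv_geo`, `pcv_int_bound`) are imported from R291, not copied.
-/

set_option autoImplicit false

namespace Claimed.Agent.R292

open Claims Claims.C0468 MeasureTheory Filter Topology Claimed.Agent.R291
open scoped ENNReal ComplexConjugate

/-- the symbol dominates `|p|²` on the box (`Real.cos_le_one_sub_mul_cos_sq`) -/
theorem ash_DD_ge {p : ℝ × ℝ} (hp : p ∈ aspBox) : 4 / (3 * Real.pi ^ 2) * aspSq p ≤ aspDD p := by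
  obtain ⟨h1, h2⟩ := hp
  have hpi : 0 < Real.pi := Real.pi_pos
  have c1 : Real.cos p.1 ≤ 1 - 2 / Real.pi ^ 2 * p.1 ^ 2 :=
    Real.cos_le_one_sub_mul_cos_sq (abs_le.2 ⟨h1.1.le, h1.2⟩)
  have c2 : Real.cos p.2 ≤ 1 - 2 / Real.pi ^ 2 * p.2 ^ 2 :=
    Real.cos_le_one_sub_mul_cos_sq (abs_le.2 ⟨h2.1.le, h2.2⟩)
  unfold aspDD aspSq
  have h6 : 4 / (3 * Real.pi ^ 2) * (p.1 ^ 2 + p.2 ^ 2) = 2 / 3 * (2 / Real.pi ^ 2 * p.1 ^ 2 + 2 / Real.pi ^ 2 * p.2 ^ 2) := by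
    field_simp
    ring
  have h7 : 0 ≤ 2 / Real.pi ^ 2 * p.1 ^ 2 := by positivity
  have h8 : 0 ≤ 2 / Real.pi ^ 2 * p.2 ^ 2 := by positivity
  linarith

theorem ash_sq_meas : Measurable aspSq := by
  unfold aspSq
  fun_prop

theorem ash_box_meas : MeasurableSet aspBox := by
  have h1 : Measurable fun p : ℝ × ℝ => p.1 := measurable_fst
  have h2 : Measurable fun p : ℝ × ℝ => p.2 := measurable_snd
  exact (h1 measurableSet_Ioc).inter (h2 measurableSet_Ioc)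

theorem ash_ann_meas (r s : ℝ) : MeasurableSet {p : ℝ × ℝ | r ≤ aspSq p ∧ aspSq p ≤ s} :=
  ash_sq_meas measurableSet_Icc

/-- low frequencies: `∫_{|p| ≤ ρ} |p|² dCf ≤ 2 K ρ²` -/
theorem ash_low {a : AspG → ℝ} {Cf : Measure (ℝ × ℝ)} {K : ℝ} (hs : AspSpec a Cf K) {ρ : ℝ} (hρ : 0 < ρ) (hρ1 : ρ ≤ 1) :
    ∫⁻ p in {p | aspSq p ≤ ρ ^ 2}, ENNReal.ofReal (aspSq p) ∂Cf ≤ ENNReal.ofReal (2 * max K 0 * ρ ^ 2) := by
  have hK0 : 0 ≤ max K 0 := le_max_right _ _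
  set r : ℕ → ℝ := fun j => ρ / 2 ^ (j + 1) with hr
  have hr0 : ∀ j, 0 < r j := fun j => by positivity
  have hr1 : ∀ j, r j ^ 2 = ρ ^ 2 * (1 / 4) ^ (j + 1) := by
    intro j
    simp only [hr]
    rw [div_pow, ← pow_mul, mul_comm (j + 1) 2, pow_mul, div_eq_mul_inv, one_div, inv_pow]
    norm_num
  have hr2 : ∀ j, 4 * r j ^ 2 = ρ ^ 2 / 4 ^ j := by
    intro j
    rw [hr1 j, pow_succ, one_div, inv_pow]
    ring
  have hrh : ∀ j, r j ≤ 1 / 2 := by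
    intro j
    simp only [hr]
    rw [div_le_iff₀ (by positivity), pow_succ]
    have : (1 : ℝ) ≤ 2 ^ j := one_le_pow₀ (by norm_num)
    nlinarith
  set S : ℕ → Set (ℝ × ℝ) := fun j => {p | r j ^ 2 ≤ aspSq p ∧ aspSq p ≤ 4 * r j ^ 2} ∪ {0} with hS
  have h := pcv_geo (μ := Cf) (S := S) (w := fun p => ENNReal.ofReal (aspSq p)) (A := {p | aspSq p ≤ ρ ^ 2})
    (K := max K 0) (t := ρ ^ 2) (fun j => (ash_ann_meas _ _).union (measurableSet_singleton _)) ?_ hK0 (by positivity) ?_ ?_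
  · refine h.trans (ENNReal.ofReal_le_ofReal ?_)
    have : 0 ≤ max K 0 * ρ ^ 2 := by positivity
    nlinarith
  · intro p hp
    rw [Set.mem_iUnion]
    by_cases h0 : aspSq p = 0
    · refine ⟨0, Or.inr ?_⟩
      unfold aspSq at h0
      have h1 : p.1 = 0 := by nlinarith [sq_nonneg p.1, sq_nonneg p.2]
      have h2 : p.2 = 0 := by nlinarith [sq_nonneg p.1, sq_nonneg p.2]
      exact Prod.ext h1 h2
    · have hpos : 0 < aspSq p := lt_of_le_of_ne (by unfold aspSq; positivity) (Ne.symm h0)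
      have hρ2 : 0 < ρ ^ 2 := by positivity
      obtain ⟨n, hn1, hn2⟩ := exists_nat_pow_near_of_lt_one (x := aspSq p / ρ ^ 2) (y := 1 / 4) (by positivity)
        ((div_le_one hρ2).2 hp) (by norm_num) (by norm_num)
      refine ⟨n, Or.inl ⟨?_, ?_⟩⟩
      · rw [hr1 n]
        rw [lt_div_iff₀ hρ2] at hn1
        linarith
      · rw [hr2 n]
        rw [div_le_iff₀ hρ2, one_div, inv_pow] at hn2
        rw [div_eq_mul_inv, mul_comm]
        exact hn2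
  · intro j
    calc Cf (S j) ≤ Cf {p | r j ^ 2 ≤ aspSq p ∧ aspSq p ≤ 4 * r j ^ 2} + Cf {0} := measure_union_le _ _
      _ ≤ ENNReal.ofReal K + 0 := by
          gcongr
          · exact hs.ann (r j) (hr0 j) (hrh j)
          · exact hs.zero.le
      _ ≤ ENNReal.ofReal (max K 0) := by rw [add_zero]; exact ENNReal.ofReal_le_ofReal (le_max_left _ _)
  · intro j p hp
    refine ENNReal.ofReal_le_ofReal ?_
    rcases hp with hp | hp
    · rw [← hr2 j]; exact hp.2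
    · rw [Set.mem_singleton_iff] at hp
      subst hp
      have : aspSq (0 : ℝ × ℝ) = 0 := by simp [aspSq]
      rw [this]
      positivity

/-- high frequencies: `∫_{|p| ≥ ρ} dCf / aspDD ≤ K' / ρ²`   (dyadic annuli up to `|p| < 1/2`, then `AspSpec.far`) -/
theorem ash_high {a : AspG → ℝ} {Cf : Measure (ℝ × ℝ)} {K : ℝ} (hs : AspSpec a Cf K) :
    ∃ K' : ℝ, 0 ≤ K' ∧ ∀ ρ : ℝ, 0 < ρ → ρ ≤ 1 →
      ∫⁻ p in {p | ρ ^ 2 ≤ aspSq p}, ENNReal.ofReal (1 / aspDD p) ∂Cf ≤ ENNReal.ofReal (K' / ρ ^ 2) := by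
  have hK0 : 0 ≤ max K 0 := le_max_right _ _
  have hpi : 0 < Real.pi := Real.pi_pos
  refine ⟨(Real.pi ^ 2 + 9 * Real.pi ^ 4) * max K 0, by positivity, ?_⟩
  intro ρ hρ hρ1
  have hρ2 : 0 < ρ ^ 2 := by positivity
  have hB : ∀ᵐ p ∂Cf, p ∈ aspBox := mem_ae_iff.2 hs.box
  set A1 : Set (ℝ × ℝ) := {p | ρ ^ 2 ≤ aspSq p ∧ aspSq p ≤ 1 / 4} ∩ aspBox with hA1
  set A2 : Set (ℝ × ℝ) := {p | 1 / 4 ≤ aspSq p} ∩ aspBox with hA2
  have hsub : ({p | ρ ^ 2 ≤ aspSq p} : Set (ℝ × ℝ)) ≤ᵐ[Cf] (A1 ∪ A2 : Set (ℝ × ℝ)) := by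
    filter_upwards [hB] with p hp hpA
    rcases le_total (aspSq p) (1 / 4) with h | h
    · exact Or.inl ⟨⟨hpA, h⟩, hp⟩
    · exact Or.inr ⟨h, hp⟩
  -- part 1
  have h1 : ∫⁻ p in A1, ENNReal.ofReal (1 / aspDD p) ∂Cf ≤ ENNReal.ofReal (Real.pi ^ 2 * max K 0 / ρ ^ 2) := by
    set S : ℕ → Set (ℝ × ℝ) := fun j =>
      ({p | (ρ * 2 ^ j) ^ 2 ≤ aspSq p ∧ aspSq p ≤ 4 * (ρ * 2 ^ j) ^ 2} ∩ {p | aspSq p ≤ 1 / 4}) ∩ aspBox with hS
    have e4 : ∀ j : ℕ, (ρ * 2 ^ j) ^ 2 = ρ ^ 2 * 4 ^ j := by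
      intro j
      rw [mul_pow, ← pow_mul, mul_comm j 2, pow_mul]; norm_num
    have h := pcv_geo (μ := Cf) (S := S) (w := fun p => ENNReal.ofReal (1 / aspDD p)) (A := A1)
      (K := max K 0) (t := 3 * Real.pi ^ 2 / (4 * ρ ^ 2))
      (fun j => ((ash_ann_meas _ _).inter (ash_sq_meas measurableSet_Iic)).inter ash_box_meas) ?_ hK0 (by positivity) ?_ ?_
    · refine h.trans (ENNReal.ofReal_le_ofReal (le_of_eq ?_))
      field_simp
    · rintro p ⟨⟨hp1, hp2⟩, hp3⟩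
      rw [Set.mem_iUnion]
      obtain ⟨n, hn1, hn2⟩ := exists_nat_pow_near (x := aspSq p / ρ ^ 2) (y := 4) ((one_le_div hρ2).2 hp1) (by norm_num)
      refine ⟨n, ⟨⟨⟨?_, ?_⟩, hp2⟩, hp3⟩⟩
      · rw [e4, mul_comm]; exact (le_div_iff₀ hρ2).1 hn1
      · rw [e4]
        have := (div_lt_iff₀ hρ2).1 hn2
        rw [pow_succ] at this
        nlinarith
    · intro j
      by_cases hj : ρ * 2 ^ j ≤ 1 / 2
      · refine (measure_mono ?_).trans ((hs.ann (ρ * 2 ^ j) (by positivity) hj).trans (ENNReal.ofReal_le_ofReal (le_max_left _ _)))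
        rintro p ⟨⟨hp, -⟩, -⟩
        exact hp
      · have : S j = ∅ := by
          rw [Set.eq_empty_iff_forall_notMem]
          rintro p ⟨⟨⟨hp1, -⟩, hp2⟩, -⟩
          rw [not_le] at hj
          have hp2' : aspSq p ≤ 1 / 4 := hp2
          nlinarith
        rw [this, measure_empty]
        exact zero_le
    · rintro j p ⟨⟨⟨hp1, -⟩, -⟩, hp3⟩
      refine ENNReal.ofReal_le_ofReal ?_
      have hD := ash_DD_ge hp3
      rw [e4] at hp1
      have h4 : (0 : ℝ) < 4 ^ j := by positivity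
      have hlow : 4 / (3 * Real.pi ^ 2) * (ρ ^ 2 * 4 ^ j) ≤ aspDD p :=
        (mul_le_mul_of_nonneg_left hp1 (by positivity)).trans hD
      have hpos : 0 < 4 / (3 * Real.pi ^ 2) * (ρ ^ 2 * 4 ^ j) := by positivity
      refine (one_div_le_one_div_of_le hpos hlow).trans (le_of_eq ?_)
      field_simp
  -- part 2
  have h2 : ∫⁻ p in A2, ENNReal.ofReal (1 / aspDD p) ∂Cf ≤ ENNReal.ofReal (9 * Real.pi ^ 4 * max K 0) := by
    have hA2m : MeasurableSet A2 := (ash_sq_meas measurableSet_Ici).inter ash_box_meas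
    calc ∫⁻ p in A2, ENNReal.ofReal (1 / aspDD p) ∂Cf
        ≤ ∫⁻ p in A2, ENNReal.ofReal (9 * Real.pi ^ 4) * ENNReal.ofReal (aspDD p) ∂Cf := by
          refine setLIntegral_mono' hA2m ?_
          rintro p ⟨hp1, hp2⟩
          rw [← ENNReal.ofReal_mul (by positivity)]
          refine ENNReal.ofReal_le_ofReal ?_
          have hD := ash_DD_ge hp2
          have hp1' : 1 / 4 ≤ aspSq p := hp1
          have hlow : 1 / (3 * Real.pi ^ 2) ≤ aspDD p := by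
            refine le_trans (le_of_eq ?_) ((mul_le_mul_of_nonneg_left hp1' (by positivity)).trans hD)
            field_simp
          have hm : 0 < 1 / (3 * Real.pi ^ 2) := by positivity
          have hDpos : 0 < aspDD p := lt_of_lt_of_le hm hlow
          rw [div_le_iff₀ hDpos]
          have h5 : (1 / (3 * Real.pi ^ 2)) * (1 / (3 * Real.pi ^ 2)) ≤ aspDD p * aspDD p :=
            mul_le_mul hlow hlow hm.le hDpos.le
          have h6 : 9 * Real.pi ^ 4 * ((1 / (3 * Real.pi ^ 2)) * (1 / (3 * Real.pi ^ 2))) = 1 := by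
            field_simp
            ring
          calc (1 : ℝ) = 9 * Real.pi ^ 4 * ((1 / (3 * Real.pi ^ 2)) * (1 / (3 * Real.pi ^ 2))) := h6.symm
            _ ≤ 9 * Real.pi ^ 4 * (aspDD p * aspDD p) := mul_le_mul_of_nonneg_left h5 (by positivity)
            _ = 9 * Real.pi ^ 4 * aspDD p * aspDD p := by ring
      _ ≤ ∫⁻ p, ENNReal.ofReal (9 * Real.pi ^ 4) * ENNReal.ofReal (aspDD p) ∂Cf := setLIntegral_le_lintegral _ _
      _ = ENNReal.ofReal (9 * Real.pi ^ 4) * ∫⁻ p, ENNReal.ofReal (aspDD p) ∂Cf := lintegral_const_mul' _ _ ENNReal.ofReal_ne_top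
      _ ≤ ENNReal.ofReal (9 * Real.pi ^ 4) * ENNReal.ofReal (max K 0) := by
          gcongr
          exact hs.far.trans (ENNReal.ofReal_le_ofReal (le_max_left _ _))
      _ = ENNReal.ofReal (9 * Real.pi ^ 4 * max K 0) := (ENNReal.ofReal_mul (by positivity)).symm
  calc ∫⁻ p in {p | ρ ^ 2 ≤ aspSq p}, ENNReal.ofReal (1 / aspDD p) ∂Cf
      ≤ ∫⁻ p in A1 ∪ A2, ENNReal.ofReal (1 / aspDD p) ∂Cf := lintegral_mono_set' hsub
    _ ≤ ∫⁻ p in A1, ENNReal.ofReal (1 / aspDD p) ∂Cf + ∫⁻ p in A2, ENNReal.ofReal (1 / aspDD p) ∂Cf := lintegral_union_le _ _ _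
    _ ≤ ENNReal.ofReal (Real.pi ^ 2 * max K 0 / ρ ^ 2) + ENNReal.ofReal (9 * Real.pi ^ 4 * max K 0) := add_le_add h1 h2
    _ = ENNReal.ofReal (Real.pi ^ 2 * max K 0 / ρ ^ 2 + 9 * Real.pi ^ 4 * max K 0) := (ENNReal.ofReal_add (by positivity) (by positivity)).symm
    _ ≤ ENNReal.ofReal ((Real.pi ^ 2 + 9 * Real.pi ^ 4) * max K 0 / ρ ^ 2) := by
        refine ENNReal.ofReal_le_ofReal ?_
        have h7 : 9 * Real.pi ^ 4 * max K 0 ≤ 9 * Real.pi ^ 4 * max K 0 / ρ ^ 2 := by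
          rw [le_div_iff₀ hρ2]
          have : ρ ^ 2 ≤ 1 := pow_le_one₀ hρ.le hρ1
          have h8 : 0 ≤ 9 * Real.pi ^ 4 * max K 0 := by positivity
          nlinarith
        rw [add_mul, add_div]
        linarith


end Claimed.Agent.R292
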