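import Claimed.Agent.R292.Defs.MODEL

/-!
# Row 292 (S0540), unit SPEC, box B6 : FINITE VOLUME REFLECTION POSITIVITY OF THE SIX-VERTEX HEIGHT LAW `mdlEQ`      (helper212; prefix `rp2`, `Rp2`)

TEX[lem:positive-transfer] (AT paper Sec. 4.1), first paragraph of the proof, for ALL observables of the closed side (consumers: SPEC B6 `AspIn.rp0 rp1`, SCREEN).
No DLR, no conditional expectations: a direct proof on the finite sums.

* sec.1  ABSTRACT.  `θ` an involution of the sites, `up` the open upper side, row = sites neither up nor reflected-up (fixed by `θ`).  `Ω` a finite set of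
  configurations stable under the reflection and under SPLICING (`rp2Mix`: upper part of `g`, rest of `g'`, same row).  `f` reads the closed upper side.
  **`rp2_core`** : `0 ≤ ∑ h ∈ Ω, f h * f (h ∘ θ)`      (fibre over the row `ρ`: swapping the upper parts of a pair gives `|Ω_ρ| ∑ f f^θ = (∑ f)²`).
  **`rp2_expand`** : the same with the factor `∏_{p ∈ P} (1 + κ 1[e p h])`, `κ ≥ 0`, `e p h ⇔ R h ∧ h x = h (θ x)` (`R` a row event, `x` a site of the closed upper side):
  `1[e] f f^θ = ∑_v f_v f_v^θ` (the Gram factorisation of the matrix `[[c,1],[1,c]]`, `c ≥ 1`), induction on `P`.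
* sec.2  the configurations `mdlCfg A b` are stable under reflections and splicing (no edge jumps over a site row).
* sec.3  the weight `c ^ mdlN Q h` = upper part × reflected upper part × straddling plaquettes.
* sec.4  **`rp2_axial`** (row `u.2 = 0` of `MdlS` = a DIAGONAL of the primal lattice, `0 < c`), **`rp2_diag`** (row `u.1 + u.2 = 0` of `MdlS` = a ROW of the primal lattice, `1 ≤ c`).
-/

set_option autoImplicit false

namespace Claimed.Agent.R292

open Claims Claims.C0468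

/-! ## 1. The abstract statement -/

section abstract

variable {S : Type}

/-- upper part of `g`, the rest of `g'` -/
def rp2Mix (up : S → Prop) [DecidablePred up] (g g' : S → ℤ) : S → ℤ := fun u => if up u then g u else g' u

/-- the geometry of a reflection -/
structure Rp2Geo (θ : S → S) (up : S → Prop) : Prop where
  inv : ∀ u, θ (θ u) = u
  row : ∀ u, ¬ up u → ¬ up (θ u) → θ u = u
  excl : ∀ u, up u → ¬ up (θ u)

/-- a finite set of configurations which is stable under the reflection and under splicing -/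
structure Rp2Sp (θ : S → S) (up : S → Prop) [DecidablePred up] (Ω : Finset (S → ℤ)) : Prop where
  refl : ∀ g ∈ Ω, (fun u => g (θ u)) ∈ Ω
  mix : ∀ g ∈ Ω, ∀ g' ∈ Ω, (∀ u, ¬ up u → ¬ up (θ u) → g u = g' u) → rp2Mix up g g' ∈ Ω

/-- `f` reads the closed upper side only -/
def Rp2Up (θ : S → S) (up : S → Prop) (f : (S → ℤ) → ℝ) : Prop :=
  ∀ g g' : S → ℤ, (∀ u, ¬ up (θ u) → g u = g' u) → f g = f g'

theorem rp2_defs_eqns_cite : True := by
  have := @rp2Mix.eq_1
  have := @Rp2Up.eq_1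
  trivial

variable {θ : S → S} {up : S → Prop} [DecidablePred up] {Ω : Finset (S → ℤ)}

theorem rp2_fibre (hG : Rp2Geo θ up) (hΩ : Rp2Sp θ up Ω) {f : (S → ℤ) → ℝ} (hf : Rp2Up θ up f)
    (T : Finset (S → ℤ)) (hT : ∀ g ∈ T, g ∈ Ω) (hrow : ∀ g ∈ T, ∀ g' ∈ T, ∀ u, ¬ up u → ¬ up (θ u) → g u = g' u)
    (hcl : ∀ g ∈ T, ∀ g' ∈ Ω, (∀ u, ¬ up u → ¬ up (θ u) → g u = g' u) → g' ∈ T) :
    0 ≤ ∑ h ∈ T, f h * f (fun u => h (θ u)) := by
  classical
  -- reflection inside the fibre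
  have hreflT : ∀ g ∈ T, (fun u => g (θ u)) ∈ T := fun g hg =>
    hcl g hg _ (hΩ.refl g (hT g hg)) (fun u h1 h2 => by rw [hG.row u h1 h2])
  have hmixT : ∀ g ∈ T, ∀ g' ∈ T, rp2Mix up g g' ∈ T := fun g hg g' hg' =>
    hcl g' hg' _ (hΩ.mix g (hT g hg) g' (hT g' hg') (hrow g hg g' hg')) (fun u h1 _ => by simp [rp2Mix, h1])
  have e1 : ∑ g ∈ T, f (fun u => g (θ u)) = ∑ g ∈ T, f g := by
    refine Finset.sum_nbij' (fun g u => g (θ u)) (fun g u => g (θ u)) hreflT hreflT ?_ ?_ ?_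
    · intro g _; funext u; simp only [hG.inv]
    · intro g _; funext u; simp only [hG.inv]
    · intro g _; rfl
  have e2 : (∑ g ∈ T, f g) * (∑ g ∈ T, f (fun u => g (θ u))) = ∑ x ∈ T ×ˢ T, f x.1 * f (fun u => x.2 (θ u)) := by
    rw [Finset.sum_mul_sum, Finset.sum_product]
  have e3 : ∑ x ∈ T ×ˢ T, f x.1 * f (fun u => x.2 (θ u)) = ∑ y ∈ T ×ˢ T, f y.1 * f (fun u => y.1 (θ u)) := by
    refine Finset.sum_nbij' (fun x => (rp2Mix up x.1 x.2, rp2Mix up x.2 x.1)) (fun x => (rp2Mix up x.1 x.2, rp2Mix up x.2 x.1))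
      ?_ ?_ ?_ ?_ ?_
    · intro x hx
      rw [Finset.mem_product] at hx ⊢
      exact ⟨hmixT _ hx.1 _ hx.2, hmixT _ hx.2 _ hx.1⟩
    · intro x hx
      rw [Finset.mem_product] at hx ⊢
      exact ⟨hmixT _ hx.1 _ hx.2, hmixT _ hx.2 _ hx.1⟩
    · intro x _
      ext u <;> by_cases hu : up u <;> simp [rp2Mix, hu]
    · intro x _
      ext u <;> by_cases hu : up u <;> simp [rp2Mix, hu]
    · intro x hx
      rw [Finset.mem_product] at hx
      have a1 : f x.1 = f (rp2Mix up x.1 x.2) := by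
        refine hf _ _ fun u hu => ?_
        by_cases h1 : up u
        · simp [rp2Mix, h1]
        · simp only [rp2Mix, h1, if_false]
          exact hrow _ hx.1 _ hx.2 u h1 hu
      have a2 : f (fun u => x.2 (θ u)) = f (fun u => rp2Mix up x.1 x.2 (θ u)) := by
        refine hf _ _ fun u hu => ?_
        simp [rp2Mix, hu]
      rw [a1, a2]
  have e4 : ∑ y ∈ T ×ˢ T, f y.1 * f (fun u => y.1 (θ u)) = (T.card : ℝ) * ∑ h ∈ T, f h * f (fun u => h (θ u)) := by
    rw [Finset.sum_product, Finset.mul_sum]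
    refine Finset.sum_congr rfl fun h _ => ?_
    show ∑ _y ∈ T, f h * f (fun u => h (θ u)) = _
    rw [Finset.sum_const, nsmul_eq_mul]
  have key : (T.card : ℝ) * ∑ h ∈ T, f h * f (fun u => h (θ u)) = (∑ g ∈ T, f g) ^ 2 := by
    rw [← e4, ← e3, ← e2, e1, sq]
  rcases T.eq_empty_or_nonempty with rfl | hne
  · simp
  · have hc : (0 : ℝ) < T.card := by exact_mod_cast Finset.card_pos.2 hne
    have : 0 ≤ (T.card : ℝ) * ∑ h ∈ T, f h * f (fun u => h (θ u)) := by rw [key]; positivity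
    exact nonneg_of_mul_nonneg_right this hc

/-- **abstract reflection positivity** -/
theorem rp2_core (hG : Rp2Geo θ up) (hΩ : Rp2Sp θ up Ω) {f : (S → ℤ) → ℝ} (hf : Rp2Up θ up f) :
    0 ≤ ∑ h ∈ Ω, f h * f (fun u => h (θ u)) := by
  classical
  set r : (S → ℤ) → (S → ℤ) := fun h u => if ¬ up u ∧ ¬ up (θ u) then h u else 0 with hr
  have hr_iff : ∀ g g' : S → ℤ, r g = r g' ↔ ∀ u, ¬ up u → ¬ up (θ u) → g u = g' u := by
    intro g g'
    constructor
    · intro h u h1 h2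
      have := congrFun h u
      simpa [hr, h1, h2] using this
    · intro h
      funext u
      by_cases hu : ¬ up u ∧ ¬ up (θ u)
      · simp only [hr, hu, and_self]; exact h u hu.1 hu.2
      · simp only [hr, hu, if_false]
  rw [← Finset.sum_fiberwise_of_maps_to (s := Ω) (t := Ω.image r) (g := r) (fun x hx => Finset.mem_image_of_mem r hx)]
  refine Finset.sum_nonneg fun ρ _ => ?_
  refine rp2_fibre hG hΩ hf _ (fun g hg => (Finset.mem_filter.1 hg).1) ?_ ?_
  · intro g hg g' hg'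
    exact (hr_iff g g').1 (((Finset.mem_filter.1 hg).2).trans ((Finset.mem_filter.1 hg').2).symm)
  · intro g hg g' hg' h
    exact Finset.mem_filter.2 ⟨hg', ((hr_iff g g').2 h).symm.trans (Finset.mem_filter.1 hg).2⟩

/-- a contact event across the row: a row event `R` and equality of the heights at `x` and at its mirror image -/
def Rp2Ev (θ : S → S) (up : S → Prop) (e : (S → ℤ) → Prop) : Prop :=
  ∃ (x : S) (R : (S → ℤ) → Prop), ¬ up (θ x) ∧ (∀ g g' : S → ℤ, (∀ u, ¬ up (θ u) → g u = g' u) → (R g ↔ R g')) ∧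
    (∀ h : S → ℤ, R (fun u => h (θ u)) ↔ R h) ∧ ∀ h : S → ℤ, e h ↔ (R h ∧ h x = h (θ x))

open Classical in
/-- **abstract reflection positivity with straddling interactions** -/
theorem rp2_expand (hG : Rp2Geo θ up) (hΩ : Rp2Sp θ up Ω) {κ : ℝ} (hκ : 0 ≤ κ) {ι : Type} (P : Finset ι)
    (e : ι → (S → ℤ) → Prop) (he : ∀ p ∈ P, Rp2Ev θ up (e p)) :
    ∀ f : (S → ℤ) → ℝ, Rp2Up θ up f →
      0 ≤ ∑ h ∈ Ω, f h * f (fun u => h (θ u)) * ∏ p ∈ P, (1 + κ * (if e p h then 1 else 0)) := by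
  induction P using Finset.induction_on with
  | empty =>
    intro f hf
    simpa using rp2_core hG hΩ hf
  | insert p P hp ih =>
    intro f hf
    have ih' := ih (fun q hq => he q (Finset.mem_insert_of_mem hq))
    obtain ⟨x, R, hx, hR1, hR2, hev⟩ := he p (Finset.mem_insert_self p P)
    set Pr : (S → ℤ) → ℝ := fun h => ∏ q ∈ P, (1 + κ * (if e q h then 1 else 0)) with hPr
    set fv : ℤ → (S → ℤ) → ℝ := fun v h => if R h ∧ h x = v then f h else 0 with hfv
    have hfvU : ∀ v, Rp2Up θ up (fv v) := by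
      intro v g g' hgg
      simp only [hfv]
      rw [hf g g' hgg, hgg x hx]
      simp only [hR1 g g' hgg]
    set V : Finset ℤ := Ω.image fun h => h x with hV
    have hpt : ∀ h ∈ Ω, (if e p h then (1 : ℝ) else 0) * (f h * f (fun u => h (θ u)))
        = ∑ v ∈ V, fv v h * fv v (fun u => h (θ u)) := by
      intro h hh
      rw [Finset.sum_eq_single (h x)]
      · simp only [hfv, hR2 h, and_true]
        by_cases h1 : R h
        · by_cases h2 : h x = h (θ x)
          · rw [if_pos ((hev h).2 ⟨h1, h2⟩), if_pos h1, if_pos ⟨h1, h2.symm⟩, one_mul]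
          · rw [if_neg (fun hc => h2 ((hev h).1 hc).2), if_neg (fun hc : R h ∧ h (θ x) = h x => h2 hc.2.symm)]
            simp
        · rw [if_neg (fun hc => h1 ((hev h).1 hc).1), if_neg h1]
          simp
      · intro v _ hv
        simp only [hfv]
        rw [if_neg (fun hc : R h ∧ h x = v => hv hc.2.symm), zero_mul]
      · intro hc
        exact absurd (Finset.mem_image_of_mem (fun h => h x) hh) hc
    have hsplit : ∑ h ∈ Ω, f h * f (fun u => h (θ u)) * ∏ q ∈ insert p P, (1 + κ * (if e q h then 1 else 0))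
        = ∑ h ∈ Ω, f h * f (fun u => h (θ u)) * Pr h
          + κ * ∑ v ∈ V, ∑ h ∈ Ω, fv v h * fv v (fun u => h (θ u)) * Pr h := by
      rw [Finset.sum_comm, Finset.mul_sum, ← Finset.sum_add_distrib]
      refine Finset.sum_congr rfl fun h hh => ?_
      rw [Finset.prod_insert hp, ← Finset.sum_mul, ← hpt h hh]
      simp only [hPr]
      ring
    rw [hsplit]
    refine add_nonneg (ih' f hf) (mul_nonneg hκ (Finset.sum_nonneg fun v _ => ih' (fv v) (hfvU v)))

end abstract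

/-! ## 2. The configurations of `mdlCfg A b` -/

theorem rp2_adm_of_mem {A : Finset MdlS} {b g : MdlS → ℤ} (hg : g ∈ mdlCfg A b) : MdlAdm A b g := by
  unfold mdlCfg at hg
  split_ifs at hg with hf
  · exact hf.mem_toFinset.1 hg
  · simp at hg

theorem rp2_mem_of_adm {A : Finset MdlS} {b g h : MdlS → ℤ} (hg : g ∈ mdlCfg A b) (hh : MdlAdm A b h) : h ∈ mdlCfg A b := by
  unfold mdlCfg at hg ⊢
  split_ifs at hg ⊢ with hf
  · exact hf.mem_toFinset.2 hh
  · simp at hg

/-- a reflection of the lattice `MdlS` in a row of sites: `n` = normal coordinate, `L` = linear part -/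
structure Rp2Lat (θ : MdlS → MdlS) (n : MdlS → ℤ) (L : MdlS → MdlS) : Prop where
  inv : ∀ u, θ (θ u) = u
  nor : ∀ u, n (θ u) = - n u
  fix : ∀ u, n u = 0 → θ u = u
  add : ∀ u d, θ (u + d) = θ u + L d
  dirs : ∀ d ∈ mdlDirs, L d ∈ mdlDirs
  step : ∀ u, ∀ d ∈ mdlDirs, |n (u + d) - n u| ≤ 1

theorem Rp2Lat.geo {θ : MdlS → MdlS} {n : MdlS → ℤ} {L : MdlS → MdlS} (H : Rp2Lat θ n L) :
    Rp2Geo θ (fun u => 0 < n u) where
  inv := H.inv
  row u h1 h2 := by
    rw [H.nor] at h2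
    exact H.fix u (by omega)
  excl u h1 := by
    rw [H.nor]; omega

theorem Rp2Lat.sp {θ : MdlS → MdlS} {n : MdlS → ℤ} {L : MdlS → MdlS} (H : Rp2Lat θ n L) {A : Finset MdlS}
    (hA : ∀ u, θ u ∈ A ↔ u ∈ A) {b : MdlS → ℤ} (hb : ∀ u, b (θ u) = b u) :
    Rp2Sp θ (fun u => 0 < n u) (mdlCfg A b) where
  refl g hg := by
    obtain ⟨g0, g1⟩ := rp2_adm_of_mem hg
    refine rp2_mem_of_adm hg ⟨fun u hu => ?_, fun u hu d hd => ?_⟩
    · show g (θ u) = b u
      rw [g0 (θ u) (fun h => hu ((hA u).1 h)), hb]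
    · show |g (θ (u + d)) - g (θ u)| = 1
      rw [H.add]
      exact g1 (θ u) ((hA u).2 hu) (L d) (H.dirs d hd)
  mix g hg g' hg' hrow := by
    obtain ⟨g0, g1⟩ := rp2_adm_of_mem hg
    obtain ⟨k0, k1⟩ := rp2_adm_of_mem hg'
    have hrow' : ∀ u, n u = 0 → g u = g' u := fun u hu => hrow u (by omega) (by rw [H.nor]; omega)
    refine rp2_mem_of_adm hg ⟨fun u hu => ?_, fun u hu d hd => ?_⟩
    · unfold rp2Mix
      split_ifs
      · exact g0 u hu
      · exact k0 u hu
    · have hs := abs_le.1 (H.step u d hd)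
      unfold rp2Mix
      by_cases h1 : 0 < n u
      · rw [if_pos h1]
        by_cases h2 : 0 < n (u + d)
        · rw [if_pos h2]; exact g1 u hu d hd
        · rw [if_neg h2, ← hrow' (u + d) (by omega)]; exact g1 u hu d hd
      · rw [if_neg h1]
        by_cases h2 : 0 < n (u + d)
        · rw [if_pos h2, ← hrow' u (by omega)]; exact g1 u hu d hd
        · rw [if_neg h2]; exact k1 u hu d hd

/-! ## 3. The weight -/

open Classical in
theorem rp2_wt_prod (c : ℝ) (Q : Finset MdlS) (h : MdlS → ℤ) :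
    mdlWt c Q h = ∏ p ∈ Q, (if MdlC h p then c else 1) := by
  unfold mdlWt mdlN
  rw [Finset.prod_ite, Finset.prod_const, Finset.prod_const_one, mul_one]

/-- the action of a reflection on the plaquettes: `θP` = reflected plaquette, `PU` = the plaquette lies in the closed upper side -/
structure Rp2Plq (θ : MdlS → MdlS) (n : MdlS → ℤ) (θP : MdlS → MdlS) (PU : MdlS → Prop) : Prop where
  inv : ∀ p, θP (θP p) = p
  excl : ∀ p, PU p → ¬ PU (θP p)
  typ : ∀ (h : MdlS → ℤ) (p : MdlS), MdlC (fun u => h (θ u)) p ↔ MdlC h (θP p)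
  loc : ∀ p, PU p → 0 ≤ n p ∧ 0 ≤ n (p + (1, 0)) ∧ 0 ≤ n (p + (0, 1)) ∧ 0 ≤ n (p + (1, 1))

open Classical in
/-- **reflection positivity of the unnormalised sums**, general reflection -/
theorem rp2_sum {θ : MdlS → MdlS} {n : MdlS → ℤ} {L θP : MdlS → MdlS} {PU : MdlS → Prop} (H : Rp2Lat θ n L) (HP : Rp2Plq θ n θP PU)
    {c κ : ℝ} (hκ : 0 ≤ κ) {Q A : Finset MdlS} (hA : ∀ u, θ u ∈ A ↔ u ∈ A) (hQ : ∀ p, θP p ∈ Q ↔ p ∈ Q)
    (hstr : ∀ p ∈ Q, ¬ PU p → ¬ PU (θP p) → c = 1 + κ ∧ Rp2Ev θ (fun u => 0 < n u) (fun h => MdlC h p))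
    {b : MdlS → ℤ} (hb : ∀ u, b (θ u) = b u) (F : (MdlS → ℤ) → ℝ)
    (hF : ∀ h h' : MdlS → ℤ, (∀ u, 0 ≤ n u → h u = h' u) → F h = F h') :
    0 ≤ ∑ h ∈ mdlCfg A b, mdlWt c Q h * (F (fun u => h (θ u)) * F h) := by
  set QU : Finset MdlS := Q.filter PU with hQU
  set QD : Finset MdlS := (Q.filter fun p => ¬ PU p).filter fun p => PU (θP p) with hQD
  set QS : Finset MdlS := (Q.filter fun p => ¬ PU p).filter fun p => ¬ PU (θP p) with hQS
  set wU : (MdlS → ℤ) → ℝ := fun h => ∏ p ∈ QU, (if MdlC h p then c else 1) with hwU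
  have hup : ∀ g g' : MdlS → ℤ, (∀ u, ¬ (0 < n (θ u)) → g u = g' u) → ∀ u, 0 ≤ n u → g u = g' u := by
    intro g g' h u hu
    exact h u (by rw [H.nor]; omega)
  have hf : Rp2Up θ (fun u => 0 < n u) (fun h => wU h * F h) := by
    intro g g' hgg
    have hgg' := hup g g' hgg
    show wU g * F g = wU g' * F g'
    rw [hF g g' hgg']
    congr 1
    refine Finset.prod_congr rfl fun p hp => ?_
    obtain ⟨l0, l1, l2, l3⟩ := HP.loc p (Finset.mem_filter.1 hp).2
    have : MdlC g p ↔ MdlC g' p := by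
      unfold MdlC MdlD1 MdlD2
      rw [hgg' _ l0, hgg' _ l1, hgg' _ l2, hgg' _ l3]
    simp only [this]
  have hD : ∀ h : MdlS → ℤ, ∏ p ∈ QD, (if MdlC h p then c else 1) = wU (fun u => h (θ u)) := by
    intro h
    refine Finset.prod_nbij' θP θP ?_ ?_ (fun p _ => HP.inv p) (fun p _ => HP.inv p) ?_
    · intro p hp
      rw [hQD, Finset.mem_filter, Finset.mem_filter] at hp
      exact Finset.mem_filter.2 ⟨(hQ p).2 hp.1.1, hp.2⟩
    · intro p hp
      rw [hQU, Finset.mem_filter] at hp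
      rw [hQD, Finset.mem_filter, Finset.mem_filter]
      exact ⟨⟨(hQ p).2 hp.1, HP.excl p hp.2⟩, by rw [HP.inv]; exact hp.2⟩
    · intro p _
      simp only [HP.typ h (θP p), HP.inv]
  have hS : ∀ h : MdlS → ℤ, ∏ p ∈ QS, (if MdlC h p then c else 1) = ∏ p ∈ QS, (1 + κ * (if MdlC h p then 1 else 0)) := by
    intro h
    refine Finset.prod_congr rfl fun p hp => ?_
    rw [hQS, Finset.mem_filter, Finset.mem_filter] at hp
    obtain ⟨hc, -⟩ := hstr p hp.1.1 hp.1.2 hp.2
    split_ifs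
    · rw [hc]; ring
    · ring
  have hw : ∀ h : MdlS → ℤ, mdlWt c Q h = wU h * wU (fun u => h (θ u)) * ∏ p ∈ QS, (1 + κ * (if MdlC h p then 1 else 0)) := by
    intro h
    rw [rp2_wt_prod, ← hS, ← hD, ← Finset.prod_filter_mul_prod_filter_not Q PU, mul_assoc,
      ← Finset.prod_filter_mul_prod_filter_not (Q.filter fun p => ¬ PU p) (fun p => PU (θP p))]
  have key := rp2_expand H.geo (H.sp hA hb) hκ QS (fun p h => MdlC h p) (fun p hp => by
    rw [hQS, Finset.mem_filter, Finset.mem_filter] at hp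
    exact (hstr p hp.1.1 hp.1.2 hp.2).2) (fun h => wU h * F h) hf
  refine key.trans_eq (Finset.sum_congr rfl fun h _ => ?_)
  rw [hw]
  ring

theorem rp2_ZQ_nonneg {c : ℝ} (hc : 0 ≤ c) (Q A : Finset MdlS) (b : MdlS → ℤ) : 0 ≤ mdlZQ c Q A b :=
  Finset.sum_nonneg fun h _ => pow_nonneg hc _

/-! ## 4. The two reflections -/

/-- reflection in the axial row `u.2 = 0` -/
def rp2Ax (u : MdlS) : MdlS := (u.1, -u.2)

/-- reflection in the diagonal row `u.1 + u.2 = 0` -/
def rp2Dg (u : MdlS) : MdlS := (-u.2, -u.1)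

theorem rp2_refl_eqns_cite : True := by
  have := @rp2Ax.eq_1
  have := @rp2Dg.eq_1
  have := @Rp2Ev.eq_1
  trivial

theorem rp2_ax_lat : Rp2Lat rp2Ax (fun u => u.2) rp2Ax where
  inv u := by simp [rp2Ax]
  nor u := rfl
  fix u hu := by
    have hu : u.2 = 0 := hu
    ext <;> simp [rp2Ax, hu]
  add u d := by
    ext <;> simp [rp2Ax]
    ring
  dirs d hd := by
    simp only [mdlDirs, Finset.mem_insert, Finset.mem_singleton] at hd ⊢
    rcases hd with rfl | rfl | rfl | rfl <;> simp [rp2Ax]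
  step u d hd := by
    simp only [mdlDirs, Finset.mem_insert, Finset.mem_singleton] at hd
    rcases hd with rfl | rfl | rfl | rfl <;> simp

theorem rp2_dg_lat : Rp2Lat rp2Dg (fun u => u.1 + u.2) rp2Dg where
  inv u := by simp [rp2Dg]
  nor u := by simp only [rp2Dg]; ring
  fix u hu := by
    have hu : u.1 + u.2 = 0 := hu
    ext
    · simp only [rp2Dg]; omega
    · simp only [rp2Dg]; omega
  add u d := by
    ext <;> simp [rp2Dg] <;> ring
  dirs d hd := by
    simp only [mdlDirs, Finset.mem_insert, Finset.mem_singleton] at hd ⊢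
    rcases hd with rfl | rfl | rfl | rfl <;> simp [rp2Dg]
  step u d hd := by
    simp only [mdlDirs, Finset.mem_insert, Finset.mem_singleton] at hd
    rcases hd with rfl | rfl | rfl | rfl <;> simp

theorem rp2_ax_plq : Rp2Plq rp2Ax (fun u => u.2) (fun p => (p.1, -p.2 - 1)) (fun p => 0 ≤ p.2) where
  inv p := by ext <;> simp
  excl p hp := by simp only; omega
  typ h p := by
    obtain ⟨a, b⟩ := p
    unfold MdlC MdlD1 MdlD2 rp2Ax
    simp only [Prod.mk_add_mk, add_zero]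
    have e1 : -b - 1 + 1 = -b := by ring
    have e2 : -(b + 1) = -b - 1 := by ring
    rw [e1, e2]
    constructor
    · rintro ⟨h1, h2⟩; exact ⟨h2.symm, h1.symm⟩
    · rintro ⟨h1, h2⟩; exact ⟨h2.symm, h1.symm⟩
  loc p hp := by
    simp only [Prod.snd_add]
    omega

theorem rp2_dg_plq : Rp2Plq rp2Dg (fun u => u.1 + u.2) (fun p => (-p.2 - 1, -p.1 - 1)) (fun p => 0 ≤ p.1 + p.2) where
  inv p := by ext <;> simp
  excl p hp := by simp only; omega
  typ h p := by
    obtain ⟨a, b⟩ := p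
    unfold MdlC MdlD1 MdlD2 rp2Dg
    simp only [Prod.mk_add_mk, add_zero]
    have e1 : -b - 1 + 1 = -b := by ring
    have e2 : -(b + 1) = -b - 1 := by ring
    have e3 : -a - 1 + 1 = -a := by ring
    have e4 : -(a + 1) = -a - 1 := by ring
    rw [e1, e2, e3, e4]
    constructor
    · rintro ⟨h1, h2⟩; exact ⟨h1.symm, h2⟩
    · rintro ⟨h1, h2⟩; exact ⟨h1.symm, h2⟩
  loc p hp := by
    simp only [Prod.fst_add, Prod.snd_add]
    omega

/-- the type `c` event of a straddling plaquette is a contact event -/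
theorem rp2_dg_ev {p : MdlS} (hp : p.1 + p.2 = -1) : Rp2Ev rp2Dg (fun u => 0 < u.1 + u.2) (fun h => MdlC h p) := by
  obtain ⟨a, b⟩ := p
  have hp : a + b = -1 := hp
  have hb : b = -1 - a := by omega
  subst hb
  refine ⟨(a, -1 - a) + (1, 1), fun h => MdlD2 h (a, -1 - a), ?_, ?_, ?_, ?_⟩
  · simp only [rp2Dg, Prod.mk_add_mk]; omega
  · intro g g' hgg
    have h1 : g ((a, -1 - a) + (1, 0)) = g' ((a, -1 - a) + (1, 0)) := hgg _ (by simp only [rp2Dg, Prod.mk_add_mk]; omega)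
    have h2 : g ((a, -1 - a) + (0, 1)) = g' ((a, -1 - a) + (0, 1)) := hgg _ (by simp only [rp2Dg, Prod.mk_add_mk]; omega)
    show (g ((a, -1 - a) + (1, 0)) = g ((a, -1 - a) + (0, 1))) ↔ (g' ((a, -1 - a) + (1, 0)) = g' ((a, -1 - a) + (0, 1)))
    rw [h1, h2]
  · intro h
    unfold MdlD2 rp2Dg
    simp only [Prod.mk_add_mk, add_zero]
    have e1 : -(-1 - a) = a + 1 := by ring
    have e2 : -(a + 1) = -1 - a := by ring
    have e3 : -(-1 - a + 1) = a := by ring
    have e4 : -a = -1 - a + 1 := by ring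
    rw [e1, e2, e3, e4]
  · intro h
    unfold MdlC MdlD1 rp2Dg
    simp only [Prod.mk_add_mk]
    have e1 : -(-1 - a + 1) = a := by ring
    have e2 : -(a + 1) = -1 - a := by ring
    rw [e1, e2]
    constructor
    · rintro ⟨h1, h2⟩; exact ⟨h2, h1.symm⟩
    · rintro ⟨h1, h2⟩; exact ⟨h2.symm, h1⟩

/-- **REFLECTION POSITIVITY ACROSS THE AXIAL ROW** `u.2 = 0` of `MdlS` (a diagonal of the primal lattice): every observable of the closed upper half plane. -/
theorem rp2_axial {c : ℝ} (hc : 0 ≤ c) {Q A : Finset MdlS} (hA : ∀ u, rp2Ax u ∈ A ↔ u ∈ A) (hQ : ∀ p : MdlS, (p.1, -p.2 - 1) ∈ Q ↔ p ∈ Q)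
    {b : MdlS → ℤ} (hb : ∀ u, b (rp2Ax u) = b u) (F : (MdlS → ℤ) → ℝ)
    (hF : ∀ h h' : MdlS → ℤ, (∀ u : MdlS, 0 ≤ u.2 → h u = h' u) → F h = F h') :
    0 ≤ mdlEQ c Q A b fun h => F (fun u => h (rp2Ax u)) * F h := by
  unfold mdlEQ
  refine div_nonneg ?_ (rp2_ZQ_nonneg hc Q A b)
  refine rp2_sum rp2_ax_lat rp2_ax_plq (κ := 0) le_rfl hA hQ ?_ hb F hF
  intro p _ h1 h2
  exfalso
  simp only at h1 h2
  omega

/-- **REFLECTION POSITIVITY ACROSS THE DIAGONAL ROW** `u.1 + u.2 = 0` of `MdlS` (a row of the primal lattice), `c ≥ 1`: every observable of the closed upper side. -/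
theorem rp2_diag {c : ℝ} (hc : 1 ≤ c) {Q A : Finset MdlS} (hA : ∀ u, rp2Dg u ∈ A ↔ u ∈ A) (hQ : ∀ p : MdlS, (-p.2 - 1, -p.1 - 1) ∈ Q ↔ p ∈ Q)
    {b : MdlS → ℤ} (hb : ∀ u, b (rp2Dg u) = b u) (F : (MdlS → ℤ) → ℝ)
    (hF : ∀ h h' : MdlS → ℤ, (∀ u : MdlS, 0 ≤ u.1 + u.2 → h u = h' u) → F h = F h') :
    0 ≤ mdlEQ c Q A b fun h => F (fun u => h (rp2Dg u)) * F h := by
  unfold mdlEQ
  refine div_nonneg ?_ (rp2_ZQ_nonneg (by linarith) Q A b)
  refine rp2_sum rp2_dg_lat rp2_dg_plq (κ := c - 1) (by linarith) hA hQ ?_ hb F hF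
  intro p _ h1 h2
  refine ⟨by ring, rp2_dg_ev ?_⟩
  simp only at h1 h2
  omega

end Claimed.Agent.R292
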