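import Claimed.Agent.R292.Defs.SPECI
import Claimed.Agent.R292.Rsw.MomSmear131
import Claimed.Agent.R292.Bridge.Rect89

/-!
# Row 292 (S0540), Spec/Sm131 : `asi_sm` (P4 of Spec/B6) FROM THE CONTRACT `exit_rsw_mom_plane`      (owner helper131; prefix `asm131`)      0 sorry

* `asm131_box_jordan`    the straight boxes `rswBox z n`, `1 ≤ n`, are Jordan (`atb89_rect_region` + `atb89_jordan` of helper89)
* `Asm131Plane t`        = the body of `exit_rsw_mom_plane t` (Exit/RSW), VERBATIM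
* **`asm131_sm`**        = the statement of `asi_sm c` VERBATIM, from `Asm131Plane c⁻¹`      (use: `asm131_sm c hc1 hc2 (exit_rsw_mom_plane c⁻¹ _ _)`)
-/

set_option autoImplicit false
set_option linter.unusedVariables false

namespace Claimed.Agent.R292

open Claims Claims.C0468 MeasureTheory Filter Topology

/-- the straight boxes are Jordan -/
theorem asm131_box_jordan (z : ℤ × ℤ) {n : ℕ} (hn : 1 ≤ n) : RswJordan (rswBox z n) := by
  have hn' : (1 : ℤ) ≤ n := by exact_mod_cast hn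
  unfold RswJordan rswBox
  rw [atb89_rect_region one_pos _ _ _ _ (by omega) (by omega)]
  refine atb89_jordan (atb89_rectG ?_ ?_) _
  · have : ((z.1 - n : ℤ) : ℝ) < ((z.1 + n : ℤ) : ℝ) := by exact_mod_cast (by omega : z.1 - n < z.1 + n)
    linarith
  · have : ((z.2 - n : ℤ) : ℝ) < ((z.2 + n : ℤ) : ℝ) := by exact_mod_cast (by omega : z.2 - n < z.2 + n)
    linarith

/-- the body of `exit_rsw_mom_plane` -/
def Asm131Plane (t : ℝ) : Prop :=
  ∃ C0 : ℕ, ∀ p : ℕ, ∃ C : ℝ, 0 < C ∧ ∀ (F : Finset (ℤ × ℤ)) (z0 : ℤ × ℤ) (a : ℕ) (A : ℝ) (w : (ℤ × ℤ) →₀ ℝ),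
    RswJordan F → 1 ≤ a → rswBox z0 (C0 * a) ⊆ F → RswSm z0 a A w → w.sum (fun _ x => x) = 0 →
    rswE t F true (fun ω => |rswArr w (rswH F ω)| ^ p) ≤ (C * A) ^ p

/-- the corners of a set of faces contain the faces -/
theorem asm131_face_corner {F : Finset (ℤ × ℤ)} {v : ℤ × ℤ} (h : v ∈ F) : v ∈ cornersOf F := by
  rw [atb89_mem_corners]
  exact Or.inl h

theorem asm131_sm (c : ℝ) (hc1 : 1 < c) (hc2 : c ≤ 2) (H : Asm131Plane c⁻¹) :
    ∃ K : ℝ, ∀ N : ℕ, 1 ≤ N → ∀ b : AspG →₀ ℝ, aspTot b = 0 → (∀ u ∈ b.support, |u.1| ≤ (N : ℤ) ∧ |u.2| ≤ (N : ℤ)) →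
      (∀ u, |b u| ≤ 1 / (N : ℝ) ^ 2) → ∀ᶠ R : ℕ in atTop, mdlFz c (rswBox 0 R) (fun h => asiArr b h ^ 2) ≤ K := by
  obtain ⟨C0, H⟩ := H
  obtain ⟨C, hC, H⟩ := H 2
  refine ⟨(C * 9) ^ 2, fun N hN b hb hsupp hsup => ?_⟩
  have hc0 : 0 < c := by linarith
  have hN0 : (0 : ℝ) < N := by exact_mod_cast hN
  have hN1 : (1 : ℝ) ≤ N := by exact_mod_cast hN
  -- the smearing record
  have hsub : b.support ⊆ rswBox 0 (N + 1) := by
    intro u hu
    obtain ⟨h1, h2⟩ := hsupp u hu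
    rw [abs_le] at h1 h2
    rw [msm131_mem_box]
    simp only [Prod.fst_zero, Prod.snd_zero]
    push_cast
    omega
  have hsm : RswSm 0 (N + 1) 9 b := by
    refine ⟨hsub, ?_, fun u => ?_⟩
    · have hball : b.support ⊆ msm131Ball 0 N := by
        intro u hu
        obtain ⟨h1, h2⟩ := hsupp u hu
        rw [abs_le] at h1 h2
        rw [msm131_mem_ball]
        unfold msm131Dist
        simp only [Prod.fst_zero, Prod.snd_zero]
        omega
      have hcard : ((b.support.card : ℕ) : ℝ) ≤ (2 * (N : ℝ) + 1) ^ 2 := by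
        have := Finset.card_le_card hball
        rw [msm131_ball_card] at this
        exact_mod_cast this
      calc ∑ u ∈ b.support, |b u| ≤ ∑ _u ∈ b.support, 1 / (N : ℝ) ^ 2 := Finset.sum_le_sum fun u _ => hsup u
        _ = (b.support.card : ℝ) * (1 / (N : ℝ) ^ 2) := by rw [Finset.sum_const, nsmul_eq_mul]
        _ ≤ (2 * (N : ℝ) + 1) ^ 2 * (1 / (N : ℝ) ^ 2) := mul_le_mul_of_nonneg_right hcard (by positivity)
        _ ≤ 9 := by
            rw [mul_one_div, div_le_iff₀ (by positivity)]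
            nlinarith
    · calc |b u| * (((N + 1 : ℕ) : ℝ)) ^ 2 ≤ 1 / (N : ℝ) ^ 2 * (((N + 1 : ℕ) : ℝ)) ^ 2 :=
            mul_le_mul_of_nonneg_right (hsup u) (by positivity)
        _ ≤ 9 := by
            rw [one_div, inv_mul_le_iff₀ (by positivity)]
            push_cast
            nlinarith
  filter_upwards [eventually_ge_atTop (C0 * (N + 1) + (N + 1) + 1)] with R hR
  have hJ : RswJordan (rswBox 0 R) := asm131_box_jordan 0 (by omega)
  have h1 := H (rswBox 0 R) 0 (N + 1) 9 b hJ (by omega) (msm131_box_mono 0 (by omega)) hsm hb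
  have hcor : b.support ⊆ cornersOf (rswBox 0 R) := fun u hu =>
    asm131_face_corner (msm131_box_mono 0 (by omega) (hsub hu))
  have e := msm131_bE (inv_ne_zero hc0.ne') (msm131_bex hJ) (fun h => |rswArr b h| ^ 2)
    (fun h h' hh => by simp only [msm131_barr_loc hcor hh])
  rw [e, inv_inv] at h1
  refine le_trans (le_of_eq ?_) h1
  congr 1
  funext h
  rw [sq_abs]
  rfl

end Claimed.Agent.R292
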