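import Claimed.Agent.R291.Pln.CovC
import Claimed.Agent.R292.Defs.SPEC

/-!
# Row 292, Spec/Spec12 : B1 = TEX[lem:increment-spectral], model free      (helper12; prefix `asu`)

`asu_spec : AspIn a → ∃ Cf K, AspSpec a Cf K`.

NO PORT is needed for the heart: `R291/Pln/CovA.lean`, `CovB.lean` (helper179) are written in LATTICE coordinates (`TV = ℤ × ℤ = AspG`, characters
`e^{2π i u·θ}` on `UnitAddTorus (Fin 2)`, box chart `gspB2 θ ∈ (-π, π]²`), so `Pl4In`, `Pl4Spec`, `pl4_spec_C`, `pl4_spec_inv'`, `pl4_ann'` are geometry free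
and are IMPORTED.  On the square grid the embedding is the identity, hence `Cf = (pl4C a).map gspB2`.

1. symmetries of `a`;  2. `AspIn a → Pl4In a`;  3. the chart;  4. transport of the quarter turn;  5. the symbol;  6. the contract.
-/

set_option autoImplicit false

namespace Claimed.Agent.R292

open MeasureTheory Claimed.Agent.R291
open scoped ComplexConjugate ENNReal

/-! ## 1. symmetries of the variogram -/

theorem asu_symY {a : AspG → ℝ} (h : AspIn a) (u : AspG) : a (u.1, -u.2) = a u := by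
  have h1 : a (-u.2, u.1) = a (u.1, -u.2) := h.symS (u.1, -u.2)
  have h2 : a (-u.2, u.1) = a (u.2, u.1) := h.symX (u.2, u.1)
  have h3 : a (u.2, u.1) = a u := h.symS u
  rw [← h1, h2, h3]

theorem asu_even {a : AspG → ℝ} (h : AspIn a) (u : AspG) : a (-u) = a u := by
  have h1 : a (-u.1, -u.2) = a (u.1, -u.2) := h.symX (u.1, -u.2)
  have h2 := asu_symY h u
  show a (-u.1, -u.2) = a u
  rw [h1, h2]

theorem asu_quarter {a : AspG → ℝ} (h : AspIn a) (u : AspG) : a (u.2, -u.1) = a u := by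
  have h1 : a (u.2, -u.1) = a (u.2, u.1) := asu_symY h (u.2, u.1)
  have h2 : a (u.2, u.1) = a u := h.symS u
  rw [h1, h2]

/-! ## 2. `AspIn a → Pl4In a` -/

theorem asu_tot (b : AspG →₀ ℝ) : latTot b = aspTot b := rfl

theorem asu_cov_eq {a : AspG → ℝ} (ha : ∀ u, a (-u) = a u) (b b' : AspG →₀ ℝ) : pl4Cov a b b' = aspGam a b b' := by
  unfold pl4Cov aspGam
  congr 1
  refine Finsupp.sum_congr fun u _ => Finsupp.sum_congr fun v _ => ?_
  rw [← ha (v - u), neg_sub]

theorem asu_gam_smul (a : AspG → ℝ) (c : ℝ) (b : AspG →₀ ℝ) : aspGam a (c • b) (c • b) = c ^ 2 * aspGam a b b := by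
  unfold aspGam
  rw [Finsupp.sum_smul_index (by intro u; simp)]
  have key : ∀ (u : AspG) (x : ℝ), ((c • b).sum fun v y => c * x * y * a (u - v)) = c ^ 2 * b.sum fun v y => x * y * a (u - v) := by
    intro u x
    rw [Finsupp.sum_smul_index (by intro v; simp), Finsupp.mul_sum]
    refine Finsupp.sum_congr fun v _ => ?_
    ring
  simp_rw [key]
  rw [← Finsupp.mul_sum]
  ring

theorem asu_tot_smul (c : ℝ) (b : AspG →₀ ℝ) : aspTot (c • b) = c * aspTot b := by
  unfold aspTot
  rw [Finsupp.sum_smul_index (by intro u; rfl), Finsupp.mul_sum]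

theorem asu_in {a : AspG → ℝ} (h : AspIn a) : Pl4In a := by
  have hev := asu_even h
  refine ⟨hev, fun b hb => by rw [asu_cov_eq hev]; exact h.psd b hb, fun A => ?_⟩
  obtain ⟨K, hK⟩ := h.sm
  refine ⟨A ^ 2 * |K|, fun N b hN hb hsupp _ hsup => ?_⟩
  rw [asu_cov_eq hev]
  have hNpos : (0 : ℝ) < N := by exact_mod_cast hN
  rcases le_or_gt A 0 with hA | hA
  · have hb0 : b = 0 := by
      ext u
      have h1 := hsup u
      have h2 : A / (N : ℝ) ^ 2 ≤ 0 := div_nonpos_of_nonpos_of_nonneg hA (by positivity)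
      exact abs_nonpos_iff.1 (h1.trans h2)
    rw [hb0]
    have : aspGam a 0 0 = 0 := by simp [aspGam]
    rw [this]
    positivity
  · set b' : AspG →₀ ℝ := A⁻¹ • b with hb'
    have hbb : b = A • b' := by
      rw [hb', smul_smul, mul_inv_cancel₀ hA.ne', one_smul]
    have h1 : aspGam a b' b' ≤ K := by
      refine hK N hN b' ?_ ?_ ?_
      · rw [hb', asu_tot_smul, ← asu_tot, hb, mul_zero]
      · intro u hu
        have hu' : u ∈ b.support := by
          rw [Finsupp.mem_support_iff] at hu ⊢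
          intro h0
          apply hu
          rw [hb', Finsupp.smul_apply, h0, smul_zero]
        exact hsupp u hu'
      · intro u
        rw [hb', Finsupp.smul_apply, smul_eq_mul, abs_mul, abs_of_pos (by positivity : 0 < A⁻¹)]
        calc A⁻¹ * |b u| ≤ A⁻¹ * (A / (N : ℝ) ^ 2) := by
              gcongr
              exact hsup u
          _ = 1 / (N : ℝ) ^ 2 := by
              field_simp
    rw [hbb, asu_gam_smul]
    exact mul_le_mul_of_nonneg_left (h1.trans (le_abs_self K)) (by positivity)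

/-! ## 3. the chart -/

theorem asu_chi (u : AspG) (θ : Pl4T) : Complex.exp (Complex.I * (aspPh (gspB2 θ) u : ℂ)) = pl4Chi u θ := by
  rw [pl4Chi_box]
  congr 3
  unfold aspPh
  ring

theorem asu_hat (b : AspG →₀ ℝ) (θ : Pl4T) : aspHat b (gspB2 θ) = pl4Hat b θ := by
  unfold aspHat pl4Hat
  simp_rw [asu_chi]

theorem asu_ph_cont (u : AspG) : Continuous fun p : ℝ × ℝ => aspPh p u := by
  unfold aspPh
  fun_prop

theorem asu_hat_cont (b : AspG →₀ ℝ) : Continuous (aspHat b) := by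
  unfold aspHat Finsupp.sum
  have := asu_ph_cont
  fun_prop

theorem asu_ph_add (p : ℝ × ℝ) (u w : AspG) : aspPh p (u + w) = aspPh p u + aspPh p w := by
  simp only [aspPh, Prod.fst_add, Prod.snd_add]
  push_cast
  ring

theorem asu_hat_tr (w : AspG) (b : AspG →₀ ℝ) (p : ℝ × ℝ) :
    aspHat (aspTr w b) p = Complex.exp (Complex.I * (aspPh p w : ℂ)) * aspHat b p := by
  unfold aspHat aspTr
  rw [Finsupp.sum_mapDomain_index (by simp) (by intro u x y; push_cast; ring), Finsupp.mul_sum]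
  refine Finsupp.sum_congr fun u _ => ?_
  rw [asu_ph_add]
  push_cast
  rw [mul_add, Complex.exp_add]
  ring

theorem asu_tot_tr (w : AspG) (b : AspG →₀ ℝ) : aspTot (aspTr w b) = aspTot b := by
  unfold aspTot aspTr
  rw [Finsupp.sum_mapDomain_index (by simp) (by intros; rfl)]

theorem asu_B2_eq_zero {θ : Pl4T} : gspB2 θ = 0 ↔ θ = 0 := by
  constructor
  · intro h
    have h1 : gspArg (θ 0) = 0 := congrArg Prod.fst h
    have h2 : gspArg (θ 1) = 0 := congrArg Prod.snd h
    funext i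
    fin_cases i
    · exact gspArg_eq_zero_iff.1 h1
    · exact gspArg_eq_zero_iff.1 h2
  · rintro rfl
    unfold gspB2
    simp [gspArg_zero]

theorem asu_box_of_sq {p : ℝ × ℝ} (hp : aspSq p < Real.pi ^ 2) :
    p ∈ Set.Ioc (-Real.pi) Real.pi ×ˢ Set.Ioc (-Real.pi) Real.pi := by
  have hpi := Real.pi_pos
  unfold aspSq at hp
  have h1 : |p.1| < Real.pi := abs_lt_of_sq_lt_sq (by nlinarith [sq_nonneg p.2]) hpi.le
  have h2 : |p.2| < Real.pi := abs_lt_of_sq_lt_sq (by nlinarith [sq_nonneg p.1]) hpi.le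
  rw [abs_lt] at h1 h2
  exact ⟨⟨h1.1, h1.2.le⟩, ⟨h2.1, h2.2.le⟩⟩

/-! ## 4. transport of a symmetry -/

/-- abstract transport: `B` on the torus covers the isometry `σ` of the frequency plane -/
theorem asu_inv {C : Measure Pl4T} (B : Pl4T ≃ᵐ Pl4T) (hC : C.map B = C) (σ σ' : ℝ × ℝ → ℝ × ℝ)
    (hσ : ∀ p, aspSq (σ p) = aspSq p) (hσ' : ∀ p, aspSq (σ' p) = aspSq p)
    (hσσ : ∀ p, σ (σ' p) = p) (hσm : Measurable σ) (hB : ∀ p, B (gspU2 p) = gspU2 (σ p))
    (f : ℝ × ℝ → ℝ≥0∞) (hf : Measurable f) (hf0 : ∀ p, Real.pi ^ 2 ≤ aspSq p → f p = 0) :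
    ∫⁻ p, f (σ p) ∂(C.map gspB2) = ∫⁻ p, f p ∂(C.map gspB2) := by
  have m1 : Measurable fun p => f (σ p) := hf.comp hσm
  have m2 : Measurable fun θ => f (gspB2 θ) := hf.comp gspB2_measurable
  rw [lintegral_map m1 gspB2_measurable, lintegral_map hf gspB2_measurable]
  conv_rhs => rw [← hC]
  rw [lintegral_map m2 B.measurable]
  refine lintegral_congr fun θ => ?_
  by_cases h : aspSq (gspB2 θ) < Real.pi ^ 2
  · have h1 : B θ = gspU2 (σ (gspB2 θ)) := by rw [← hB, gspU2_B2]
    rw [h1, gspB2_U2 (asu_box_of_sq (by rw [hσ]; exact h))]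
  · push Not at h
    rw [hf0 _ (by rw [hσ]; exact h)]
    symm
    apply hf0
    by_contra hlt
    push Not at hlt
    set q := gspB2 (B θ) with hq
    have h2 : B θ = B (gspU2 (σ' q)) := by rw [hB, hσσ, hq, gspU2_B2]
    have h3 : θ = gspU2 (σ' q) := B.injective h2
    have h4 : gspB2 θ = σ' q := by rw [h3, gspB2_U2 (asu_box_of_sq (by rw [hσ']; exact hlt))]
    rw [h4, hσ'] at h
    linarith

/-- dual action of the quarter turn -/
def asuBQ : Pl4T ≃ᵐ Pl4T where
  toFun := fun θ => ![-θ 1, θ 0]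
  invFun := fun η => ![η 1, -η 0]
  left_inv := fun θ => by
    funext i
    fin_cases i <;> simp
  right_inv := fun η => by
    funext i
    fin_cases i <;> simp
  measurable_toFun := by
    apply Continuous.measurable
    refine continuous_pi fun i => ?_
    fin_cases i
    · exact (continuous_apply 1).neg
    · exact continuous_apply 0
  measurable_invFun := by
    apply Continuous.measurable
    refine continuous_pi fun i => ?_
    fin_cases i
    · exact continuous_apply 1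
    · exact (continuous_apply 0).neg

/-- the quarter turn `u ↦ (u.2, -u.1)` of the grid as an additive equivalence -/
def asuAQ : AspG ≃+ AspG where
  toFun := fun u => (u.2, -u.1)
  invFun := fun u => (-u.2, u.1)
  left_inv := fun u => by simp
  right_inv := fun u => by simp
  map_add' := fun u v => by
    apply Prod.ext
    · simp
    · simp only [Prod.fst_add, Prod.snd_add, neg_add_rev]
      ring

theorem asu_quarter_dual (u : AspG) (θ : Pl4T) : pl4Chi (asuAQ u) θ = pl4Chi u (asuBQ θ) := by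
  rw [pl4Chi_eq, pl4Chi_eq]
  congr 2
  show u.2 • θ 0 + (-u.1) • θ 1 = u.1 • (-θ 1) + u.2 • θ 0
  simp only [neg_smul, smul_neg]
  abel

theorem asu_quarter_U2 (p : ℝ × ℝ) : asuBQ (gspU2 p) = gspU2 (-p.2, p.1) := by
  funext i
  fin_cases i
  · show -gspPt p.2 = gspPt (-p.2)
    rw [gspPt_neg']
  · rfl

/-! ## 5. the symbol -/

theorem asu_norm_sq (x : ℝ) : ‖Complex.exp (Complex.I * (x : ℂ)) - 1‖ ^ 2 = 2 - 2 * Real.cos x := by
  rw [Complex.norm_exp_I_mul_ofReal_sub_one, Real.norm_eq_abs, sq_abs, mul_pow, Real.sin_sq_eq_half_sub]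
  rw [show 2 * (x / 2) = x by ring]
  ring

theorem asu_e1 (θ : Pl4T) : ‖pl4Chi (1, 0) θ - 1‖ ^ 2 = 2 - 2 * Real.cos (gspB2 θ).1 := by
  rw [pl4Chi_box, ← asu_norm_sq]
  simp

theorem asu_e2 (θ : Pl4T) : ‖pl4Chi (0, 1) θ - 1‖ ^ 2 = 2 - 2 * Real.cos (gspB2 θ).2 := by
  rw [pl4Chi_box, ← asu_norm_sq]
  simp

theorem asu_DD (θ : Pl4T) : aspDD (gspB2 θ) = ‖pl4Chi (1, 0) θ - 1‖ ^ 2 + ‖pl4Chi (0, 1) θ - 1‖ ^ 2 := by
  rw [asu_e1, asu_e2]
  unfold aspDD
  ring

theorem asu_D (θ : Pl4T) : pl4D θ = ENNReal.ofReal (aspDD (gspB2 θ)) := by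
  rw [asu_DD, ENNReal.ofReal_add (by positivity) (by positivity)]
  unfold pl4D pl4W
  rw [← ofReal_norm, ← ofReal_norm, ENNReal.ofReal_pow (norm_nonneg _), ENNReal.ofReal_pow (norm_nonneg _)]

theorem asu_DD_ge (θ : Pl4T) : 4 / Real.pi ^ 2 * aspSq (gspB2 θ) ≤ aspDD (gspB2 θ) := by
  rw [asu_DD]
  have g1 := pow_le_pow_left₀ (by positivity) (pl4Chi_e1_ge θ) 2
  have g2 := pow_le_pow_left₀ (by positivity) (pl4Chi_e2_ge θ) 2
  rw [mul_pow, sq_abs, div_pow] at g1 g2
  unfold aspSq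
  have e : 4 / Real.pi ^ 2 * ((gspB2 θ).1 ^ 2 + (gspB2 θ).2 ^ 2)
      = 2 ^ 2 / Real.pi ^ 2 * (gspB2 θ).1 ^ 2 + 2 ^ 2 / Real.pi ^ 2 * (gspB2 θ).2 ^ 2 := by ring
  rw [e]
  exact add_le_add g1 g2

theorem asu_DD_meas : Measurable fun p : ℝ × ℝ => ENNReal.ofReal (aspDD p) := by
  unfold aspDD
  fun_prop

theorem asu_sq_cont : Continuous aspSq := by
  unfold aspSq
  fun_prop

/-! ## 6. the contract -/

theorem asu_spec_of {a : AspG → ℝ} (h : AspIn a) {C : Measure Pl4T} (hC : Pl4Spec a C) :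
    ∃ K : ℝ, AspSpec a (C.map gspB2) K := by
  have hpi := Real.pi_pos
  have hev := asu_even h
  obtain ⟨K₁, hK₁, hann⟩ := pl4_ann' (asu_in h) hC
  set I : ℝ≥0∞ := ∫⁻ θ, pl4D θ ∂C with hI
  have hIfin : I < ⊤ := by
    rw [hI]
    unfold pl4D
    rw [lintegral_add_left (pl4W_meas _)]
    exact ENNReal.add_lt_top.2 ⟨hC.fin _, hC.fin _⟩
  have hKK : ENNReal.ofReal (K₁.toReal + 40 * I.toReal) = K₁ + 40 * I := by
    rw [ENNReal.ofReal_add ENNReal.toReal_nonneg (by positivity), ENNReal.ofReal_toReal hK₁.ne,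
      ENNReal.ofReal_mul (by norm_num), ENNReal.ofReal_toReal hIfin.ne]
    norm_num
  have hnorm : ∀ (b : AspG →₀ ℝ) (θ : Pl4T), conj (pl4Hat b θ) * pl4Hat b θ = ((‖pl4Hat b θ‖ ^ 2 : ℝ) : ℂ) := by
    intro b θ
    rw [Complex.conj_mul']
    push_cast
    rfl
  refine ⟨K₁.toReal + 40 * I.toReal, ?_, ?_, ?_, ?_, ?_, ?_, ?_⟩
  · -- box
    have hm : MeasurableSet (aspBoxᶜ : Set (ℝ × ℝ)) := by
      apply MeasurableSet.compl
      exact (measurable_fst measurableSet_Ioc).inter (measurable_snd measurableSet_Ioc)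
    rw [Measure.map_apply gspB2_measurable hm]
    have : gspB2 ⁻¹' (aspBoxᶜ : Set (ℝ × ℝ)) = ∅ := by
      ext θ
      simp only [Set.mem_preimage, Set.mem_compl_iff, Set.mem_empty_iff_false, iff_false, not_not]
      exact gspB2_mem θ
    rw [this, measure_empty]
  · -- zero
    rw [Measure.map_apply gspB2_measurable (measurableSet_singleton 0)]
    have : gspB2 ⁻¹' {0} = {0} := by
      ext θ
      simp only [Set.mem_preimage, Set.mem_singleton_iff]
      exact asu_B2_eq_zero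
    rw [this, hC.zero]
  · -- int
    intro b hb
    have hc : Continuous fun p => ‖aspHat b p‖ ^ 2 := by
      have c1 := asu_hat_cont b
      fun_prop
    rw [integrable_map_measure hc.aestronglyMeasurable gspB2_measurable.aemeasurable]
    refine (hC.int_sq b hb).congr (Filter.Eventually.of_forall fun θ => ?_)
    simp only [Function.comp]
    rw [asu_hat]
  · -- rep
    intro b w hb
    have hc : Continuous fun p => Complex.exp (Complex.I * (aspPh p w : ℂ)) * ((‖aspHat b p‖ ^ 2 : ℝ) : ℂ) := by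
      have c1 := asu_hat_cont b
      have c2 := asu_ph_cont w
      fun_prop
    rw [integral_map gspB2_measurable.aemeasurable hc.aestronglyMeasurable]
    have h1 := hC.cov b (aspTr w b) hb (by rw [asu_tot, asu_tot_tr]; exact hb)
    rw [asu_cov_eq hev] at h1
    rw [← h1]
    refine integral_congr_ae (Filter.Eventually.of_forall fun θ => ?_)
    show conj (pl4Hat b θ) * pl4Hat (aspTr w b) θ
      = Complex.exp (Complex.I * (aspPh (gspB2 θ) w : ℂ)) * ((‖aspHat b (gspB2 θ)‖ ^ 2 : ℝ) : ℂ)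
    rw [asu_hat b, ← hnorm, ← asu_hat (aspTr w b), asu_hat_tr, asu_hat]
    ring
  · -- rot
    intro G hG hG0
    have hinv : C.map asuBQ = C := pl4_spec_inv' hC asuAQ asuBQ (by
      funext i
      fin_cases i <;> simp [asuBQ]) asu_quarter_dual (asu_quarter h)
    refine asu_inv asuBQ hinv (fun p => (-p.2, p.1)) (fun p => (p.2, -p.1)) (fun p => by simp [aspSq]; ring)
      (fun p => by simp [aspSq]; ring) (fun p => by simp) (by fun_prop) asu_quarter_U2 G hG fun p hp => hG0 p ?_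
    have : (1 : ℝ) ≤ Real.pi ^ 2 := by nlinarith [Real.pi_gt_three]
    exact this.trans hp
  · -- ann
    intro r hr hr2
    rw [hKK]
    have hm : MeasurableSet {p : ℝ × ℝ | r ^ 2 ≤ aspSq p ∧ aspSq p ≤ 4 * r ^ 2} :=
      (measurableSet_le measurable_const asu_sq_cont.measurable).inter
        (measurableSet_le asu_sq_cont.measurable measurable_const)
    rw [Measure.map_apply gspB2_measurable hm]
    rcases le_or_gt r (1 / 4) with h4 | h4
    · refine ((measure_mono ?_).trans (hann (r / 2) (by positivity) (by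
        have := Real.pi_gt_three
        linarith))).trans le_self_add
      intro θ hθ
      simp only [Set.mem_preimage, Set.mem_ofPred_eq, aspSq] at hθ ⊢
      obtain ⟨h1, h2⟩ := hθ
      set x := (gspB2 θ).1
      set y := (gspB2 θ).2
      set M := max |x| |y| with hM
      have hM0 : 0 ≤ M := (abs_nonneg x).trans (le_max_left _ _)
      have hx : |x| ≤ M := le_max_left _ _
      have hy : |y| ≤ M := le_max_right _ _
      have hx2 : x ^ 2 ≤ M ^ 2 := by rw [← sq_abs x]; exact pow_le_pow_left₀ (abs_nonneg _) hx 2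
      have hy2 : y ^ 2 ≤ M ^ 2 := by rw [← sq_abs y]; exact pow_le_pow_left₀ (abs_nonneg _) hy 2
      constructor
      · have h3 : (r / 2) ^ 2 ≤ M ^ 2 := by nlinarith
        exact le_of_sq_le_sq h3 hM0
      · have h3 : M ^ 2 ≤ (2 * r) ^ 2 := by
          rcases max_choice |x| |y| with hc | hc
          · rw [hM, hc, sq_abs]
            nlinarith [sq_nonneg y]
          · rw [hM, hc, sq_abs]
            nlinarith [sq_nonneg x]
        have := le_of_sq_le_sq h3 (by positivity)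
        linarith
    · have hsub : gspB2 ⁻¹' {p : ℝ × ℝ | r ^ 2 ≤ aspSq p ∧ aspSq p ≤ 4 * r ^ 2}
          ⊆ {θ | ENNReal.ofReal (1 / 40) ≤ pl4D θ} := by
        intro θ hθ
        rw [Set.mem_ofPred_eq, asu_D]
        refine ENNReal.ofReal_le_ofReal (le_trans ?_ (asu_DD_ge θ))
        have h16 : (1 / 16 : ℝ) ≤ aspSq (gspB2 θ) := le_trans (by nlinarith) hθ.1
        have hpi2 : Real.pi ^ 2 ≤ 10 := by nlinarith [Real.pi_lt_d2, Real.pi_gt_three]
        have h5 : (4 : ℝ) / 10 ≤ 4 / Real.pi ^ 2 := by gcongr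
        calc (1 / 40 : ℝ) = 4 / 10 * (1 / 16) := by norm_num
          _ ≤ 4 / Real.pi ^ 2 * aspSq (gspB2 θ) := mul_le_mul h5 h16 (by norm_num) (by positivity)
      have hmk := mul_meas_ge_le_lintegral (μ := C) pl4D_meas (ENNReal.ofReal (1 / 40))
      have h40 : (40 : ℝ≥0∞) * ENNReal.ofReal (1 / 40) = 1 := by
        rw [show (40 : ℝ≥0∞) = ENNReal.ofReal 40 by norm_num, ← ENNReal.ofReal_mul (by norm_num)]
        norm_num
      calc C (gspB2 ⁻¹' {p | r ^ 2 ≤ aspSq p ∧ aspSq p ≤ 4 * r ^ 2})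
          ≤ C {θ | ENNReal.ofReal (1 / 40) ≤ pl4D θ} := measure_mono hsub
        _ = 40 * (ENNReal.ofReal (1 / 40) * C {θ | ENNReal.ofReal (1 / 40) ≤ pl4D θ}) := by
            rw [← mul_assoc, h40, one_mul]
        _ ≤ 40 * I := by gcongr
        _ ≤ K₁ + 40 * I := le_add_self
  · -- far
    rw [hKK, lintegral_map asu_DD_meas gspB2_measurable]
    simp_rw [← asu_D]
    calc I ≤ 40 * I := by
          conv_lhs => rw [← one_mul I]
          gcongr
          norm_num
      _ ≤ K₁ + 40 * I := le_add_self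

/-- **B1** = TEX[lem:increment-spectral] -/
theorem asu_spec {a : AspG → ℝ} (h : AspIn a) : ∃ (Cf : Measure (ℝ × ℝ)) (K : ℝ), AspSpec a Cf K := by
  obtain ⟨K, hK⟩ := asu_spec_of h (pl4_spec_C (asu_in h))
  exact ⟨_, K, hK⟩

/-- the equation lemmas of the definitions of this file, cited once -/
theorem asu_eqns_cite : True := by
  have := @asuBQ.eq_1
  have := @asuAQ.eq_1
  trivial

end Claimed.Agent.R292
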