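import Claimed.Agent.R291.Pln.PncDefect

/-!
# Row 292 (S0540), unit SPEC, box B3 : TWO-FRAME SPECTRAL CONTRACT, summable defect, bands, endcaps      (helper212; prefix `asw`, `Asw`)

TeX: AT paper `04-spectral.tex`, eq. (angular-poisson), Prop. `prop:dispersion-defect`, Lemma `lem:spectral-endcap`.
PORT of `R291/Pln/PncDefs` + `R291/Pln/PncDefect` (helper140): MODEL FREE, TORUS FREE.  What is frame free is IMPORTED from there
(`pncQ pncN pncSc pncChi pncD pncCd pncP pncPr`, `pnc_ang` = exact angular identity in the Cayley variable, ...).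

**Contract `AswF`** (ONE reflection frame) = `PncIn` of row 291 WITHOUT the rotation field and with the Cayley variable `aswLt d l = (2/d) tan (d l/2)` of a frame
whose positive normal transfer is the translation by `d` (`0 < d ≤ 2`; axial frame of the unit grid: `d = 2`; diagonal frame: `d = √2`):
* `C0` = the spectral measure restricted to the punctured round disc `0 < |p| < r0`, IN THE COORDINATES `(k, l)` OF THE FRAME (`k` tangential, `l` normal); annuli `≤ K`;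
* `nu` = mixing measure in `(k, s)`; `E` = finite measure (rest of the torus, aliases); `mix` = exact Cauchy mixture in the Cayley variable.
**Contract `AswIn`** = two frames `A` (axial), `D` (diagonal) of the SAME measure: `D.C0 = A.C0.map aswRot`, `aswRot` = passage to the frame turned by `π/4`.
The sixfold cancellation of row 291 is replaced by `χ ∘ aswRot = -χ` (`asw_chi_rot`): the radial integrals of `χ` in the two frames are opposite.

Outputs (for BOTH frames `I = J.A`, `I = J.D`): `asw_defect`, `asw_D_integrable`, `asw_defect_small`, `asw_bands`, `asw_bands'`, `asw_endcaps`, `asw_strip`, `asw_cap_tail`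
+ the single frame toolbox `asw_ae_disc asw_shell asw_far_lt_top asw_dyadic asw_ball_Q asw_Q_integrable asw_N_integrable asw_ae_nu asw_mix_nonneg asw_nu_far asw_mix_real asw_int_far`.
-/

set_option autoImplicit false

namespace Claimed.Agent.R292

open MeasureTheory Filter Topology Claimed.Agent.R291
open scoped ENNReal Real

/-! ## 0. Definitions -/

/-- the Cayley normal variable `lt = (2/d) tan (d l/2)` -/
noncomputable def aswLt (d l : ℝ) : ℝ := 2 / d * Real.tan (d / 2 * l)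

/-- the chart `(k, l) ↦ (k, lt)` -/
noncomputable def aswCh (d : ℝ) (p : ℝ × ℝ) : ℝ × ℝ := (p.1, aswLt d p.2)

/-- coordinates in the frame turned by `π/4`: `k' = (k + l)/√2`, `l' = (l - k)/√2` -/
noncomputable def aswRot (p : ℝ × ℝ) : ℝ × ℝ := ((p.1 + p.2) / Real.sqrt 2, (p.2 - p.1) / Real.sqrt 2)

/-- the inverse of `aswRot` -/
noncomputable def aswRotI (p : ℝ × ℝ) : ℝ × ℝ := ((p.1 - p.2) / Real.sqrt 2, (p.1 + p.2) / Real.sqrt 2)

/-- **the local spectral contract of one reflection frame** (see the header) -/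
structure AswF where
  d : ℝ
  C0 : Measure (ℝ × ℝ)
  nu : Measure (ℝ × ℝ)
  E : Measure (ℝ × ℝ)
  r0 : ℝ
  K : ℝ
  d_pos : 0 < d
  d_le : d ≤ 2
  r0_pos : 0 < r0
  r0_le : r0 ≤ 1 / 2
  supp : C0 {p | ¬ (0 < pncN p ∧ pncN p < r0)} = 0
  ann : ∀ r : ℝ, 0 < r → C0 {p | r ≤ pncN p ∧ pncN p ≤ 2 * r} ≤ ENNReal.ofReal K
  Efin : IsFiniteMeasure E
  E0 : E {x | x.1 = 0} = 0
  nu0 : nu {x | x.1 = 0 ∨ x.2 < 0} = 0
  mix : ∀ G : ℝ × ℝ → ℝ≥0∞, Measurable G →
    ∫⁻ x, pncP G x ∂nu = ∫⁻ p in {p : ℝ × ℝ | p.1 ≠ 0}, G (aswCh d p) ∂C0 + ∫⁻ x, G x ∂E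

/-- **the two-frame contract** -/
structure AswIn where
  A : AswF
  D : AswF
  rot : D.C0 = A.C0.map aswRot

/-- the truncated defects of a frame are bounded -/
def AswTrunc (I : AswF) : Prop := ∃ M : ℝ, ∀ ε : ℝ, 0 < ε → ∫ x in {x : ℝ × ℝ | ε < |x.1|}, pncD x ∂I.nu ≤ M

/-- the bands of a frame are bounded -/
def AswBands (I : AswF) : Prop := ∃ K1 : ℝ, ∀ r : ℝ, 0 < r → I.nu {x | r ≤ |x.1| ∧ |x.1| ≤ 2 * r} ≤ ENNReal.ofReal K1

/-- the endcaps of a frame -/
def AswCaps (I : AswF) : Prop := ∃ K3 : ℝ, ∀ b h : ℝ, 0 < h → h < b / 10 →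
    I.C0 {p | b < pncN p ∧ pncN p ≤ 2 * b ∧ |p.1| ≤ h} ≤ ENNReal.ofReal (K3 * h / b)

theorem asw_eqns_cite : True := by
  have := @aswLt.eq_1
  have := @aswCh.eq_1
  have := @aswRot.eq_1
  have := @aswRotI.eq_1
  have := @AswTrunc.eq_1
  have := @AswBands.eq_1
  have := @AswCaps.eq_1
  trivial

/-! ## 1. The turn by `π/4` -/

theorem asw_sqrt2_sq : Real.sqrt 2 ^ 2 = 2 := Real.sq_sqrt (by norm_num)

theorem asw_sqrt2_pos : 0 < Real.sqrt 2 := Real.sqrt_pos.2 (by norm_num)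

theorem asw_sqrt2_bd : 1.414 < Real.sqrt 2 ∧ Real.sqrt 2 < 1.415 := by
  have h3 := asw_sqrt2_sq
  have h0 := asw_sqrt2_pos
  constructor
  · by_contra h
    nlinarith [not_lt.1 h]
  · by_contra h
    nlinarith [not_lt.1 h]

theorem asw_Q_rot (p : ℝ × ℝ) : pncQ (aswRot p) = pncQ p := by
  unfold pncQ aswRot
  simp only [div_pow, asw_sqrt2_sq]
  ring

theorem asw_Q_rotI (p : ℝ × ℝ) : pncQ (aswRotI p) = pncQ p := by
  unfold pncQ aswRotI
  simp only [div_pow, asw_sqrt2_sq]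
  ring

theorem asw_N_rot (p : ℝ × ℝ) : pncN (aswRot p) = pncN p := by unfold pncN; rw [asw_Q_rot]

theorem asw_N_rotI (p : ℝ × ℝ) : pncN (aswRotI p) = pncN p := by unfold pncN; rw [asw_Q_rotI]

theorem asw_rot_rotI (p : ℝ × ℝ) : aswRot (aswRotI p) = p := by
  have h := asw_sqrt2_sq
  have h0 := asw_sqrt2_pos.ne'
  unfold aswRot aswRotI
  ext
  · simp only
    field_simp
    rw [h]; ring
  · simp only
    field_simp
    rw [h]; ring

theorem asw_rotI_rot (p : ℝ × ℝ) : aswRotI (aswRot p) = p := by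
  have h := asw_sqrt2_sq
  have h0 := asw_sqrt2_pos.ne'
  unfold aswRot aswRotI
  ext
  · simp only
    field_simp
    rw [h]; ring
  · simp only
    field_simp
    rw [h]; ring

theorem asw_rot_continuous : Continuous aswRot := by unfold aswRot; fun_prop

theorem asw_rotI_continuous : Continuous aswRotI := by unfold aswRotI; fun_prop

/-- **the fourth harmonic changes sign under the turn by `π/4`** -/
theorem asw_chi_rot (p : ℝ × ℝ) (hp : p ≠ 0) : pncChi (aswRot p) = - pncChi p := by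
  have hQ : 0 < p.1 ^ 2 + p.2 ^ 2 := by
    by_contra h
    have h1 : p.1 ^ 2 + p.2 ^ 2 = 0 := le_antisymm (not_lt.1 h) (by positivity)
    have a : p.1 = 0 := by nlinarith [sq_nonneg p.1, sq_nonneg p.2]
    have b : p.2 = 0 := by nlinarith [sq_nonneg p.1, sq_nonneg p.2]
    exact hp (Prod.ext a b)
  unfold pncChi aswRot
  simp only [div_pow, asw_sqrt2_sq]
  have e : (p.1 + p.2) ^ 2 / 2 + (p.2 - p.1) ^ 2 / 2 = p.1 ^ 2 + p.2 ^ 2 := by ring
  rw [e]
  field_simp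
  ring

/-! ## 2. The Cayley variable -/

theorem asw_lt_neg (d l : ℝ) : aswLt d (-l) = -aswLt d l := by
  unfold aswLt
  rw [mul_neg, Real.tan_neg, mul_neg]

theorem asw_lt_aux {d : ℝ} (hd : 0 < d) (hd2 : d ≤ 2) {l : ℝ} (h0 : 0 ≤ l) (h1 : l ≤ 1 / 2) :
    l ≤ aswLt d l ∧ aswLt d l - l ≤ l ^ 3 := by
  have hx0 : 0 ≤ d / 2 * l := by positivity
  have hx1 : d / 2 * l ≤ 1 / 2 := by nlinarith
  obtain ⟨a, b⟩ := pnc_tan_aux hx0 hx1
  have e1 : 2 / d * (d / 2 * l) = l := by field_simp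
  have e2 : 2 / d * (d / 2 * l) ^ 3 = (d / 2) ^ 2 * l ^ 3 := by
    field_simp
  have hc : 0 < 2 / d := by positivity
  have hd3 : (d / 2) ^ 2 ≤ 1 := by nlinarith
  unfold aswLt
  constructor
  · calc l = 2 / d * (d / 2 * l) := e1.symm
      _ ≤ _ := mul_le_mul_of_nonneg_left a hc.le
  · calc 2 / d * Real.tan (d / 2 * l) - l
        = 2 / d * (Real.tan (d / 2 * l) - d / 2 * l) := by rw [mul_sub, e1]
      _ ≤ 2 / d * (d / 2 * l) ^ 3 := mul_le_mul_of_nonneg_left b hc.le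
      _ = (d / 2) ^ 2 * l ^ 3 := e2
      _ ≤ 1 * l ^ 3 := mul_le_mul_of_nonneg_right hd3 (by positivity)
      _ = l ^ 3 := one_mul _

theorem asw_lt_ge {d : ℝ} (hd : 0 < d) (hd2 : d ≤ 2) {l : ℝ} (hl : |l| ≤ 1 / 2) : |l| ≤ |aswLt d l| := by
  rcases abs_cases l with ⟨h, h0⟩ | ⟨h, h0⟩
  · rw [h] at hl ⊢
    exact (asw_lt_aux hd hd2 h0 hl).1.trans (le_abs_self _)
  · rw [h] at hl ⊢
    have := (asw_lt_aux hd hd2 (by linarith : 0 ≤ -l) hl).1
    rw [asw_lt_neg] at this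
    exact this.trans (neg_le_abs _)

theorem asw_lt_le {d : ℝ} (hd : 0 < d) (hd2 : d ≤ 2) {l : ℝ} (hl : |l| ≤ 1 / 2) : |aswLt d l - l| ≤ |l| ^ 3 := by
  rcases abs_cases l with ⟨h, h0⟩ | ⟨h, h0⟩
  · rw [h] at hl ⊢
    obtain ⟨a, b⟩ := asw_lt_aux hd hd2 h0 hl
    rwa [abs_of_nonneg (by linarith)]
  · rw [h] at hl ⊢
    obtain ⟨a, b⟩ := asw_lt_aux hd hd2 (by linarith : 0 ≤ -l) hl
    rw [asw_lt_neg] at a b
    rw [abs_of_nonpos (by linarith)]
    linarith

theorem asw_lt_measurable (d : ℝ) : Measurable (aswLt d) := by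
  unfold aswLt
  simp only [Real.tan_eq_sin_div_cos]
  fun_prop

theorem asw_ch_measurable (d : ℝ) : Measurable (aswCh d) := by
  unfold aswCh
  exact measurable_fst.prodMk ((asw_lt_measurable d).comp measurable_snd)

/-- the price of the Cayley variable is `O(|p|²)` -/
theorem asw_chi_diff_le {k u v : ℝ} (huv : |v| ≤ |u|) (hd : |u - v| ≤ |v| ^ 3) :
    |pncChi (k, u) - pncChi (k, v)| ≤ 16 * v ^ 2 := by
  by_cases hu : u = 0
  · have hv : v = 0 := by
      rw [hu, abs_zero] at huv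
      exact abs_eq_zero.1 (le_antisymm huv (abs_nonneg _))
    rw [hu, hv]; simp
  by_cases hv : v = 0
  · rw [hv] at hd
    simp at hd
    exact absurd (sub_eq_zero.1 (by simpa using hd) : u = 0) hu
  have hu2 : 0 < u ^ 2 := by positivity
  have hv2 : 0 < v ^ 2 := by positivity
  have hU : 0 < k ^ 2 + u ^ 2 := by positivity
  have hV : 0 < k ^ 2 + v ^ 2 := by positivity
  have e : pncChi (k, u) - pncChi (k, v)
      = -(8 * k ^ 2 * ((u ^ 2 - v ^ 2) * (k ^ 4 - u ^ 2 * v ^ 2))) / ((k ^ 2 + u ^ 2) ^ 2 * (k ^ 2 + v ^ 2) ^ 2) := by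
    unfold pncChi
    simp only
    field_simp
    ring
  have h1 : |k ^ 4 - u ^ 2 * v ^ 2| ≤ (k ^ 2 + u ^ 2) * (k ^ 2 + v ^ 2) := by
    rw [abs_le]
    constructor <;> nlinarith [mul_nonneg (sq_nonneg k) hu2.le, mul_nonneg (sq_nonneg k) hv2.le, mul_pos hu2 hv2,
      sq_nonneg (k ^ 2)]
  have h2 : |u ^ 2 - v ^ 2| ≤ 2 * |v| ^ 3 * |u| := by
    have : u ^ 2 - v ^ 2 = (u - v) * (u + v) := by ring
    rw [this, abs_mul]
    have h3 : |u + v| ≤ 2 * |u| := (abs_add_le u v).trans (by linarith)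
    calc |u - v| * |u + v| ≤ (|v| ^ 3) * (2 * |u|) := mul_le_mul hd h3 (abs_nonneg _) (by positivity)
      _ = _ := by ring
  have h4 : |v| * |u| ≤ k ^ 2 + u ^ 2 := by
    have : |v| * |u| ≤ |u| * |u| := mul_le_mul_of_nonneg_right huv (abs_nonneg _)
    rw [← sq, sq_abs] at this
    nlinarith [sq_nonneg k]
  rw [e, abs_div, abs_neg, abs_of_pos (by positivity : 0 < (k ^ 2 + u ^ 2) ^ 2 * (k ^ 2 + v ^ 2) ^ 2), div_le_iff₀ (by positivity),
    abs_mul (8 * k ^ 2), abs_mul (u ^ 2 - v ^ 2), abs_of_nonneg (by positivity : 0 ≤ 8 * k ^ 2)]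
  have h5 : |u ^ 2 - v ^ 2| ≤ 2 * v ^ 2 * (k ^ 2 + u ^ 2) := by
    refine h2.trans ?_
    have : 2 * |v| ^ 3 * |u| = 2 * v ^ 2 * (|v| * |u|) := by rw [← sq_abs v]; ring
    rw [this]
    exact mul_le_mul_of_nonneg_left h4 (by positivity)
  calc 8 * k ^ 2 * (|u ^ 2 - v ^ 2| * |k ^ 4 - u ^ 2 * v ^ 2|)
      ≤ 8 * (k ^ 2 + v ^ 2) * ((2 * v ^ 2 * (k ^ 2 + u ^ 2)) * ((k ^ 2 + u ^ 2) * (k ^ 2 + v ^ 2))) := by
        refine mul_le_mul (by nlinarith) (mul_le_mul h5 h1 (abs_nonneg _) (by positivity)) (by positivity) (by positivity)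
    _ = 16 * v ^ 2 * ((k ^ 2 + u ^ 2) ^ 2 * (k ^ 2 + v ^ 2) ^ 2) := by ring

theorem asw_chi_dist {d : ℝ} (hd : 0 < d) (hd2 : d ≤ 2) {p : ℝ × ℝ} (hp : pncN p ≤ 1 / 2) :
    |pncChi (aswCh d p) - pncChi p| ≤ 16 * pncQ p := by
  have hl : |p.2| ≤ 1 / 2 := (pnc_abs_snd_le p).trans hp
  have := asw_chi_diff_le (k := p.1) (asw_lt_ge hd hd2 hl) (asw_lt_le hd hd2 hl)
  unfold aswCh
  refine this.trans ?_
  unfold pncQ
  nlinarith [sq_nonneg p.1]

/-- the Cayley variable is monotone and `3`-Lipschitz on `|l| ≤ 0.83` -/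
theorem asw_lt_lip {d : ℝ} (hd : 0 < d) (hd2 : d ≤ 2) {l1 l2 : ℝ} (h12 : l1 ≤ l2) (h1 : |l1| ≤ 0.83) (h2 : |l2| ≤ 0.83) :
    aswLt d l1 ≤ aswLt d l2 ∧ aswLt d l2 - aswLt d l1 ≤ 3 * (l2 - l1) := by
  set x1 := d / 2 * l1 with hx1
  set x2 := d / 2 * l2 with hx2
  have b1 : |x1| ≤ 0.83 := by
    rw [hx1, abs_mul, abs_of_pos (by positivity)]
    nlinarith [abs_nonneg l1]
  have b2 : |x2| ≤ 0.83 := by
    rw [hx2, abs_mul, abs_of_pos (by positivity)]
    nlinarith [abs_nonneg l2]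
  have c1 : 0.65 ≤ Real.cos x1 := by
    have := Real.one_sub_sq_div_two_le_cos (x := x1)
    have h : x1 ^ 2 ≤ 0.83 ^ 2 := by rw [← sq_abs x1]; exact pow_le_pow_left₀ (abs_nonneg _) b1 2
    nlinarith
  have c2 : 0.65 ≤ Real.cos x2 := by
    have := Real.one_sub_sq_div_two_le_cos (x := x2)
    have h : x2 ^ 2 ≤ 0.83 ^ 2 := by rw [← sq_abs x2]; exact pow_le_pow_left₀ (abs_nonneg _) b2 2
    nlinarith
  have hd0 : 0 ≤ x2 - x1 := by
    rw [hx1, hx2, ← mul_sub]; exact mul_nonneg (by positivity) (by linarith)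
  have hd3 : x2 - x1 ≤ π := by
    have := Real.pi_gt_three
    have := abs_le.1 b1
    have := abs_le.1 b2
    linarith
  have et : Real.tan x2 - Real.tan x1 = Real.sin (x2 - x1) / (Real.cos x1 * Real.cos x2) := by
    rw [Real.tan_eq_sin_div_cos, Real.tan_eq_sin_div_cos, Real.sin_sub]
    have : Real.cos x1 ≠ 0 := by linarith
    have : Real.cos x2 ≠ 0 := by linarith
    field_simp
  have hprod : 0.42 ≤ Real.cos x1 * Real.cos x2 := by nlinarith
  have s0 : 0 ≤ Real.sin (x2 - x1) := Real.sin_nonneg_of_nonneg_of_le_pi hd0 hd3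
  have s3 : Real.sin (x2 - x1) ≤ x2 - x1 := Real.sin_le hd0
  have t0 : 0 ≤ Real.tan x2 - Real.tan x1 := by rw [et]; exact div_nonneg s0 (by linarith)
  have t1 : Real.tan x2 - Real.tan x1 ≤ 3 * (x2 - x1) := by
    rw [et, div_le_iff₀ (by linarith)]
    nlinarith
  have e : aswLt d l2 - aswLt d l1 = 2 / d * (Real.tan x2 - Real.tan x1) := by
    unfold aswLt; ring
  have hc : (0 : ℝ) < 2 / d := by positivity
  constructor
  · have : 0 ≤ aswLt d l2 - aswLt d l1 := by rw [e]; exact mul_nonneg hc.le t0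
    linarith
  · rw [e]
    calc 2 / d * (Real.tan x2 - Real.tan x1) ≤ 2 / d * (3 * (x2 - x1)) := by gcongr
      _ = 3 * (l2 - l1) := by
          rw [hx1, hx2]; field_simp

end Claimed.Agent.R292
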